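import Vale.Agent.P060.Weil

/-! P060: Artin-Schreier reduction and list bounds. -/

namespace Vale.Agent.P060

open Finset Polynomial Vale.Agent.P056.Sharp

noncomputable section

open scoped Classical

variable {F : Type} [Field F] [Fintype F] [Algebra (ZMod 2) F]

/-- the trace of `f` is a constant function on `F`. -/
def TrC (f : F[X]) : Prop := ∃ c : ZMod 2, ∀ s : F, tr (f.eval s) = c

/-- the field is large compared with the degree `D`, with bias bound `β`. -/
def Big (F : Type) [Fintype F] (D : ℕ) (β : ℝ) : Prop :=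
  ∃ a : ℕ, Fintype.card F = 2 ^ (2 * a) ∧ 2 * ((D : ℝ) + 3) / 2 ^ a ≤ β ∧ β < 1

lemma Big.mono {D D' : ℕ} {β : ℝ} (h : Big F D β) (hD : D' ≤ D) : Big F D' β := by
  obtain ⟨a, h1, h2, h3⟩ := h
  refine ⟨a, h1, le_trans ?_ h2, h3⟩
  have : (D' : ℝ) ≤ D := by exact_mod_cast hD
  gcongr

lemma AS_exists_rt : ∃ r : F →+* F, ∀ x, r x ^ 2 = x := by
  have := charP_two (F := F)
  have : Fact (Nat.Prime 2) := ⟨Nat.prime_two⟩
  exact ⟨(frobeniusEquiv F 2).symm, fun x => frobeniusEquiv_symm_pow_p F 2 x⟩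

omit [Fintype F] [Algebra (ZMod 2) F] in
lemma AS_iter_pow {r : F → F} (hr : ∀ x, r x ^ 2 = x) (k : ℕ) (x : F) :
    r^[k] x ^ 2 ^ k = x := by
  induction k with
  | zero => simp
  | succ k ih => rw [Function.iterate_succ_apply', pow_succ', pow_mul, hr, ih]

lemma AS_tr_pow (k : ℕ) (x : F) : tr (x ^ 2 ^ k) = tr x := by
  induction k with
  | zero => simp
  | succ k ih => rw [pow_succ, pow_mul, tr_sq, ih]

lemma AS_odd_inj {m m' k k' : ℕ} (hm : Odd m) (hm' : Odd m') (h : m * 2 ^ k = m' * 2 ^ k') :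
    m = m' ∧ k = k' := by
  induction k generalizing k' with
  | zero =>
    cases k' with
    | zero => simpa using h
    | succ k' =>
      rw [pow_zero, mul_one, pow_succ, ← mul_assoc] at h
      obtain ⟨j, hj⟩ := hm
      omega
  | succ k ih =>
    cases k' with
    | zero =>
      rw [pow_zero, mul_one, pow_succ, ← mul_assoc] at h
      obtain ⟨j, hj⟩ := hm'
      omega
    | succ k' =>
      rw [pow_succ, pow_succ, ← mul_assoc, ← mul_assoc] at h
      obtain ⟨h1, h2⟩ := ih (Nat.eq_of_mul_eq_mul_right two_pos h)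
      exact ⟨h1, congrArg _ h2⟩

/-- `g` is the reduced form of `f`. -/
structure AS_Red (r : F →+* F) (D : ℕ) (f g : F[X]) : Prop where
  deg : g.natDegree ≤ D
  even : ∀ n, ¬ Odd n → g.coeff n = 0
  trace : ∀ s, tr (f.eval s) = tr (f.coeff 0) + tr (g.eval s)
  odd : ∀ m, Odd m → g.coeff m = ∑ k ∈ range (Nat.log 2 D + 1), r^[k] (f.coeff (m * 2 ^ k))

omit [Fintype F] in
lemma AS_Red.add {r : F →+* F} {D : ℕ} {f g f' g' : F[X]} (h : AS_Red r D f g)
    (h' : AS_Red r D f' g') : AS_Red r D (f + f') (g + g') := by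
  refine ⟨natDegree_add_le_of_degree_le h.deg h'.deg, fun n hn => ?_, fun s => ?_, fun m hm => ?_⟩
  · rw [coeff_add, h.even n hn, h'.even n hn, add_zero]
  · rw [eval_add, eval_add, coeff_add, tr_add, tr_add, tr_add, h.trace, h'.trace]
    ring
  · rw [coeff_add, h.odd m hm, h'.odd m hm, ← sum_add_distrib]
    exact sum_congr rfl fun k _ => by rw [coeff_add, iterate_map_add]

lemma AS_red_monomial {r : F →+* F} (hr : ∀ x, r x ^ 2 = x) {D n : ℕ} (hn : n ≤ D) (c : F) :
    ∃ g, AS_Red r D (monomial n c) g := by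
  rcases eq_or_ne n 0 with rfl | h0
  · refine ⟨0, by simp, fun _ _ => rfl, fun s => by simp [tr_zero], fun m hm => ?_⟩
    refine (sum_eq_zero fun k _ => ?_).symm
    have : 0 ≠ m * 2 ^ k := (Nat.mul_pos hm.pos (by positivity)).ne
    rw [coeff_monomial, if_neg this, iterate_map_zero]
  · obtain ⟨k₀, m₀, hm₀, rfl⟩ := Nat.exists_eq_two_pow_mul_odd h0
    refine ⟨monomial m₀ (r^[k₀] c), ?_, fun n hn => ?_, fun s => ?_, fun m hm => ?_⟩
    · exact (natDegree_monomial_le _).trans ((Nat.le_mul_of_pos_left _ (by positivity)).trans hn)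
    · rw [coeff_monomial, if_neg fun h : m₀ = n => hn (h ▸ hm₀)]
    · rw [coeff_monomial, if_neg h0, tr_zero, zero_add, eval_monomial, eval_monomial,
        ← AS_tr_pow k₀ (r^[k₀] c * s ^ m₀), mul_pow, AS_iter_pow hr, ← pow_mul, mul_comm m₀]
    · have hk : k₀ ∈ range (Nat.log 2 D + 1) := mem_range.2 (Nat.lt_succ_of_le
        (Nat.le_log_of_pow_le one_lt_two ((Nat.le_mul_of_pos_right _ hm₀.pos).trans hn)))
      rw [sum_eq_single_of_mem k₀ hk fun k _ hk' => ?_]
      · rw [coeff_monomial, coeff_monomial]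
        by_cases h : m₀ = m
        · rw [if_pos h, if_pos (by rw [h, mul_comm])]
        · rw [if_neg h, if_neg fun h' => h (AS_odd_inj hm₀ hm ((mul_comm _ _).trans h')).1,
            iterate_map_zero]
      · rw [coeff_monomial,
          if_neg fun h' => hk' (AS_odd_inj hm₀ hm ((mul_comm _ _).trans h')).2.symm,
          iterate_map_zero]

lemma AS_exists_red {r : F →+* F} (hr : ∀ x, r x ^ 2 = x) {D : ℕ} {f : F[X]}
    (hf : f.natDegree ≤ D) : ∃ g, AS_Red r D f g := by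
  have key : ∀ s : Finset ℕ, (∀ n ∈ s, n ≤ D) →
      ∃ g, AS_Red r D (∑ n ∈ s, monomial n (f.coeff n)) g := by
    intro s
    induction s using Finset.induction_on with
    | empty =>
      intro _
      simpa using AS_red_monomial hr (Nat.zero_le D) 0
    | insert n s hn ih =>
      intro hs
      obtain ⟨g, hg⟩ := ih fun m hm => hs m (mem_insert_of_mem hm)
      obtain ⟨g', hg'⟩ := AS_red_monomial hr (hs n (mem_insert_self n s)) (f.coeff n)
      rw [sum_insert hn]
      exact ⟨_, hg'.add hg⟩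
  have := key f.support fun n hn => (le_natDegree_of_mem_supp n hn).trans hf
  rwa [← as_sum_support] at this

lemma AS_Red.bias {r : F →+* F} {D : ℕ} {β : ℝ} (hB : Big F D β) {f g : F[X]}
    (h : AS_Red r D f g) (hg : g ≠ 0) : |av (fun s : F => chi (f.eval s))| ≤ β := by
  obtain ⟨a, h1, h2, h3⟩ := hB
  have hodd : Odd g.natDegree := by
    by_contra h4
    exact hg (leadingCoeff_eq_zero.1 (h.even _ h4))
  have hp : (0 : ℝ) < 2 ^ a := by positivity
  have hD : D ≤ 2 ^ a := by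
    have h4 := (div_lt_one hp).1 (h2.trans_lt h3)
    have h5 : (D : ℝ) ≤ 2 ^ a := by
      have : (0 : ℝ) ≤ D := Nat.cast_nonneg D
      linarith
    exact_mod_cast h5
  have h4 := weil h1 g hodd (h.deg.trans hD)
  have h5 : ∀ s, chi (f.eval s) = chi (f.coeff 0) * chi (g.eval s) := fun s => by
    unfold chi
    rw [h.trace, sgn_add]
  simp only [h5]
  rw [av_const_mul, abs_mul, abs_chi, one_mul]
  refine h4.trans (le_trans ?_ h2)
  have : (g.natDegree : ℝ) ≤ D := by exact_mod_cast h.deg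
  gcongr

lemma AS_sum_eq_zero {r : F →+* F} (hr : ∀ x, r x ^ 2 = x) {D : ℕ} {β : ℝ} (hB : Big F D β)
    {f : F[X]} (hf : f.natDegree ≤ D) (hc : TrC f) {m : ℕ} (hm : Odd m) :
    ∑ k ∈ range (Nat.log 2 D + 1), r^[k] (f.coeff (m * 2 ^ k)) = 0 := by
  obtain ⟨g, hg⟩ := AS_exists_red hr hf
  have h0 : g = 0 := by
    by_contra h0
    have h1 := hg.bias hB h0
    obtain ⟨c, hc⟩ := hc
    obtain ⟨a, -, -, h3⟩ := hB
    have h2 : ∀ s, chi (f.eval s) = sgn c := fun s => congrArg sgn (hc s)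
    simp only [h2] at h1
    rw [av_const, abs_sgn] at h1
    linarith
  rw [← hg.odd m hm, h0, coeff_zero]

/-- (a) -/
theorem bias_le {D : ℕ} {β : ℝ} (hB : Big F D β) {f : F[X]} (hf : f.natDegree ≤ D)
    (hc : ¬ TrC f) : |av (fun s : F => chi (f.eval s))| ≤ β := by
  obtain ⟨r, hr⟩ := AS_exists_rt (F := F)
  obtain ⟨g, hg⟩ := AS_exists_red hr hf
  refine hg.bias hB fun h0 => hc ⟨tr (f.coeff 0), fun s => ?_⟩
  rw [hg.trace, h0, eval_zero, tr_zero, add_zero]

/-- (b) -/
theorem not_trC_of_coeff {D : ℕ} {β : ℝ} (hB : Big F D β) {f : F[X]} (hf : f.natDegree ≤ D)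
    {n : ℕ} (hn : Odd n) (hD : D < 2 * n) (h : f.coeff n ≠ 0) : ¬ TrC f := by
  intro hc
  obtain ⟨r, hr⟩ := AS_exists_rt (F := F)
  have h1 := AS_sum_eq_zero hr hB hf hc hn
  rw [sum_range_succ', sum_eq_zero fun k _ => ?_] at h1
  · exact h (by simpa using h1)
  · rw [coeff_eq_zero_of_natDegree_lt (hf.trans_lt (hD.trans_le ?_)), iterate_map_zero]
    rw [mul_comm n, pow_succ]
    exact Nat.mul_le_mul_right n (Nat.le_mul_of_pos_left 2 (by positivity))

/-- (c) -/
theorem const_of_many {D : ℕ} {β : ℝ} (hB : Big F D β) {f : F[X]} (hf : f.natDegree ≤ D)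
    (T : Finset F) (hT : D < T.card) (h : ∀ θ ∈ T, TrC (C θ * f)) : f.natDegree = 0 := by
  obtain ⟨r, hr⟩ := AS_exists_rt (F := F)
  have := charP_two (F := F)
  have : Fact (Nat.Prime 2) := ⟨Nat.prime_two⟩
  rcases Nat.eq_zero_or_pos D with rfl | hD
  · exact Nat.le_zero.1 hf
  have key : ∀ m, Odd m → ∀ k ≤ Nat.log 2 D, f.coeff (m * 2 ^ k) = 0 := by
    intro m hm k hk
    have hp : (∑ j ∈ range (Nat.log 2 D + 1), monomial (2 ^ (Nat.log 2 D - j))
        (f.coeff (m * 2 ^ j) ^ 2 ^ (Nat.log 2 D - j)) : F[X]) = 0 := by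
      refine eq_zero_of_natDegree_lt_card_of_eval_eq_zero' _ T (fun θ hθ => ?_)
        (lt_of_le_of_lt (natDegree_sum_le_of_forall_le _ _ fun j _ => ?_) hT)
      · have h1 := AS_sum_eq_zero hr hB ((natDegree_C_mul_le θ f).trans hf) (h θ hθ) hm
        have h2 := congrArg (· ^ 2 ^ Nat.log 2 D) h1
        simp only [sum_pow_char_pow] at h2
        rw [zero_pow (by positivity)] at h2
        rw [eval_finsetSum, ← h2]
        refine sum_congr rfl fun j hj => ?_
        have h3 : 2 ^ Nat.log 2 D = 2 ^ j * 2 ^ (Nat.log 2 D - j) := by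
          rw [← pow_add, Nat.add_sub_cancel' (Nat.lt_succ_iff.1 (mem_range.1 hj))]
        rw [eval_monomial, h3, pow_mul, AS_iter_pow hr, coeff_C_mul, mul_pow, mul_comm]
      · exact (natDegree_monomial_le _).trans ((Nat.pow_le_pow_right two_pos
          (Nat.sub_le _ _)).trans (Nat.pow_log_le_self 2 hD.ne'))
    have h1 := congrArg (coeff · (2 ^ (Nat.log 2 D - k))) hp
    simp only [finsetSum_coeff, coeff_zero] at h1
    rw [sum_eq_single_of_mem k (mem_range.2 (Nat.lt_succ_of_le hk)) fun j hj hjk => ?_,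
      coeff_monomial, if_pos rfl] at h1
    · exact eq_zero_of_pow_eq_zero h1
    · rw [coeff_monomial, if_neg fun h2 => hjk ?_]
      have h3 := Nat.pow_right_injective le_rfl h2
      have h4 := mem_range.1 hj
      omega
  refine Nat.le_zero.1 (natDegree_le_iff_coeff_eq_zero.2 fun n hn => ?_)
  obtain ⟨k, m, hm, rfl⟩ := Nat.exists_eq_two_pow_mul_odd hn.ne'
  rcases le_or_gt k (Nat.log 2 D) with hk | hk
  · rw [mul_comm]
    exact key m hm k hk
  · exact coeff_eq_zero_of_natDegree_lt (hf.trans_lt ((Nat.lt_pow_of_log_lt one_lt_two hk).trans_le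
      (Nat.le_mul_of_pos_right _ hm.pos)))

/-- (c'): `pos` is a family of odd positions above `D / 2` on which the span of `ψ` embeds. -/
theorem span_of_many {D : ℕ} {β : ℝ} (hB : Big F D β) {ι κ : Type} [Fintype ι] (ψ : ι → F[X])
    (hψ : ∀ i, (ψ i).natDegree ≤ D) (pos : κ → ℕ) (hpos : ∀ k, Odd (pos k) ∧ D < 2 * pos k)
    (hinj : ∀ c : ι → F, (∀ k, (∑ i, C (c i) * ψ i).coeff (pos k) = 0) → c = 0)
    {f : F[X]} (hf : f.natDegree ≤ D) (T : Finset F) (hT : D + 1 < T.card)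
    (h : ∀ θ ∈ T, ∃ c : ι → F, TrC (C θ * f + ∑ i, C (c i) * ψ i)) :
    ∃ (c0 : F) (c : ι → F), f = C c0 + ∑ i, C (c i) * ψ i := by
  choose! c hc using h
  have hdeg : ∀ c : ι → F, (∑ i, C (c i) * ψ i).natDegree ≤ D := fun c =>
    natDegree_sum_le_of_forall_le _ _ fun i _ => (natDegree_C_mul_le _ _).trans (hψ i)
  have h1 : ∀ θ ∈ T, ∀ k, θ * f.coeff (pos k) + (∑ i, C (c θ i) * ψ i).coeff (pos k) = 0 := by
    intro θ hθ k
    by_contra h2
    refine not_trC_of_coeff hB (natDegree_add_le_of_degree_le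
      ((natDegree_C_mul_le θ f).trans hf) (hdeg _)) (hpos k).1 (hpos k).2 ?_ (hc θ hθ)
    rwa [coeff_add, coeff_C_mul]
  obtain ⟨θ₀, hθ₀, h0⟩ := exists_mem_ne (show 1 < T.card by omega) 0
  have h2 : ∀ θ ∈ T, ∀ i, c θ i = θ * (c θ₀ i / θ₀) := by
    intro θ hθ i
    refine sub_eq_zero.1 (congrFun (hinj (fun i => c θ i - θ * (c θ₀ i / θ₀)) fun k => ?_) i)
    have h3 := h1 θ hθ k
    have h4 := h1 θ₀ hθ₀ k
    simp only [finsetSum_coeff, coeff_C_mul] at h3 h4 ⊢
    have h5 : ∀ i, (c θ i - θ * (c θ₀ i / θ₀)) * (ψ i).coeff (pos k) =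
        c θ i * (ψ i).coeff (pos k) - θ / θ₀ * (c θ₀ i * (ψ i).coeff (pos k)) := fun i => by ring
    simp only [h5]
    rw [sum_sub_distrib, ← mul_sum, eq_neg_of_add_eq_zero_right h3,
      eq_neg_of_add_eq_zero_right h4]
    field_simp
    ring
  have h3 := const_of_many hB (natDegree_add_le_of_degree_le hf (hdeg fun i => c θ₀ i / θ₀)) T
    (by omega) fun θ hθ => by
      have h4 := hc θ hθ
      simp only [h2 θ hθ, C_mul, mul_assoc] at h4
      rwa [← mul_sum, ← mul_add] at h4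
  obtain ⟨c0, h4⟩ := natDegree_eq_zero.1 h3
  refine ⟨c0, fun i => -(c θ₀ i / θ₀), ?_⟩
  simp only [h4, C_neg, neg_mul, sum_neg_distrib]
  ring

/-- (L) list bound. -/
theorem list_bound {X ι : Type*} [Fintype X] {P : X → ℝ} (hP : IsProb P) (v : ι → X → ℝ)
    (w : X → ℝ) (hv : ∀ i x, |v i x| ≤ 1) (hw : ∀ x, |w x| ≤ 1) (T : Finset ι) {η e : ℝ}
    (hη : 0 < η) (he : e ≤ η ^ 2 / 2) (h1 : ∀ i ∈ T, η ≤ |Ex P (fun x => v i x * w x)|)
    (h2 : ∀ i ∈ T, ∀ i' ∈ T, i ≠ i' → |Ex P (fun x => v i x * v i' x)| ≤ e) :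
    (T.card : ℝ) ≤ 2 / η ^ 2 := by
  obtain ⟨σ, hσ, hσ1⟩ : ∃ σ : ι → ℝ, (∀ i, σ i * Ex P (fun x => v i x * w x) =
      |Ex P (fun x => v i x * w x)|) ∧ ∀ i, |σ i| = 1 := by
    refine ⟨fun i => if 0 ≤ Ex P (fun x => v i x * w x) then 1 else -1, fun i => ?_, fun i => ?_⟩
    · dsimp only
      split_ifs with h
      · rw [one_mul, abs_of_nonneg h]
      · rw [neg_one_mul, abs_of_neg (not_le.1 h)]
    · dsimp only
      split_ifs <;> simp
  have h3 : T.card * η ≤ Ex P (fun x => (∑ i ∈ T, σ i * v i x) * w x) := by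
    simp only [sum_mul, mul_assoc]
    rw [Ex_sum]
    simp only [Ex_const_mul, hσ]
    simpa using card_nsmul_le_sum T _ η h1
  have h4 : Ex P (fun x => w x ^ 2) ≤ 1 := Ex_le_const hP fun x => (sq_le_one_iff_abs_le_one _).2 (hw x)
  have h5 : Ex P (fun x => (∑ i ∈ T, σ i * v i x) ^ 2) ≤ T.card + T.card ^ 2 * (η ^ 2 / 2) := by
    have e1 : ∀ x, (∑ i ∈ T, σ i * v i x) ^ 2 =
        ∑ i ∈ T, ∑ j ∈ T, σ i * σ j * (v i x * v j x) := fun x => by
      rw [sq, sum_mul_sum]
      exact sum_congr rfl fun i _ => sum_congr rfl fun j _ => by ring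
    simp only [e1, Ex_sum, Ex_const_mul]
    have e2 : ∀ i ∈ T, ∀ j ∈ T, σ i * σ j * Ex P (fun x => v i x * v j x) ≤
        (if i = j then 1 else 0) + η ^ 2 / 2 := by
      intro i hi j hj
      refine (le_abs_self _).trans ?_
      rw [abs_mul, abs_mul, hσ1, hσ1, one_mul, one_mul]
      split_ifs with h
      · refine (abs_Ex_le hP.1 _).trans ((Ex_le_const hP fun x => ?_).trans
          (le_add_of_nonneg_right (by positivity)))
        rw [abs_mul]
        exact mul_le_one₀ (hv i x) (abs_nonneg _) (hv j x)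
      · rw [zero_add]
        exact (h2 i hi j hj h).trans he
    refine (sum_le_sum fun i hi => sum_le_sum fun j hj => e2 i hi j hj).trans (le_of_eq ?_)
    simp only [sum_add_distrib, sum_ite_eq, sum_const, nsmul_eq_mul]
    rw [sum_congr rfl fun i hi => if_pos hi, sum_const, nsmul_eq_mul]
    ring
  have h6 := Ex_mul_sq_le hP.1 (fun x => ∑ i ∈ T, σ i * v i x) w
  have h7 : 0 ≤ Ex P (fun x => (∑ i ∈ T, σ i * v i x) ^ 2) := Ex_nonneg hP.1 fun x => sq_nonneg _
  have h8 : (T.card * η) ^ 2 ≤ T.card + T.card ^ 2 * (η ^ 2 / 2) :=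
    (pow_le_pow_left₀ (by positivity) h3 2).trans (h6.trans
      ((mul_le_of_le_one_right h7 h4).trans h5))
  rw [le_div_iff₀ (by positivity)]
  rcases Nat.eq_zero_or_pos T.card with h | h
  · simp [h]
  · have h9 : (0 : ℝ) < T.card := by exact_mod_cast h
    refine le_of_mul_le_mul_left ?_ h9
    nlinarith

/-- list bound with a small exceptional set of differences in a finite group. -/
theorem list_bound_group {X A Z : Type*} [Fintype X] [AddCommGroup A] [Fintype A] {P : X → ℝ}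
    (hP : IsProb P) (v : A → Z → X → ℝ) (w : X → ℝ) (hv : ∀ a z x, |v a z x| ≤ 1)
    (hw : ∀ x, |w x| ≤ 1) {η e : ℝ} (hη : 0 < η) (he : e ≤ η ^ 2 / 2) (Δ : Finset A)
    (h2 : ∀ a a' z z', a - a' ∉ Δ → |Ex P (fun x => v a z x * v a' z' x)| ≤ e) :
    ((univ.filter fun a => ∃ z, η ≤ |Ex P (fun x => v a z x * w x)|).card : ℝ) ≤
      2 / η ^ 2 * (Δ.card + 1) := by
  rcases isEmpty_or_nonempty Z with hZ | hZ
  · simp only [IsEmpty.exists_iff, filter_false, card_empty, Nat.cast_zero]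
    positivity
  set G := univ.filter fun a => ∃ z, η ≤ |Ex P (fun x => v a z x * w x)| with hG
  have h1 : ∀ a ∈ G, ∃ z, η ≤ |Ex P (fun x => v a z x * w x)| := fun a ha => (mem_filter.1 ha).2
  choose! z hz using h1
  obtain ⟨T, hT, hmax⟩ := exists_max_image (G.powerset.filter fun T => ∀ a ∈ T, ∀ a' ∈ T, a ≠ a' →
    |Ex P (fun x => v a (z a) x * v a' (z a') x)| ≤ e) card ⟨∅, by simp⟩
  obtain ⟨hT1, hT2⟩ := mem_filter.1 hT
  have hTG := mem_powerset.1 hT1
  have h3 := list_bound hP (fun a => v a (z a)) w (fun a => hv a _) hw T hη he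
    (fun a ha => hz a (hTG ha)) hT2
  have h4 : G ⊆ T ∪ T.biUnion fun a' => Δ.image (· + a') := by
    intro a ha
    by_contra h5
    rw [mem_union, not_or] at h5
    have h6 : ∀ a' ∈ T, |Ex P (fun x => v a (z a) x * v a' (z a') x)| ≤ e := fun a' ha' =>
      h2 _ _ _ _ fun h => h5.2 (mem_biUnion.2 ⟨a', ha', mem_image.2 ⟨_, h, sub_add_cancel _ _⟩⟩)
    have h7 := hmax (insert a T) (mem_filter.2 ⟨mem_powerset.2 (insert_subset ha hTG), ?_⟩)
    · rw [card_insert_of_notMem h5.1] at h7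
      omega
    · intro b hb b' hb' hne
      rcases mem_insert.1 hb with rfl | hb1
      · exact h6 b' ((mem_insert.1 hb').resolve_left hne.symm)
      · rcases mem_insert.1 hb' with rfl | hb2
        · simp only [mul_comm (v b (z b) _)]
          exact h6 b hb1
        · exact hT2 b hb1 b' hb2 hne
  have h5 : G.card ≤ T.card + T.card * Δ.card :=
    (card_le_card h4).trans ((card_union_le _ _).trans (Nat.add_le_add_left
      (card_biUnion_le_card_mul _ _ _ fun a' _ => card_image_le) _))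
  have h6 : (G.card : ℝ) ≤ T.card * (Δ.card + 1) := by
    rw [mul_add, mul_one, add_comm]
    exact_mod_cast h5
  exact h6.trans (mul_le_mul_of_nonneg_right h3 (by positivity))

/-- few patterns of high odd coefficients correlate with a given bounded function. -/
theorem top_list {D : ℕ} {β η : ℝ} (hB : Big F D β) (hη : 0 < η) (hβ : β ≤ η ^ 2 / 2)
    {κ : Type} [Fintype κ] (pos : κ → ℕ) (hpos : ∀ k, Odd (pos k) ∧ D < 2 * pos k)
    (w : F → ℝ) (hw : ∀ s, |w s| ≤ 1) :
    ((univ.filter fun t : κ → F => ∃ f : F[X], f.natDegree ≤ D ∧ (∀ k, f.coeff (pos k) = t k) ∧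
      η ≤ |av (fun s : F => chi (f.eval s) * w s)|).card : ℝ) ≤ 2 / η ^ 2 := by
  have := charP_two (F := F)
  set G := univ.filter fun t : κ → F => ∃ f : F[X], f.natDegree ≤ D ∧
    (∀ k, f.coeff (pos k) = t k) ∧ η ≤ |av (fun s : F => chi (f.eval s) * w s)| with hG
  have h1 : ∀ t ∈ G, ∃ f : F[X], f.natDegree ≤ D ∧ (∀ k, f.coeff (pos k) = t k) ∧
      η ≤ |av (fun s : F => chi (f.eval s) * w s)| := fun t ht => (mem_filter.1 ht).2
  choose! f hf1 hf2 hf3 using h1
  refine list_bound isProb_unif (fun t s => chi ((f t).eval s)) w (fun t s => (abs_chi _).le) hw G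
    hη hβ (fun t ht => ?_) fun t ht t' ht' hne => ?_
  · rw [← av_eq_Ex]
    exact hf3 t ht
  · obtain ⟨k, hk⟩ := Function.ne_iff.1 hne
    have h2 := natDegree_add_le_of_degree_le (hf1 t ht) (hf1 t' ht')
    have h3 := bias_le hB h2 (not_trC_of_coeff hB h2 (hpos k).1 (hpos k).2 (by
      rw [coeff_add, hf2 t ht, hf2 t' ht', ← CharTwo.sub_eq_add]
      exact sub_ne_zero.2 hk))
    simp only [eval_add, chi_add] at h3
    rw [← av_eq_Ex]
    exact h3

end

end Vale.Agent.P060
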