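import Vale.Agent.P056.Sharp.Prob

/-!
P060: uniform averages, the additive character of a finite field of characteristic two,
polynomials of bounded degree.
-/

namespace Vale.Agent.P060

open Finset Polynomial Vale.Agent.P056.Sharp

noncomputable section

open scoped Classical

section Av

variable {X Y : Type*} [Fintype X] [Fintype Y]

/-- uniform average. -/
def av (f : X → ℝ) : ℝ := (∑ x, f x) / Fintype.card X

lemma av_add (f g : X → ℝ) : av (fun x => f x + g x) = av f + av g := by
  unfold av; rw [sum_add_distrib, add_div]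

lemma av_sub (f g : X → ℝ) : av (fun x => f x - g x) = av f - av g := by
  unfold av; rw [sum_sub_distrib, sub_div]

lemma av_neg (f : X → ℝ) : av (fun x => - f x) = - av f := by
  unfold av; rw [sum_neg_distrib, neg_div]

lemma av_const_mul (c : ℝ) (f : X → ℝ) : av (fun x => c * f x) = c * av f := by
  unfold av; rw [← mul_sum, mul_div_assoc]

lemma av_mul_const (f : X → ℝ) (c : ℝ) : av (fun x => f x * c) = av f * c := by
  unfold av; rw [← sum_mul]; ring

lemma av_div_const (f : X → ℝ) (c : ℝ) : av (fun x => f x / c) = av f / c := by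
  unfold av; rw [← sum_div]; ring

lemma av_zero : av (fun _ : X => (0 : ℝ)) = 0 := by simp [av]

lemma av_const [Nonempty X] (c : ℝ) : av (fun _ : X => c) = c := by
  have : (Fintype.card X : ℝ) ≠ 0 := by exact_mod_cast Fintype.card_ne_zero
  unfold av; rw [sum_const, card_univ, nsmul_eq_mul]; field_simp

lemma av_congr {f g : X → ℝ} (h : ∀ x, f x = g x) : av f = av g := by
  rw [show f = g from funext h]

lemma av_mono {f g : X → ℝ} (h : ∀ x, f x ≤ g x) : av f ≤ av g :=
  div_le_div_of_nonneg_right (sum_le_sum fun x _ => h x) (Nat.cast_nonneg _)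

lemma av_nonneg {f : X → ℝ} (h : ∀ x, 0 ≤ f x) : 0 ≤ av f :=
  div_nonneg (sum_nonneg fun x _ => h x) (Nat.cast_nonneg _)

lemma av_le_const {f : X → ℝ} {c : ℝ} (hc : 0 ≤ c) (h : ∀ x, f x ≤ c) : av f ≤ c := by
  rcases isEmpty_or_nonempty X with hX | hX
  · simp [av, hc]
  · exact (av_mono h).trans (av_const c).le

lemma av_le_of_forall [Nonempty X] {f : X → ℝ} {c : ℝ} (h : ∀ x, f x ≤ c) : av f ≤ c :=
  (av_mono h).trans (av_const c).le

lemma le_av_of_forall [Nonempty X] {f : X → ℝ} {c : ℝ} (h : ∀ x, c ≤ f x) : c ≤ av f :=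
  (av_const c).ge.trans (av_mono h)

lemma abs_av_le (f : X → ℝ) : |av f| ≤ av (fun x => |f x|) := by
  unfold av
  rw [abs_div, Nat.abs_cast]
  exact div_le_div_of_nonneg_right (abs_sum_le_sum_abs _ _) (Nat.cast_nonneg _)

lemma abs_av_le_const {f : X → ℝ} {c : ℝ} (hc : 0 ≤ c) (h : ∀ x, |f x| ≤ c) : |av f| ≤ c :=
  (abs_av_le f).trans (av_le_const hc h)

lemma av_sum {ι : Type*} (s : Finset ι) (f : ι → X → ℝ) :
    av (fun x => ∑ i ∈ s, f i x) = ∑ i ∈ s, av (f i) := by
  unfold av; rw [sum_comm, sum_div]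

lemma av_comm (f : X → Y → ℝ) :
    av (fun x => av (fun y => f x y)) = av (fun y => av (fun x => f x y)) := by
  unfold av
  rw [← sum_div, ← sum_div, sum_comm]; ring

lemma av_prod (f : X × Y → ℝ) : av f = av (fun x => av (fun y => f (x, y))) := by
  unfold av
  rw [Fintype.sum_prod_type, ← sum_div, Fintype.card_prod]; push_cast; ring

lemma av_mul_av (f : X → ℝ) (g : Y → ℝ) : av (fun x => av (fun y => f x * g y)) = av f * av g := by
  simp only [av_const_mul]; rw [av_mul_const]

lemma av_equiv (e : X ≃ Y) (f : Y → ℝ) : av (fun x => f (e x)) = av f := by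
  unfold av; rw [Equiv.sum_comp e f, Fintype.card_congr e]

lemma av_Ex (P : Y → ℝ) (f : X → Y → ℝ) :
    av (fun x => Ex P (f x)) = Ex P (fun y => av (fun x => f x y)) := by
  unfold Ex; rw [av_sum]; exact sum_congr rfl fun y _ => av_const_mul _ _

lemma av_eq_Ex (f : X → ℝ) : av f = Ex (fun _ => 1 / (Fintype.card X : ℝ)) f := by
  unfold av Ex; rw [sum_div]; exact sum_congr rfl fun x _ => by ring

lemma isProb_unif [Nonempty X] : IsProb (fun _ : X => 1 / (Fintype.card X : ℝ)) := by
  have : (Fintype.card X : ℝ) ≠ 0 := by exact_mod_cast Fintype.card_ne_zero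
  refine ⟨fun _ => by positivity, ?_⟩
  rw [sum_const, card_univ, nsmul_eq_mul]; field_simp

lemma av_ind_eq (a : X) : av (fun x => ind (x = a)) = 1 / Fintype.card X := by
  unfold av; rw [sum_ind_eq]

lemma av_ind_eq_card (P : X → Prop) :
    av (fun x => ind (P x)) = ((univ.filter P).card : ℝ) / Fintype.card X := by
  unfold av; rw [sum_ind_eq_card]

/-- Cauchy-Schwarz for nonnegative weights. -/
lemma Ex_mul_sq_le {P : X → ℝ} (hP : ∀ x, 0 ≤ P x) (f g : X → ℝ) :
    Ex P (fun x => f x * g x) ^ 2 ≤ Ex P (fun x => f x ^ 2) * Ex P (fun x => g x ^ 2) := by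
  unfold Ex
  have h := sum_mul_sq_le_sq_mul_sq univ (fun x => Real.sqrt (P x) * f x)
    (fun x => Real.sqrt (P x) * g x)
  have e1 : ∀ x, Real.sqrt (P x) * f x * (Real.sqrt (P x) * g x) = P x * (f x * g x) := fun x => by
    have := Real.mul_self_sqrt (hP x); linear_combination (f x * g x) * this
  have e2 : ∀ (u : X → ℝ) x, (Real.sqrt (P x) * u x) ^ 2 = P x * u x ^ 2 := fun u x => by
    rw [mul_pow, Real.sq_sqrt (hP x)]
  simpa only [e1, e2] using h

lemma av_mul_sq_le (f g : X → ℝ) :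
    av (fun x => f x * g x) ^ 2 ≤ av (fun x => f x ^ 2) * av (fun x => g x ^ 2) := by
  simp only [av_eq_Ex]; exact Ex_mul_sq_le (fun _ => by positivity) f g

lemma Ex_sq_le {P : X → ℝ} (hP : IsProb P) (f : X → ℝ) : Ex P f ^ 2 ≤ Ex P (fun x => f x ^ 2) := by
  have h := Ex_mul_sq_le hP.1 f (fun _ => 1)
  simp only [mul_one, one_pow] at h
  rwa [Ex_const hP, mul_one] at h

lemma av_sq_le (f : X → ℝ) : av f ^ 2 ≤ av (fun x => f x ^ 2) := by
  rcases isEmpty_or_nonempty X with hX | hX
  · simp [av]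
  · simp only [av_eq_Ex]; exact Ex_sq_le isProb_unif f

lemma abs_Ex_le {P : X → ℝ} (hP : ∀ x, 0 ≤ P x) (f : X → ℝ) : |Ex P f| ≤ Ex P (fun x => |f x|) := by
  unfold Ex
  refine (abs_sum_le_sum_abs _ _).trans (le_of_eq (sum_congr rfl fun x _ => ?_))
  rw [abs_mul, abs_of_nonneg (hP x)]

/-- a surjective additive map pushes the uniform law to the uniform law. -/
lemma av_comp_hom {A B : Type*} [AddGroup A] [AddGroup B] [Fintype A] [Fintype B] (φ : A →+ B)
    (hφ : Function.Surjective φ) (f : B → ℝ) : av (fun a => f (φ a)) = av f := by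
  have hA : (Fintype.card A : ℝ) ≠ 0 := by exact_mod_cast Fintype.card_ne_zero
  have hB : (Fintype.card B : ℝ) ≠ 0 := by exact_mod_cast Fintype.card_ne_zero
  have key : ∀ b : B, ((univ.filter fun a => φ a = b).card : ℝ) =
      ((univ.filter fun a => φ a = 0).card : ℝ) := fun b => by
    obtain ⟨a0, rfl⟩ := hφ b
    congr 1
    refine card_bij (fun a _ => -a0 + a) ?_ ?_ ?_
    · intro a ha; simp only [mem_filter, mem_univ, true_and] at ha ⊢; simp [ha]
    · intro a _ a' _ h; exact add_left_cancel h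
    · intro a ha
      simp only [mem_filter, mem_univ, true_and] at ha
      exact ⟨a0 + a, by simp [ha], by simp⟩
  have h1 : ∀ g : B → ℝ, ∑ a, g (φ a) = ((univ.filter fun a => φ a = 0).card : ℝ) * ∑ b, g b := by
    intro g
    rw [← sum_fiberwise_of_maps_to (s := univ) (t := univ) (g := φ) (fun _ _ => mem_univ _),
      mul_sum]
    refine sum_congr rfl fun b _ => ?_
    rw [sum_congr rfl (g := fun _ => g b) (fun a ha => by rw [(mem_filter.1 ha).2]), sum_const,
      nsmul_eq_mul, key]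
  have h2 := h1 (fun _ => 1)
  simp only [sum_const, card_univ, nsmul_eq_mul, mul_one] at h2
  unfold av
  rw [h1, h2]
  have : ((univ.filter fun a => φ a = 0).card : ℝ) ≠ 0 := fun h => hA (by rw [h2, h, zero_mul])
  field_simp

end Av

section Chi

variable {F : Type} [Field F] [Algebra (ZMod 2) F]

/-- the absolute trace. -/
def tr (x : F) : ZMod 2 := Algebra.trace (ZMod 2) F x

/-- the sign of a bit. -/
def sgn (z : ZMod 2) : ℝ := if z = 0 then 1 else -1

/-- the canonical additive character. -/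
def chi (x : F) : ℝ := sgn (tr x)

lemma sgn_zero : sgn 0 = 1 := if_pos rfl
lemma sgn_one : sgn 1 = -1 := if_neg (by decide)
lemma zmod2_cases (z : ZMod 2) : z = 0 ∨ z = 1 := by revert z; decide
lemma sgn_add (a b : ZMod 2) : sgn (a + b) = sgn a * sgn b := by
  have h11 : (1 + 1 : ZMod 2) = 0 := by decide
  rcases zmod2_cases a with rfl | rfl <;> rcases zmod2_cases b with rfl | rfl <;>
    simp [sgn_zero, sgn_one, h11]
lemma sgn_mul_self (a : ZMod 2) : sgn a * sgn a = 1 := by
  rcases zmod2_cases a with rfl | rfl <;> simp [sgn_zero, sgn_one]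
lemma abs_sgn (a : ZMod 2) : |sgn a| = 1 := by
  rcases zmod2_cases a with rfl | rfl <;> simp [sgn_zero, sgn_one]
lemma sgn_eq_one {a : ZMod 2} : sgn a = 1 ↔ a = 0 := by
  rcases zmod2_cases a with rfl | rfl <;> simp [sgn_zero, sgn_one]; norm_num
lemma sgn_eq_neg_one {a : ZMod 2} : sgn a = -1 ↔ a = 1 := by
  rcases zmod2_cases a with rfl | rfl <;> simp [sgn_zero, sgn_one]; norm_num
lemma sgn_sum {ι : Type*} (s : Finset ι) (f : ι → ZMod 2) :
    sgn (∑ i ∈ s, f i) = ∏ i ∈ s, sgn (f i) := by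
  induction s using Finset.induction_on with
  | empty => simp [sgn_zero]
  | insert a s h ih => rw [sum_insert h, prod_insert h, sgn_add, ih]

lemma tr_add (x y : F) : tr (x + y) = tr x + tr y := map_add (Algebra.trace (ZMod 2) F) x y
lemma tr_zero : tr (0 : F) = 0 := map_zero (Algebra.trace (ZMod 2) F)
lemma tr_sum {ι : Type*} (s : Finset ι) (f : ι → F) : tr (∑ i ∈ s, f i) = ∑ i ∈ s, tr (f i) :=
  map_sum (Algebra.trace (ZMod 2) F) f s
lemma tr_bit_mul (z : ZMod 2) (x : F) : tr (algebraMap (ZMod 2) F z * x) = z * tr x := by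
  unfold tr; rw [← Algebra.smul_def, map_smul, smul_eq_mul]
lemma chi_add (x y : F) : chi (x + y) = chi x * chi y := by unfold chi; rw [tr_add, sgn_add]
lemma chi_zero : chi (0 : F) = 1 := by unfold chi; rw [tr_zero, sgn_zero]
lemma chi_mul_self (x : F) : chi x * chi x = 1 := sgn_mul_self _
lemma chi_sq (x : F) : chi x ^ 2 = 1 := by rw [sq, chi_mul_self]
lemma abs_chi (x : F) : |chi x| = 1 := abs_sgn _
lemma chi_sum {ι : Type*} (s : Finset ι) (f : ι → F) : chi (∑ i ∈ s, f i) = ∏ i ∈ s, chi (f i) := by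
  unfold chi; rw [tr_sum, sgn_sum]
lemma chi_le_one (x : F) : chi x ≤ 1 := (le_abs_self _).trans (abs_chi x).le

lemma charP_two : CharP F 2 := charP_of_injective_algebraMap (algebraMap (ZMod 2) F).injective 2

variable [Fintype F]

lemma exists_tr_mul_eq_one {c : F} (hc : c ≠ 0) : ∃ x : F, tr (c * x) = 1 := by
  have : Module.Finite (ZMod 2) F := Module.Finite.of_finite
  have : Fact (Nat.Prime 2) := ⟨Nat.prime_two⟩
  obtain ⟨y, hy⟩ := Algebra.trace_surjective (ZMod 2) F 1
  exact ⟨c⁻¹ * y, by rw [← mul_assoc, mul_inv_cancel₀ hc, one_mul]; exact hy⟩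

omit [Fintype F] in
/-- an additive map into `F` whose trace is not identically zero averages to zero. -/
lemma av_chi_hom {A : Type*} [AddGroup A] [Fintype A] (φ : A →+ F) {a0 : A} (h : tr (φ a0) = 1) :
    av (fun a => chi (φ a)) = 0 := by
  have h1 := av_equiv (Equiv.addLeft a0) (fun a => chi (φ a))
  have h2 : ∀ a, chi (φ (Equiv.addLeft a0 a)) = - chi (φ a) := fun a => by
    rw [Equiv.coe_addLeft, map_add, chi_add]; unfold chi; rw [h, sgn_one]; ring
  simp only [h2, av_neg] at h1
  linarith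

/-- orthogonality: the character of a linear functional averages to the indicator of zero. -/
lemma av_chi_lin {A : Type*} [AddCommGroup A] [Module F A] [Fintype A] (φ : A →ₗ[F] F) :
    av (fun a => chi (φ a)) = ind (φ = 0) := by
  by_cases h : φ = 0
  · subst h; rw [ind_pos rfl]; simp only [LinearMap.zero_apply, chi_zero]; exact av_const 1
  · rw [ind_neg h]
    obtain ⟨a, ha⟩ : ∃ a, φ a ≠ 0 := by
      by_contra hc; push Not at hc; exact h (LinearMap.ext hc)
    obtain ⟨x, hx⟩ := exists_tr_mul_eq_one ha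
    refine av_chi_hom φ.toAddMonoidHom (a0 := x • a) ?_
    simpa [mul_comm] using hx

lemma av_chi_mul (c : F) : av (fun x : F => chi (c * x)) = ind (c = 0) := by
  have h := av_chi_lin (F := F) (LinearMap.mul F F c)
  simp only [LinearMap.mul_apply'] at h
  rw [h]
  refine ind_congr ⟨fun h0 => ?_, fun h0 => by subst h0; simp⟩
  simpa using congrArg (fun φ : F →ₗ[F] F => φ 1) h0

lemma card_eq_pow : Fintype.card F = 2 ^ Module.finrank (ZMod 2) F := by
  have : Fact (Nat.Prime 2) := ⟨Nat.prime_two⟩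
  have := Module.card_eq_pow_finrank (K := ZMod 2) (V := F)
  simpa using this

lemma algebraMap_tr (x : F) :
    algebraMap (ZMod 2) F (tr x) = ∑ i ∈ range (Module.finrank (ZMod 2) F), x ^ (2 ^ i) := by
  have : Fact (Nat.Prime 2) := ⟨Nat.prime_two⟩
  have := FiniteField.algebraMap_trace_eq_sum_pow (ZMod 2) F x
  simpa [tr] using this

lemma tr_sq (x : F) : tr (x ^ 2) = tr x := by
  have : Fact (Nat.Prime 2) := ⟨Nat.prime_two⟩
  apply (algebraMap (ZMod 2) F).injective
  rw [algebraMap_tr, algebraMap_tr]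
  have h1 : ∀ i, (x ^ 2) ^ (2 ^ i) = x ^ (2 ^ (i + 1)) := fun i => by
    rw [← pow_mul, pow_succ, mul_comm]
  simp only [h1]
  have h2 := sum_range_succ' (fun i => x ^ (2 ^ i)) (Module.finrank (ZMod 2) F)
  have h3 := sum_range_succ (fun i => x ^ (2 ^ i)) (Module.finrank (ZMod 2) F)
  have h4 : x ^ 2 ^ Module.finrank (ZMod 2) F = x := by
    rw [← card_eq_pow]; exact FiniteField.pow_card x
  rw [h4] at h3
  simp only [pow_zero, pow_one] at h2
  exact add_right_cancel (h2.symm.trans h3)

lemma chi_sq_arg (x : F) : chi (x ^ 2) = chi x := by unfold chi; rw [tr_sq]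

end Chi

section Pol

/-- polynomials of degree at most `n`. -/
abbrev Pol (F : Type) [Field F] (n : ℕ) : Type := Polynomial.degreeLT F (n + 1)

variable {F : Type} [Field F]

lemma mem_Pol {n : ℕ} {f : F[X]} : f ∈ Polynomial.degreeLT F (n + 1) ↔ f.natDegree ≤ n := by
  rw [mem_degreeLT]
  by_cases h : f = 0
  · subst h; simp
  · rw [degree_eq_natDegree h]; exact_mod_cast Nat.lt_succ_iff

lemma Pol.le {n : ℕ} (f : Pol F n) : (f : F[X]).natDegree ≤ n := mem_Pol.1 f.2

/-- a polynomial of degree at most `n` as an element of `Pol F n`. -/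
def Pol.mk {n : ℕ} (f : F[X]) (h : f.natDegree ≤ n) : Pol F n := ⟨f, mem_Pol.2 h⟩

@[simp] lemma Pol.coe_mk {n : ℕ} (f : F[X]) (h : f.natDegree ≤ n) :
    ((Pol.mk f h : Pol F n) : F[X]) = f := rfl

instance Pol.fintype [Fintype F] (n : ℕ) : Fintype (Pol F n) :=
  Fintype.ofEquiv _ (degreeLTEquiv F (n + 1)).symm.toEquiv

lemma Pol.card [Fintype F] (n : ℕ) : Fintype.card (Pol F n) = Fintype.card F ^ (n + 1) := by
  rw [Fintype.card_congr (degreeLTEquiv F (n + 1)).toEquiv]; simp

end Pol

end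

end Vale.Agent.P060
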