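import Vale.Agent.P060.Base

/-! P060: the symmetric bilinear form attached to a family of coefficients. -/

namespace Vale.Agent.P060

open Finset Vale.Agent.P056.Sharp

noncomputable section

open scoped Classical

variable {R : Type} [CommRing R] {S : ℕ}

/-- extend a vector by the coordinate one. -/
def hat (v : Fin S → R) : Option (Fin S) → R := fun o => o.elim 1 v

@[simp] lemma hat_none (v : Fin S → R) : hat v none = 1 := rfl
@[simp] lemma hat_some (v : Fin S → R) (a : Fin S) : hat v (some a) = v a := rfl

/-- the form `g₀ u₀ v₀ + uᵀ g v` with `g` symmetric. -/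
def bil (g : Option (Sym2 (Fin S)) → R) (u v : Option (Fin S) → R) : R :=
  g none * u none * v none + ∑ a, ∑ b, u (some a) * g (some s(a, b)) * v (some b)

/-- the coefficient of `g e` in `bil g u v`. -/
def cof (e : Option (Sym2 (Fin S))) (u v : Option (Fin S) → R) : R := bil (Pi.single e 1) u v

lemma bil_comm (g : Option (Sym2 (Fin S)) → R) (u v : Option (Fin S) → R) :
    bil g u v = bil g v u := by
  unfold bil
  rw [sum_comm]
  congr 1
  · ring
  · refine sum_congr rfl fun a _ => sum_congr rfl fun b _ => ?_
    rw [Sym2.eq_swap]; ring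

lemma bil_add_left (g : Option (Sym2 (Fin S)) → R) (u u' v : Option (Fin S) → R) :
    bil g (u + u') v = bil g u v + bil g u' v := by
  unfold bil
  simp only [Pi.add_apply, add_mul, mul_add, sum_add_distrib]; ring

lemma bil_smul_left (g : Option (Sym2 (Fin S)) → R) (c : R) (u v : Option (Fin S) → R) :
    bil g (c • u) v = c * bil g u v := by
  unfold bil
  simp only [Pi.smul_apply, smul_eq_mul, mul_add, mul_sum]
  congr 1
  · ring
  · exact sum_congr rfl fun a _ => sum_congr rfl fun b _ => by ring

lemma bil_zero_left (g : Option (Sym2 (Fin S)) → R) (v : Option (Fin S) → R) : bil g 0 v = 0 := by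
  simp [bil]

lemma bil_add_right (g : Option (Sym2 (Fin S)) → R) (u v v' : Option (Fin S) → R) :
    bil g u (v + v') = bil g u v + bil g u v' := by
  rw [bil_comm, bil_add_left, bil_comm g v, bil_comm g v']

lemma bil_smul_right (g : Option (Sym2 (Fin S)) → R) (c : R) (u v : Option (Fin S) → R) :
    bil g u (c • v) = c * bil g u v := by
  rw [bil_comm, bil_smul_left, bil_comm]

lemma bil_zero_right (g : Option (Sym2 (Fin S)) → R) (u : Option (Fin S) → R) : bil g u 0 = 0 := by
  simp [bil]

lemma bil_sum_left {ι : Type*} (s : Finset ι) (g : Option (Sym2 (Fin S)) → R)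
    (u : ι → Option (Fin S) → R) (v : Option (Fin S) → R) :
    bil g (∑ i ∈ s, u i) v = ∑ i ∈ s, bil g (u i) v := by
  induction s using Finset.induction_on with
  | empty => simp [bil_zero_left]
  | insert a s h ih => rw [sum_insert h, sum_insert h, bil_add_left, ih]

lemma bil_sum_right {ι : Type*} (s : Finset ι) (g : Option (Sym2 (Fin S)) → R)
    (u : Option (Fin S) → R) (v : ι → Option (Fin S) → R) :
    bil g u (∑ i ∈ s, v i) = ∑ i ∈ s, bil g u (v i) := by
  rw [bil_comm, bil_sum_left]; exact sum_congr rfl fun i _ => bil_comm _ _ _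

lemma bil_add (g g' : Option (Sym2 (Fin S)) → R) (u v : Option (Fin S) → R) :
    bil (g + g') u v = bil g u v + bil g' u v := by
  unfold bil
  simp only [Pi.add_apply, add_mul, mul_add, sum_add_distrib]; ring

lemma bil_smul (c : R) (g : Option (Sym2 (Fin S)) → R) (u v : Option (Fin S) → R) :
    bil (c • g) u v = c * bil g u v := by
  unfold bil
  simp only [Pi.smul_apply, smul_eq_mul, mul_add, mul_sum]
  congr 1
  · ring
  · exact sum_congr rfl fun a _ => sum_congr rfl fun b _ => by ring

lemma bil_zero (u v : Option (Fin S) → R) : bil 0 u v = 0 := by simp [bil]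

lemma bil_sum {ι : Type*} (s : Finset ι) (g : ι → Option (Sym2 (Fin S)) → R)
    (u v : Option (Fin S) → R) : bil (∑ i ∈ s, g i) u v = ∑ i ∈ s, bil (g i) u v := by
  induction s using Finset.induction_on with
  | empty => simp [bil_zero]
  | insert a s h ih => rw [sum_insert h, sum_insert h, bil_add, ih]

lemma bil_eq_sum_cof (g : Option (Sym2 (Fin S)) → R) (u v : Option (Fin S) → R) :
    bil g u v = ∑ e, g e * cof e u v := by
  have h : g = ∑ e, g e • (Pi.single e 1 : Option (Sym2 (Fin S)) → R) := by
    funext e'; simp [Finset.sum_apply, Pi.single_apply]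
  conv_lhs => rw [h]
  rw [bil_sum]; exact sum_congr rfl fun e _ => bil_smul _ _ _ _

lemma bil_eq_sum_right (g : Option (Sym2 (Fin S)) → R) (u v : Option (Fin S) → R) :
    bil g u v = ∑ o, bil g u (Pi.single o 1) * v o := by
  have h : v = ∑ o, v o • (Pi.single o 1 : Option (Fin S) → R) := by
    funext e'; simp [Finset.sum_apply, Pi.single_apply]
  conv_lhs => rw [h]
  rw [bil_sum_right]; exact sum_congr rfl fun o _ => by rw [bil_smul_right, mul_comm]

/-- the vector `g u`. -/
def gv (g : Option (Sym2 (Fin S)) → R) (u : Option (Fin S) → R) : Fin S → R :=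
  fun a => ∑ b, u (some b) * g (some s(a, b))

lemma bil_hat (g : Option (Sym2 (Fin S)) → R) (u : Option (Fin S) → R) (p : Fin S → R) :
    bil g u (hat p) = u none * g none + ∑ a, p a * gv g u a := by
  rw [bil_comm]
  unfold bil gv
  simp only [hat_none, hat_some, mul_sum]
  congr 1
  · ring
  · exact sum_congr rfl fun a _ => sum_congr rfl fun b _ => by ring

lemma map_bil {R' : Type} [CommRing R'] (φ : R →+* R') (g : Option (Sym2 (Fin S)) → R)
    (u v : Option (Fin S) → R) :
    φ (bil g u v) = bil (fun e => φ (g e)) (fun o => φ (u o)) (fun o => φ (v o)) := by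
  simp [bil, map_sum]

end

end Vale.Agent.P060
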