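import Vale.Agent.P060.Bil

/-! P060: box-norm inequalities. -/

namespace Vale.Agent.P060

open Finset Polynomial Vale.Agent.P056.Sharp

noncomputable section

open scoped Classical

variable {F : Type} [Field F] [Fintype F] [Algebra (ZMod 2) F] {S : ℕ}
  {A1 A2 A3 : Type} [Fintype A1] [Fintype A2] [Fintype A3]

omit [Field F] [Fintype F] [Algebra (ZMod 2) F] in
lemma Box_cs {P1 : A1 → ℝ} (h1 : IsProb P1) (P2 : A2 → ℝ) {f : A1 → ℝ} (hf : ∀ a, |f a| ≤ 1)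
    (g : A1 → A2 → ℝ) :
    Ex P2 (fun a2 => Ex P1 (fun a1 => f a1 * g a1 a2)) ^ 2 ≤
      Ex P2 (fun a2 => Ex P2 (fun a2' => Ex P1 (fun a1 => g a1 a2 * g a1 a2'))) := by
  rw [Ex_comm P2 P1]
  simp only [Ex_const_mul]
  refine (Ex_mul_sq_le h1.1 f _).trans ?_
  have a1 : Ex P1 (fun x => f x ^ 2) ≤ 1 := Ex_le_const h1 fun x => by
    rw [← sq_abs]; exact pow_le_one₀ (abs_nonneg _) (hf x)
  have a2 : 0 ≤ Ex P1 (fun x => Ex P2 (g x) ^ 2) := Ex_nonneg h1.1 fun x => sq_nonneg _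
  refine (mul_le_of_le_one_left a2 a1).trans (le_of_eq ?_)
  simp only [Ex_comm P2 P1]
  refine Ex_congr fun x => ?_
  simp only [Ex_const_mul, Ex_mul_const, sq]

lemma Box_av_dot {ι : Type} [Fintype ι] [DecidableEq ι] (w : ι → F) :
    av (fun v : ι → F => chi (∑ x, v x * w x)) = ind (∀ x, w x = 0) := by
  have h := av_chi_lin (F := F) (∑ x, w x • LinearMap.proj (R := F) (φ := fun _ : ι => F) x)
  simp only [LinearMap.sum_apply, LinearMap.smul_apply, LinearMap.proj_apply, smul_eq_mul] at h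
  simp only [mul_comm (w _)] at h
  rw [h]
  refine ind_congr ⟨fun h0 x => ?_, fun h0 => by simp [h0]⟩
  simpa [LinearMap.sum_apply, Pi.single_apply] using LinearMap.congr_fun h0 (Pi.single x 1)

omit [Algebra (ZMod 2) F] in
lemma Box_conv {P2 : A2 → ℝ} (h2 : IsProb P2) (π2 : A2 → Fin S → F)
    (u2 : ∀ φ : (Fin S → F) → ℝ, Ex P2 (fun a => φ (π2 a)) = av φ) (φ : (Fin S → F) → ℝ) :
    Ex P2 (fun a => Ex P2 (fun a' => φ (π2 a + π2 a'))) = av φ := by
  have : ∀ a, Ex P2 (fun a' => φ (π2 a + π2 a')) = av φ := fun a =>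
    (u2 fun d => φ (π2 a + d)).trans (av_equiv (Equiv.addLeft (π2 a)) φ)
  simp only [this, Ex_const h2]

lemma Box_le {a b c : ℝ} (ha : |a| ≤ 1) (hb : |b| ≤ 1) (hc : 0 ≤ c) : a * b * c ≤ c := by
  have : a * b ≤ 1 := (le_abs_self _).trans (by rw [abs_mul]; exact mul_le_one₀ ha (abs_nonneg _) hb)
  exact mul_le_of_le_one_left hc this

theorem bilin {P1 : A1 → ℝ} {P2 : A2 → ℝ} (h1 : IsProb P1) (h2 : IsProb P2)
    (π1 : A1 → Fin S → F) (π2 : A2 → Fin S → F)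
    (u1 : ∀ φ : (Fin S → F) → ℝ, Ex P1 (fun a => φ (π1 a)) = av φ)
    (u2 : ∀ φ : (Fin S → F) → ℝ, Ex P2 (fun a => φ (π2 a)) = av φ)
    (M : Fin S → Fin S → F) (f1 : A1 → ℝ) (f2 : A2 → ℝ) (hf1 : ∀ a, |f1 a| ≤ 1)
    (hf2 : ∀ a, |f2 a| ≤ 1) :
    Ex P2 (fun a2 => Ex P1 (fun a1 =>
      f1 a1 * f2 a2 * chi (∑ x, ∑ y, π1 a1 x * M x y * π2 a2 y))) ^ 2 ≤
      av (fun d : Fin S → F => ind (∀ x, ∑ y, M x y * d y = 0)) := by
  simp only [mul_assoc (f1 _)]
  refine (Box_cs h1 P2 hf1 _).trans ?_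
  rw [← Box_conv h2 π2 u2]
  refine Ex_mono h2.1 fun a => Ex_mono h2.1 fun a' => ?_
  have e : ∀ a1, f2 a * chi (∑ x, ∑ y, π1 a1 x * M x y * π2 a y) *
      (f2 a' * chi (∑ x, ∑ y, π1 a1 x * M x y * π2 a' y)) =
      f2 a * f2 a' * chi (∑ x, π1 a1 x * ∑ y, M x y * (π2 a + π2 a') y) := fun a1 => by
    rw [mul_mul_mul_comm, ← chi_add]
    simp only [Pi.add_apply, mul_add, sum_add_distrib, mul_sum, mul_assoc]
  simp only [e, Ex_const_mul]
  rw [u1 fun v => chi (∑ x, v x * ∑ y, M x y * (π2 a + π2 a') y), Box_av_dot]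
  exact Box_le (hf2 a) (hf2 a') (ind_nonneg _)

theorem av_ker_le {M : Fin S → Fin S → F} (hM : M ≠ 0) :
    av (fun d : Fin S → F => ind (∀ x, ∑ y, M x y * d y = 0)) ≤ 1 / Fintype.card F := by
  obtain ⟨x, hx⟩ := Function.ne_iff.1 hM
  obtain ⟨y, hy⟩ := Function.ne_iff.1 hx
  have hy' : M x y ≠ 0 := hy
  let φ : (Fin S → F) →+ F :=
    { toFun := fun d => ∑ y, M x y * d y
      map_zero' := by simp
      map_add' := fun a b => by simp [mul_add, sum_add_distrib] }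
  have hφ : Function.Surjective φ := fun t => ⟨Pi.single y (t / M x y), by
    simp only [φ, AddMonoidHom.coe_mk, ZeroHom.coe_mk, Pi.single_apply, mul_ite, mul_zero,
      sum_ite_eq', mem_univ, if_true]
    field_simp⟩
  rw [← av_ind_eq (0 : F), ← av_comp_hom φ hφ]
  exact av_mono fun d => ind_mono fun h => h x

omit [Fintype F] [Algebra (ZMod 2) F] in
lemma Box_bil_zero {u v : Option (Fin S) → F} (h : ∀ e, cof e u v = 0) :
    (∀ a, u (some a) = 0) ∨ ∀ a, v (some a) = 0 := by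
  have key : ∀ α : Fin S → F, (∑ a, u (some a) * α a) * (∑ b, α b * v (some b)) = 0 := fun α => by
    have h1 := bil_eq_sum_cof (fun e : Option (Sym2 (Fin S)) =>
      e.elim 0 (Sym2.lift ⟨fun x y => α x * α y, fun _ _ => mul_comm _ _⟩)) u v
    simp only [h, mul_zero, sum_const_zero, bil, Option.elim_none, Option.elim_some, zero_mul,
      zero_add, Sym2.lift_mk] at h1
    rw [sum_mul_sum, ← h1]
    exact sum_congr rfl fun a _ => sum_congr rfl fun b _ => by ring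
  by_contra hc
  push Not at hc
  obtain ⟨⟨a, ha⟩, b, hb⟩ := hc
  have k1 := key (Pi.single a 1)
  have k2 := key (Pi.single b 1)
  have k3 := key (Pi.single a 1 + Pi.single b 1)
  simp [Pi.single_apply, mul_add, add_mul, sum_add_distrib, ha, hb] at k1 k2
  simp [Pi.single_apply, mul_add, add_mul, sum_add_distrib, k1, k2, ha, hb] at k3

theorem box2 {P1 : A1 → ℝ} {P2 : A2 → ℝ} (h1 : IsProb P1) (h2 : IsProb P2)
    (π1 : A1 → Fin S → F) (γ1 : A1 → Option (Sym2 (Fin S)) → F) (π2 : A2 → Fin S → F)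
    (γ2 : A2 → Option (Sym2 (Fin S)) → F)
    (u1 : ∀ φ : (Fin S → F) × (Option (Sym2 (Fin S)) → F) → ℝ,
      Ex P1 (fun a => φ (π1 a, γ1 a)) = av φ)
    (u2 : ∀ φ : (Fin S → F) → ℝ, Ex P2 (fun a => φ (π2 a)) = av φ)
    (c : F) (f1 : A1 → ℝ) (f2 : A2 → ℝ) (hf1 : ∀ a, |f1 a| ≤ 1) (hf2 : ∀ a, |f2 a| ≤ 1) :
    Ex P2 (fun a2 => Ex P1 (fun a1 => f1 a1 * f2 a2 *
      chi (bil (γ1 a1) (hat (π1 a1)) (hat (π2 a2)) + c * bil (γ2 a2) (hat (π2 a2)) (hat (π1 a1))))) ^ 2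
      ≤ 2 / (Fintype.card F : ℝ) ^ S := by
  have := charP_two (F := F)
  simp only [mul_assoc (f1 _)]
  refine (Box_cs h1 P2 hf1 _).trans ?_
  have hS : av (fun d : Fin S → F => ind (d = 0)) = 1 / (Fintype.card F : ℝ) ^ S := by
    rw [av_ind_eq]; simp
  have e0 : 2 / (Fintype.card F : ℝ) ^ S =
      av (fun d : Fin S → F => 1 / (Fintype.card F : ℝ) ^ S + ind (d = 0)) := by
    rw [av_add, av_const, hS]; ring
  rw [e0, ← Box_conv h2 π2 u2]
  refine Ex_mono h2.1 fun a => Ex_mono h2.1 fun a' => ?_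
  set R : (Fin S → F) → F := fun p =>
    c * bil (γ2 a) (hat (π2 a)) (hat p) + c * bil (γ2 a') (hat (π2 a')) (hat p) with hR
  have e : ∀ a1, f2 a * chi (bil (γ1 a1) (hat (π1 a1)) (hat (π2 a)) +
        c * bil (γ2 a) (hat (π2 a)) (hat (π1 a1))) *
      (f2 a' * chi (bil (γ1 a1) (hat (π1 a1)) (hat (π2 a')) +
        c * bil (γ2 a') (hat (π2 a')) (hat (π1 a1)))) =
      f2 a * f2 a' * chi (R (π1 a1)) *
        chi (∑ e, γ1 a1 e * cof e (hat (π1 a1)) (hat (π2 a) + hat (π2 a'))) := fun a1 => by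
    rw [mul_mul_mul_comm, ← chi_add, mul_assoc (f2 a * f2 a'), ← chi_add, ← bil_eq_sum_cof,
      bil_add_right, hR]
    congr 2; ring
  simp only [e]
  rw [u1 fun z => f2 a * f2 a' * chi (R z.1) *
    chi (∑ e, z.2 e * cof e (hat z.1) (hat (π2 a) + hat (π2 a'))), av_prod]
  simp only [av_const_mul, Box_av_dot]
  rw [← hS, ← av_const (X := Fin S → F) (ind (π2 a + π2 a' = 0)), ← av_add]
  refine av_mono fun v => ?_
  have b1 : |f2 a * f2 a'| ≤ 1 := by
    rw [abs_mul]; exact mul_le_one₀ (hf2 a) (abs_nonneg _) (hf2 a')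
  refine (Box_le b1 (abs_chi (R v)).le (ind_nonneg _)).trans (le_trans (ind_mono fun h => ?_)
    (ind_or_le _ _))
  exact (Box_bil_zero h).imp funext funext

omit [Field F] [Fintype F] [Algebra (ZMod 2) F] in
lemma Box_pow {P : A3 → ℝ} (h3 : ∀ a, 0 ≤ P a) (h3' : ∑ a, P a ≤ 1) {X : A3 → ℝ}
    (hX : ∀ a, 0 ≤ X a) {l : ℕ} (hl : 0 < l) : Ex P X ^ l ≤ Ex P (fun a => X a ^ l) := by
  have h := Real.pow_arith_mean_le_arith_mean_pow (univ : Finset (Option A3))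
    (fun o => o.elim (1 - ∑ a, P a) P) (fun o => o.elim 0 X)
    (fun o _ => by cases o <;> simp [h3, h3']) (by simp [Fintype.sum_option])
    (fun o _ => by cases o <;> simp [hX]) l
  simpa [Fintype.sum_option, hl.ne', Ex] using h

omit [Field F] [Algebra (ZMod 2) F] in
lemma Box_av_pow {X : Type} [Fintype X] (φ : X → ℝ) (l : ℕ) :
    av φ ^ l = av (fun D : Fin l → X => ∏ i, φ (D i)) := by
  unfold av
  rw [div_pow, Fintype.sum_pow]
  simp

omit [Fintype F] [Algebra (ZMod 2) F] in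
lemma Box_surj {V J : Type} [AddCommGroup V] [Module F V] [Fintype J] (ψ : V →ₗ[F] J → F)
    (h : ∀ lam : J → F, (∀ v, ∑ j, ψ v j * lam j = 0) → lam = 0) : Function.Surjective ψ := by
  rw [← LinearMap.range_eq_top]
  by_contra hc
  obtain ⟨f, hf, hle⟩ := (LinearMap.range ψ).exists_le_ker_of_lt_top (lt_top_iff_ne_top.2 hc)
  have e : ∀ w : J → F, f w = ∑ j, w j * f (fun i => if j = i then 1 else 0) := fun w =>
    LinearMap.pi_apply_eq_sum_univ f w
  have h1 := h (fun j => f (fun i => if j = i then 1 else 0)) fun v => by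
    rw [← e]; exact hle ⟨v, rfl⟩
  refine hf (LinearMap.ext fun w => ?_)
  rw [e]
  simp [congrFun h1]

omit [Algebra (ZMod 2) F] in
lemma Box_bad {l S' : ℕ} (ι2 : Fin S' → Fin S) (h2 : Function.Injective ι2) :
    av (fun D : Fin l → Fin S → F => ind (∃ lam : Fin l → F, lam ≠ 0 ∧
      ∀ y, ∑ i, D i (ι2 y) * lam i = 0)) ≤
      (Fintype.card F : ℝ) ^ l / (Fintype.card F : ℝ) ^ S' := by
  have h1 : ∀ lam : Fin l → F, av (fun D : Fin l → Fin S → F => ind (lam ≠ 0 ∧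
      ∀ y, ∑ i, D i (ι2 y) * lam i = 0)) ≤ 1 / (Fintype.card F : ℝ) ^ S' := fun lam => by
    by_cases h0 : lam = 0
    · simp only [h0, ne_eq, not_true, false_and, ind_neg not_false, av_zero]; positivity
    obtain ⟨i0, hi0⟩ := Function.ne_iff.1 h0
    have hi0' : lam i0 ≠ 0 := hi0
    let φ : (Fin l → Fin S → F) →+ (Fin S' → F) :=
      { toFun := fun D y => ∑ i, D i (ι2 y) * lam i
        map_zero' := by funext y; simp
        map_add' := fun a b => by funext y; simp [add_mul, sum_add_distrib] }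
    have hφ : Function.Surjective φ := fun t =>
      ⟨Pi.single i0 (Function.extend ι2 (fun y => t y / lam i0) 0), by
        funext y
        simp only [φ, AddMonoidHom.coe_mk, ZeroHom.coe_mk]
        rw [sum_eq_single i0 (fun i _ hi => by simp [Pi.single_eq_of_ne hi]) (by simp),
          Pi.single_eq_same, h2.extend_apply]
        field_simp⟩
    have e : 1 / (Fintype.card F : ℝ) ^ S' = av (fun t : Fin S' → F => ind (t = 0)) := by
      rw [av_ind_eq]; simp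
    rw [e, ← av_comp_hom φ hφ]
    exact av_mono fun D => ind_mono fun h => funext h.2
  calc _ ≤ av (fun D : Fin l → Fin S → F => ∑ lam : Fin l → F, ind (lam ≠ 0 ∧
        ∀ y, ∑ i, D i (ι2 y) * lam i = 0)) := av_mono fun D => by
        by_cases h : ∃ lam : Fin l → F, lam ≠ 0 ∧ ∀ y, ∑ i, D i (ι2 y) * lam i = 0
        · obtain ⟨lam, hlam⟩ := id h
          rw [ind_pos h, ← ind_pos hlam]
          exact single_le_sum (f := fun lam : Fin l → F => ind (lam ≠ 0 ∧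
            ∀ y, ∑ i, D i (ι2 y) * lam i = 0)) (fun _ _ => ind_nonneg _) (mem_univ lam)
        · rw [ind_neg h]; exact sum_nonneg fun _ _ => ind_nonneg _
    _ ≤ ∑ _lam : Fin l → F, 1 / (Fintype.card F : ℝ) ^ S' := by
        rw [av_sum]; exact sum_le_sum fun lam _ => h1 lam
    _ = _ := by simp [div_eq_mul_inv]

omit [Algebra (ZMod 2) F] in
lemma Box_good {l S' : ℕ} (ι1 ι2 : Fin S' → Fin S) (h1 : Function.Injective ι1)
    (h12 : ∀ x y, ι1 x ≠ ι2 y) {c : F} (hc : c ≠ 0) {D : Fin l → Fin S → F}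
    (hD : ¬ ∃ lam : Fin l → F, lam ≠ 0 ∧ ∀ y, ∑ i, D i (ι2 y) * lam i = 0)
    (g0 : Option (Sym2 (Fin S)) → F) :
    av (fun g : Option (Sym2 (Fin S)) → F =>
      ∏ i, ind (∀ x, ∑ y, c * (g0 + g) (some s(x, y)) * D i y = 0)) ≤
      1 / (Fintype.card F : ℝ) ^ (S' * l) := by
  let ψ : (Option (Sym2 (Fin S)) → F) →ₗ[F] (Fin S' × Fin l → F) :=
    { toFun := fun g j => ∑ y, c * g (some s(ι1 j.1, y)) * D j.2 y
      map_add' := fun a b => by funext j; simp [mul_add, add_mul, sum_add_distrib]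
      map_smul' := fun a b => by
        funext j; simp only [Pi.smul_apply, smul_eq_mul, RingHom.id_apply, mul_sum]
        exact sum_congr rfl fun y _ => by ring }
  have hψ : Function.Surjective ψ := Box_surj ψ fun lam h => by
    funext ⟨x0, i0⟩
    by_contra h0
    refine hD ⟨fun i => lam (x0, i), Function.ne_iff.2 ⟨i0, h0⟩, fun y0 => ?_⟩
    have h3 := h (Pi.single (some s(ι1 x0, ι2 y0)) 1)
    have e : ∀ x i, ψ (Pi.single (some s(ι1 x0, ι2 y0)) 1) (x, i) =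
        if x = x0 then c * D i (ι2 y0) else 0 := fun x i => by
      simp only [ψ, LinearMap.coe_mk, AddHom.coe_mk, Pi.single_apply, Option.some.injEq,
        Sym2.eq_iff, h1.eq_iff, h12, false_and, or_false]
      by_cases hx : x = x0 <;> simp [hx]
    simp only [Fintype.sum_prod_type, e, ite_mul, zero_mul, sum_ite_irrel, sum_const_zero,
      sum_ite_eq', mem_univ, if_true, mul_assoc, ← mul_sum] at h3
    exact (mul_eq_zero.1 h3).resolve_left hc
  have e : 1 / (Fintype.card F : ℝ) ^ (S' * l) =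
      av (fun t : Fin S' × Fin l → F => ind (t = 0)) := by
    rw [av_ind_eq]; simp
  rw [e, ← av_comp_hom ψ.toAddMonoidHom hψ, ← av_equiv (Equiv.addLeft g0)
    (fun g => ind (ψ.toAddMonoidHom g = 0))]
  refine av_mono fun g => ?_
  by_cases h : ∀ i x, ∑ y, c * (g0 + g) (some s(x, y)) * D i y = 0
  · have h' : ψ.toAddMonoidHom (Equiv.addLeft g0 g) = 0 :=
      funext fun j : Fin S' × Fin l => h j.2 (ι1 j.1)
    rw [ind_pos h']
    exact prod_le_one (fun _ _ => ind_nonneg _) fun _ _ => ind_le_one _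
  · obtain ⟨i, hi⟩ := not_forall.1 h
    rw [prod_eq_zero (mem_univ i) (ind_neg hi)]
    exact ind_nonneg _

omit [Algebra (ZMod 2) F] in
lemma Box_rank {P3 : A3 → ℝ} (h3 : ∀ a, 0 ≤ P3 a) (h3' : ∑ a, P3 a ≤ 1)
    (γ : A3 → Option (Sym2 (Fin S)) → F) {Tc η : ℝ}
    (u3 : ∀ φ : (Option (Sym2 (Fin S)) → F) → ℝ, (∀ g, 0 ≤ φ g) →
      Ex P3 (fun a => φ (γ a)) ≤ Tc * av φ)
    {l S' : ℕ} (hl : 0 < l) (hS : 2 * S' ≤ S) (hη : 0 ≤ η)
    (hb : (Fintype.card F : ℝ) ^ l / (Fintype.card F : ℝ) ^ S' +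
      Tc / (Fintype.card F : ℝ) ^ (S' * l) ≤ η ^ l)
    {c : F} (hc : c ≠ 0) (g0 : Option (Sym2 (Fin S)) → F) :
    Ex P3 (fun a => av (fun d : Fin S → F =>
      ind (∀ x, ∑ y, c * (g0 + γ a) (some s(x, y)) * d y = 0))) ≤ η := by
  have hT : 0 ≤ Tc := by
    have h := u3 (fun _ => 1) fun _ => zero_le_one
    rw [av_const, mul_one] at h
    exact (Ex_nonneg h3 fun _ => zero_le_one).trans h
  refine le_of_pow_le_pow_left₀ hl.ne' hη (le_trans ?_ hb)
  refine (Box_pow h3 h3' (fun a => av_nonneg fun _ => ind_nonneg _) hl).trans ?_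
  simp only [Box_av_pow]
  rw [← av_Ex]
  let ι1 : Fin S' → Fin S := fun x => ⟨x, by omega⟩
  let ι2 : Fin S' → Fin S := fun x => ⟨S' + x, by omega⟩
  have i1 : Function.Injective ι1 := fun x y h => Fin.ext (by simpa [ι1] using h)
  have i2 : Function.Injective ι2 := fun x y h => Fin.ext (by simpa [ι2] using h)
  have i12 : ∀ x y, ι1 x ≠ ι2 y := fun x y h => by
    have := x.2
    simp only [ι1, ι2, Fin.mk.injEq] at h
    omega
  refine le_trans ?_ (add_le_add (Box_bad (l := l) ι2 i2) le_rfl)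
  rw [← av_const (X := Fin l → Fin S → F) (Tc / (Fintype.card F : ℝ) ^ (S' * l)), ← av_add]
  refine av_mono fun D => ?_
  by_cases hD : ∃ lam : Fin l → F, lam ≠ 0 ∧ ∀ y, ∑ i, D i (ι2 y) * lam i = 0
  · rw [ind_pos hD]
    have b1 : Ex P3 (fun a => ∏ i, ind (∀ x, ∑ y, c * (g0 + γ a) (some s(x, y)) * D i y = 0)) ≤
        Ex P3 (fun _ => 1) := Ex_mono h3 fun a =>
      prod_le_one (fun _ _ => ind_nonneg _) fun _ _ => ind_le_one _
    have b2 : Ex P3 (fun _ => 1) ≤ 1 := by simpa [Ex] using h3'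
    have b3 : 0 ≤ Tc / (Fintype.card F : ℝ) ^ (S' * l) := by positivity
    linarith
  · rw [ind_neg hD, zero_add]
    refine (u3 (fun g => ∏ i, ind (∀ x, ∑ y, c * (g0 + g) (some s(x, y)) * D i y = 0))
      fun g => prod_nonneg fun _ _ => ind_nonneg _).trans ?_
    rw [div_eq_mul_one_div]
    exact mul_le_mul_of_nonneg_left (Box_good ι1 ι2 i1 i12 hc hD g0) hT

theorem box3 {P1 : A1 → ℝ} {P2 : A2 → ℝ} {P3 : A3 → ℝ} (h1 : IsProb P1) (h2 : IsProb P2)
    (h3 : ∀ a, 0 ≤ P3 a) (h3' : ∑ a, P3 a ≤ 1) (π1 : A1 → Fin S → F) (π2 : A2 → Fin S → F)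
    (γ : A3 → Option (Sym2 (Fin S)) → F)
    (u1 : ∀ φ : (Fin S → F) → ℝ, Ex P1 (fun a => φ (π1 a)) = av φ)
    (u2 : ∀ φ : (Fin S → F) → ℝ, Ex P2 (fun a => φ (π2 a)) = av φ) {Tc η : ℝ}
    (u3 : ∀ φ : (Option (Sym2 (Fin S)) → F) → ℝ, (∀ g, 0 ≤ φ g) →
      Ex P3 (fun a => φ (γ a)) ≤ Tc * av φ)
    {l S' : ℕ} (hl : 0 < l) (hS : 2 * S' ≤ S) (hη : 0 ≤ η)
    (hb : (Fintype.card F : ℝ) ^ l / (Fintype.card F : ℝ) ^ S' +
      Tc / (Fintype.card F : ℝ) ^ (S' * l) ≤ η ^ l)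
    {c : F} (hc : c ≠ 0) (f12 : A1 → A2 → ℝ) (f13 : A1 → A3 → ℝ) (f23 : A2 → A3 → ℝ)
    (h12 : ∀ a b, |f12 a b| ≤ 1) (h13 : ∀ a b, |f13 a b| ≤ 1) (h23 : ∀ a b, |f23 a b| ≤ 1) :
    Ex P3 (fun a3 => Ex P2 (fun a2 => Ex P1 (fun a1 => f12 a1 a2 * f13 a1 a3 * f23 a2 a3 *
      chi (c * bil (γ a3) (hat (π1 a1)) (hat (π2 a2)))))) ^ 4 ≤ η := by
  set G : A2 × A1 → A3 → ℝ := fun z a3 => f13 z.2 a3 * f23 z.1 a3 *
    chi (c * bil (γ a3) (hat (π1 z.2)) (hat (π2 z.1))) with hG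
  have k1 := Box_cs (h2.prodP h1) P3 (f := fun z => f12 z.2 z.1) (fun z => h12 _ _) G
  set T : A3 × A3 → ℝ := fun w => Ex (prodP P2 P1) (fun z => G z w.1 * G z w.2) with hT
  have k2 : ∀ w : A3 × A3, T w ^ 2 ≤ av (fun d : Fin S → F =>
      ind (∀ x, ∑ y, c * (γ w.1 + γ w.2) (some s(x, y)) * d y = 0)) := fun w => by
    refine le_trans (le_of_eq ?_) (bilin h1 h2 π1 π2 u1 u2
      (fun x y => c * (γ w.1 + γ w.2) (some s(x, y)))
      (fun a => f13 a w.1 * f13 a w.2 * chi (c * (γ w.1 + γ w.2) none))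
      (fun a => f23 a w.1 * f23 a w.2) (fun a => ?_) (fun a => ?_))
    · rw [hT]
      simp only [Ex_prodP, hG]
      congr 1
      refine Ex_congr fun a2 => Ex_congr fun a1 => ?_
      have e : chi (c * bil (γ w.1) (hat (π1 a1)) (hat (π2 a2))) *
          chi (c * bil (γ w.2) (hat (π1 a1)) (hat (π2 a2))) = chi (c * (γ w.1 + γ w.2) none) *
          chi (∑ x, ∑ y, π1 a1 x * (c * (γ w.1 + γ w.2) (some s(x, y))) * π2 a2 y) := by
        rw [← chi_add, ← chi_add, ← mul_add, ← bil_add, bil]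
        simp only [hat_none, hat_some, mul_one, mul_add c, mul_sum]
        congr 2
        exact sum_congr rfl fun x _ => sum_congr rfl fun y _ => by ring
      linear_combination (f13 a1 w.1 * f23 a2 w.1 * f13 a1 w.2 * f23 a2 w.2) * e
    · rw [abs_mul, abs_mul, abs_chi, mul_one]
      exact mul_le_one₀ (h13 _ _) (abs_nonneg _) (h13 _ _)
    · rw [abs_mul]
      exact mul_le_one₀ (h23 _ _) (abs_nonneg _) (h23 _ _)
  have hQ : ∀ w, 0 ≤ prodP P3 P3 w := fun w => mul_nonneg (h3 _) (h3 _)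
  have m1 : ∀ t : ℝ, 0 ≤ t → Ex P3 (fun _ => t) ≤ t := fun t ht => by
    simp only [Ex, ← sum_mul]; exact mul_le_of_le_one_left ht h3'
  have k3 : Ex (prodP P3 P3) T ^ 2 ≤ η := by
    have b1 := Ex_mul_sq_le hQ (fun _ => 1) T
    simp only [one_mul, one_pow] at b1
    have b2 : Ex (prodP P3 P3) (fun _ => 1) ≤ 1 := by
      rw [Ex_prodP]
      exact (Ex_mono h3 fun _ => m1 1 zero_le_one).trans (m1 1 zero_le_one)
    have b3 : Ex (prodP P3 P3) (fun w => T w ^ 2) ≤ η := by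
      refine (Ex_mono hQ k2).trans ?_
      rw [Ex_prodP]
      exact (Ex_mono h3 fun a => Box_rank h3 h3' γ u3 hl hS hη hb hc (γ a)).trans (m1 η hη)
    exact b1.trans ((mul_le_of_le_one_left (Ex_nonneg hQ fun _ => sq_nonneg _) b2).trans b3)
  have e : Ex P3 (fun a3 => Ex P2 (fun a2 => Ex P1 (fun a1 => f12 a1 a2 * f13 a1 a3 * f23 a2 a3 *
      chi (c * bil (γ a3) (hat (π1 a1)) (hat (π2 a2)))))) =
      Ex P3 (fun a3 => Ex (prodP P2 P1) (fun z => f12 z.2 z.1 * G z a3)) := by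
    simp only [Ex_prodP, hG, mul_assoc]
  rw [e, show (4 : ℕ) = 2 * 2 from rfl, pow_mul]
  refine le_trans ?_ k3
  rw [Ex_prodP]
  exact pow_le_pow_left₀ (sq_nonneg _) k1 2

end

end Vale.Agent.P060
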