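import Vale.Agent.P060.Zw

/-! P060: in the model only the bits cd are visible. -/

namespace Vale.Agent.P060

open Finset Polynomial Vale.Agent.P056.Sharp

noncomputable section

open scoped Classical

variable {F : Type} [Field F] [Fintype F] [Algebra (ZMod 2) F] {p : Par}
  {ρ : Om F p → ℝ} {k : Bool → Pt F p × Vo F p → Cr F p → ℝ} {e η δ β θ Tc : ℝ}

/-- the characters of the side vectors. -/
def chQ (c v : Bool × Bool → Qv F) : ℝ :=
  ∏ z, (sgn ((c z).1.1 * (v z).1.1 + (c z).1.2.1 * (v z).1.2.1 + (c z).1.2.2 * (v z).1.2.2) *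
    chi ((c z).2 * (v z).2))

/-- the phase of one position. -/
def Chars_T (c : Qv F) (g gc : Ei p → F) (u v : Oi p → F) : F :=
  (algebraMap (ZMod 2) F c.1.1 + c.2) * bil g u u +
    (algebraMap (ZMod 2) F c.1.2.1 + c.2) * bil g u v +
    (algebraMap (ZMod 2) F c.1.2.2 + c.2) * bil gc u u + c.2 * bil gc u v

omit [Fintype F] in
lemma Chars_chQ (c : Bool × Bool → Qv F) (b : Bool × Bool → Blk F p) :
    chQ c (sv b) =
      ∏ y, chi (Chars_T (c y) (b y).1.2.2 (b (opp y)).2 (bh (b y)) (bh (b (sib y)))) := by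
  unfold chQ
  refine prod_congr rfl fun y _ => ?_
  have h : Chars_T (c y) (b y).1.2.2 (b (opp y)).2 (bh (b y)) (bh (b (sib y))) =
      (algebraMap (ZMod 2) F (c y).1.1 * od b y + algebraMap (ZMod 2) F (c y).1.2.1 * om b y +
        algebraMap (ZMod 2) F (c y).1.2.2 * cd b y) +
        (c y).2 * (od b y + om b y + cd b y + cm b y) := by
    unfold Chars_T od om cd cm; ring
  rw [h, chi_add]
  congr 1
  unfold chi
  rw [tr_add, tr_add, tr_bit_mul, tr_bit_mul, tr_bit_mul]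
  rfl

def Chars_Z (M : Finset (Ix F p)) (i : Bool) (b b' : Blk F p) : Prop :=
  ∀ u ∈ M, tr (PhiB u i b b') = 0

omit [Fintype F] in
lemma Chars_Z4 (M : Finset (Ix F p)) (b : Bool × Bool → Blk F p) (z : Bool × Bool) :
    Z4 M b ↔ Chars_Z M z.1 (b z) (b (opp z)) ∧ Chars_Z M z.1 (b (sib z)) (b (sib (opp z))) := by
  have hs : ∀ b1 b2 : Blk F p, Chars_Z M true b1 b2 ↔ ZB M b2 b1 := fun b1 b2 => by
    unfold Chars_Z ZB
    refine forall₂_congr fun u _ => ?_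
    rw [← PhiB_swap u false b2 b1]; rfl
  have hf : ∀ b1 b2 : Blk F p, Chars_Z M false b1 b2 ↔ ZB M b1 b2 := fun _ _ => Iff.rfl
  obtain ⟨x, y⟩ := z
  cases x <;> cases y <;> simp only [Z4, Bool.forall_bool, hs, hf, sib, opp, Bool.not_true,
    Bool.not_false] <;> tauto

omit [Fintype F] in
lemma Chars_mk4 (M : Finset (Ix F p)) (c : Bool × Bool → Qv F) (z : Bool × Bool)
    (b1 b2 b3 b4 : Blk F p) :
    ind (Z4 M (mk4 z b1 b2 b3 b4)) * chQ c (sv (mk4 z b1 b2 b3 b4)) =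
      ind (Chars_Z M z.1 b1 b3) * ind (Chars_Z M z.1 b2 b4) *
      (chi (Chars_T (c z) b1.1.2.2 b3.2 (bh b1) (bh b2)) *
        chi (Chars_T (c (sib z)) b2.1.2.2 b4.2 (bh b2) (bh b1)) *
        chi (Chars_T (c (opp z)) b3.1.2.2 b1.2 (bh b3) (bh b4)) *
        chi (Chars_T (c (sib (opp z))) b4.1.2.2 b2.2 (bh b4) (bh b3))) := by
  rw [Chars_chQ, prod_four z, ind_congr (Chars_Z4 M _ z), ind_and]
  simp only [mk4_self, mk4_sib, mk4_opp, mk4_sib_opp, sib_sib, opp_opp, opp_sib]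

lemma Chars_abs_mul {x y : ℝ} (hx : |x| ≤ 1) (hy : |y| ≤ 1) : |x * y| ≤ 1 := by
  rw [abs_mul]; exact mul_le_one₀ hx (abs_nonneg _) hy

lemma Chars_abs_ind (P : Prop) : |ind P| ≤ 1 := by
  rw [abs_of_nonneg (ind_nonneg _)]; exact ind_le_one _

omit [Algebra (ZMod 2) F] in
lemma Chars_psi {k : Pt F p × Vo F p → Cr F p → ℝ} (hk : IsKer k) (x : Pt F p)
    (φ : (Fin p.S → F) → ℝ) : Ex (cP k x) (fun y => φ y.1.1) = av φ := by
  rw [Ex_cP_own hk x (fun o => φ o.1), av_prod]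
  exact av_congr fun a => av_const (φ a)

lemma Chars_Ex_pow {X : Type} [Fintype X] {P : X → ℝ} (hP : IsProb P) (f : X → ℝ) {c : ℝ}
    (h : ∀ x, f x ^ 2 ≤ c) : Ex P f ^ 2 ≤ c := (Ex_sq_le hP f).trans (Ex_le_const hP h)

lemma Chars_Ex_pow4 {X : Type} [Fintype X] {P : X → ℝ} (hP : IsProb P) (f : X → ℝ) {c : ℝ}
    (h : ∀ x, f x ^ 4 ≤ c) : Ex P f ^ 4 ≤ c := by
  have h1 := Ex_sq_le hP f
  have h2 : Ex P (fun x => f x ^ 2) ^ 2 ≤ c :=
    Chars_Ex_pow hP _ fun x => by rw [← pow_mul]; exact h x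
  calc Ex P f ^ 4 = (Ex P f ^ 2) ^ 2 := by ring
    _ ≤ Ex P (fun x => f x ^ 2) ^ 2 := pow_le_pow_left₀ (sq_nonneg _) h1 2
    _ ≤ c := h2

/-- (I) characters that see the field part; truncated blocks. -/
theorem char_I (hk : ∀ i, IsKer (k i)) {l S' : ℕ} (hl : 0 < l) (hS' : 2 * S' ≤ p.S) {η1 : ℝ}
    (hη1 : 0 ≤ η1) (hb : (Fintype.card F : ℝ) ^ l / (Fintype.card F : ℝ) ^ S' +
      Tc / (Fintype.card F : ℝ) ^ (S' * l) ≤ η1 ^ l) (M : Finset (Ix F p))
    (c : Bool × Bool → Qv F) {z : Bool × Bool} (hc : (c z).2 ≠ 0) (P : Bool × Bool → Pt F p) :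
    c4 k P (fun b => ind (∀ y, k y.1 (b y).1 (b y).2 ≤ Tc / Fintype.card (Cr F p)) *
      ind (Z4 M b) * chQ c (sv b)) ^ 4 ≤ η1 := by
  have hC : (0 : ℝ) < Fintype.card (Cr F p) := by exact_mod_cast Fintype.card_pos
  have hV : (0 : ℝ) < Fintype.card (Vo F p) := by exact_mod_cast Fintype.card_pos
  rcases lt_or_ge Tc 0 with hT | hT
  · have h0 : ∀ b : Bool × Bool → Blk F p,
        ind (∀ y, k y.1 (b y).1 (b y).2 ≤ Tc / Fintype.card (Cr F p)) = 0 := fun b =>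
      ind_neg fun hb => absurd ((hk z.1 (b z).1).1 (b z).2)
        (not_le.2 ((hb z).trans_lt (div_neg_of_neg_of_pos hT hC)))
    simp only [h0, zero_mul]
    unfold c4
    rw [Ex_zero]; simpa using hη1
  rw [c4_eq k P z]
  refine Chars_Ex_pow4 (isProb_cP (hk _) _) _ fun y4 => ?_
  set b4 : Blk F p := ((P (sib (opp z)), y4.1), y4.2) with hb4
  set t : Bool → Blk F p → Prop := fun i b => k i b.1 b.2 ≤ Tc / Fintype.card (Cr F p) with ht
  set B1 : Vo F p × Cr F p → Blk F p := fun y => ((P z, y.1), y.2) with hB1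
  set B2 : Vo F p × Cr F p → Blk F p := fun y => ((P (sib z), y.1), y.2) with hB2
  set B3 : Vo F p × Cr F p → Blk F p := fun y => ((P (opp z), y.1), y.2) with hB3
  have h3 := isProb_cP (hk (!z.1)) (P (opp z))
  have key := box3 (isProb_cP (hk z.1) (P z)) (isProb_cP (hk z.1) (P (sib z)))
    (P3 := fun y => cP (k (!z.1)) (P (opp z)) y * ind (t (!z.1) (B3 y)))
    (fun y => mul_nonneg (h3.1 y) (ind_nonneg _))
    (le_trans (sum_le_sum fun y _ => mul_le_of_le_one_right (h3.1 y) (ind_le_one _)) h3.2.le)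
    (fun y => y.1.1) (fun y => y.1.1) (fun y => y.2) (Chars_psi (hk _) _) (Chars_psi (hk _) _)
    (Tc := Tc) (fun φ hφ => by
      have e1 : Tc * av φ = ∑ y : Vo F p × Cr F p,
          Tc / Fintype.card (Cr F p) / Fintype.card (Vo F p) * φ y.2 := by
        rw [Fintype.sum_prod_type]
        simp only [sum_const, card_univ, nsmul_eq_mul, ← mul_sum]
        unfold av
        field_simp
      rw [e1]
      refine sum_le_sum fun y _ => mul_le_mul_of_nonneg_right ?_ (hφ _)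
      beta_reduce
      by_cases hy : t (!z.1) (B3 y)
      · rw [ind_pos hy, mul_one]
        exact div_le_div_of_nonneg_right hy hV.le
      · rw [ind_neg hy, mul_zero]
        positivity)
    hl hS' hη1 hb hc
    (fun y1 y2 => ind (t z.1 (B1 y1)) * ind (t z.1 (B2 y2)) * ind (t (!z.1) b4) *
      ind (Chars_Z M z.1 (B2 y2) b4) *
      chi ((algebraMap (ZMod 2) F (c z).1.1 + (c z).2) * bil y1.1.2 (hat y1.1.1) (hat y1.1.1) +
        (algebraMap (ZMod 2) F (c z).1.2.1 + (c z).2) * bil y1.1.2 (hat y1.1.1) (hat y2.1.1)) *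
      chi (Chars_T (c (sib z)) y2.1.2 b4.2 (hat y2.1.1) (hat y1.1.1)))
    (fun y1 y3 => ind (Chars_Z M z.1 (B1 y1) (B3 y3)) *
      chi ((algebraMap (ZMod 2) F (c z).1.2.2 + (c z).2) * bil y3.2 (hat y1.1.1) (hat y1.1.1)) *
      chi (Chars_T (c (opp z)) y3.1.2 y1.2 (hat y3.1.1) (bh b4)))
    (fun y2 y3 => chi (Chars_T (c (sib (opp z))) b4.1.2.2 y2.2 (bh b4) (hat y3.1.1)))
    (fun _ _ => Chars_abs_mul (Chars_abs_mul (Chars_abs_mul (Chars_abs_mul (Chars_abs_mul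
      (Chars_abs_ind _) (Chars_abs_ind _)) (Chars_abs_ind _)) (Chars_abs_ind _)) (abs_chi _).le)
      (abs_chi _).le)
    (fun _ _ => Chars_abs_mul (Chars_abs_mul (Chars_abs_ind _) (abs_chi _).le) (abs_chi _).le)
    (fun _ _ => (abs_chi _).le)
  refine le_trans (le_of_eq ?_) key
  congr 1
  unfold c1
  have hw : ∀ (Q w f : Vo F p × Cr F p → ℝ), Ex (fun y => Q y * w y) f = Ex Q (fun y => w y * f y) :=
    fun Q w f => sum_congr rfl fun y _ => mul_assoc _ _ _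
  rw [hw]
  refine Ex_congr fun y3 => ?_
  rw [← Ex_const_mul]
  refine Ex_congr fun y2 => ?_
  rw [← Ex_const_mul]
  refine Ex_congr fun y1 => ?_
  change ind (∀ y, k y.1 (mk4 z (B1 y1) (B2 y2) (B3 y3) b4 y).1 (mk4 z (B1 y1) (B2 y2) (B3 y3) b4 y).2
      ≤ Tc / Fintype.card (Cr F p)) * ind (Z4 M (mk4 z (B1 y1) (B2 y2) (B3 y3) b4)) *
      chQ c (sv (mk4 z (B1 y1) (B2 y2) (B3 y3) b4)) = _
  rw [mul_assoc, Chars_mk4, ind_congr (forall_four z _), ind_and, ind_and, ind_and]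
  simp only [mk4_self, mk4_sib, mk4_opp, mk4_sib_opp, sib_fst, opp_fst]
  have e2 : chi (Chars_T (c z) (B1 y1).1.2.2 (B3 y3).2 (bh (B1 y1)) (bh (B2 y2))) =
      chi ((algebraMap (ZMod 2) F (c z).1.1 + (c z).2) * bil y1.1.2 (hat y1.1.1) (hat y1.1.1) +
        (algebraMap (ZMod 2) F (c z).1.2.1 + (c z).2) * bil y1.1.2 (hat y1.1.1) (hat y2.1.1)) *
      chi ((algebraMap (ZMod 2) F (c z).1.2.2 + (c z).2) * bil y3.2 (hat y1.1.1) (hat y1.1.1)) *
      chi ((c z).2 * bil y3.2 (hat y1.1.1) (hat y2.1.1)) := by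
    rw [← chi_add, ← chi_add]; rfl
  rw [e2]
  simp only [ht, hB1, hB2, hB3, bh]
  ring

/-- (II) -/
theorem char_II (hk : ∀ i, IsKer (k i)) (M : Finset (Ix F p)) (c : Bool × Bool → Qv F)
    (hc : ∀ z, (c z).2 = 0) {z : Bool × Bool} (hz : (c z).1.2.1 = 1) (P : Bool × Bool → Pt F p) :
    c4 k P (fun b => ind (Z4 M b) * chQ c (sv b)) ^ 2 ≤ 2 / (Fintype.card F : ℝ) ^ p.S := by
  rw [c4_eq k P z]
  refine Chars_Ex_pow (isProb_cP (hk _) _) _ fun y4 => ?_
  refine Chars_Ex_pow (isProb_cP (hk _) _) _ fun y3 => ?_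
  set b4 : Blk F p := ((P (sib (opp z)), y4.1), y4.2) with hb4
  set b3 : Blk F p := ((P (opp z), y3.1), y3.2) with hb3
  set B1 : Vo F p × Cr F p → Blk F p := fun y => ((P z, y.1), y.2) with hB1
  set B2 : Vo F p × Cr F p → Blk F p := fun y => ((P (sib z), y.1), y.2) with hB2
  have key := box2 (isProb_cP (hk z.1) (P z)) (isProb_cP (hk z.1) (P (sib z)))
    (fun y => y.1.1) (fun y => y.1.2) (fun y => y.1.1) (fun y => y.1.2)
    (fun φ => Ex_cP_own (hk _) _ φ) (Chars_psi (hk _) _)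
    (algebraMap (ZMod 2) F (c (sib z)).1.2.1)
    (fun y1 => ind (Chars_Z M z.1 (B1 y1) b3) *
      chi (algebraMap (ZMod 2) F (c z).1.1 * bil y1.1.2 (hat y1.1.1) (hat y1.1.1) +
        algebraMap (ZMod 2) F (c z).1.2.2 * bil b3.2 (hat y1.1.1) (hat y1.1.1)) *
      chi (Chars_T (c (opp z)) b3.1.2.2 y1.2 (bh b3) (bh b4)))
    (fun y2 => ind (Chars_Z M z.1 (B2 y2) b4) *
      chi (algebraMap (ZMod 2) F (c (sib z)).1.1 * bil y2.1.2 (hat y2.1.1) (hat y2.1.1) +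
        algebraMap (ZMod 2) F (c (sib z)).1.2.2 * bil b4.2 (hat y2.1.1) (hat y2.1.1)) *
      chi (Chars_T (c (sib (opp z))) b4.1.2.2 y2.2 (bh b4) (bh b3)))
    (fun _ => Chars_abs_mul (Chars_abs_mul (Chars_abs_ind _) (abs_chi _).le) (abs_chi _).le)
    (fun _ => Chars_abs_mul (Chars_abs_mul (Chars_abs_ind _) (abs_chi _).le) (abs_chi _).le)
  refine le_trans (le_of_eq ?_) key
  congr 1
  unfold c1
  refine Ex_congr fun y2 => Ex_congr fun y1 => ?_
  change ind (Z4 M (mk4 z (B1 y1) (B2 y2) b3 b4)) * chQ c (sv (mk4 z (B1 y1) (B2 y2) b3 b4)) = _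
  rw [Chars_mk4]
  have e2 : chi (Chars_T (c z) (B1 y1).1.2.2 b3.2 (bh (B1 y1)) (bh (B2 y2))) *
      chi (Chars_T (c (sib z)) (B2 y2).1.2.2 b4.2 (bh (B2 y2)) (bh (B1 y1))) =
      chi (algebraMap (ZMod 2) F (c z).1.1 * bil y1.1.2 (hat y1.1.1) (hat y1.1.1) +
        algebraMap (ZMod 2) F (c z).1.2.2 * bil b3.2 (hat y1.1.1) (hat y1.1.1)) *
      chi (algebraMap (ZMod 2) F (c (sib z)).1.1 * bil y2.1.2 (hat y2.1.1) (hat y2.1.1) +
        algebraMap (ZMod 2) F (c (sib z)).1.2.2 * bil b4.2 (hat y2.1.1) (hat y2.1.1)) *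
      chi (bil y1.1.2 (hat y1.1.1) (hat y2.1.1) +
        algebraMap (ZMod 2) F (c (sib z)).1.2.1 * bil y2.1.2 (hat y2.1.1) (hat y1.1.1)) := by
    rw [← chi_add, ← chi_add, ← chi_add]
    congr 1
    unfold Chars_T
    simp only [hc, hz, map_one, hB1, hB2, bh]
    ring
  rw [e2]
  simp only [hB1, hB2]
  ring

lemma Chars_ind_Z (ω : Om F p) (i : Bool) (b b' : Blk F p) :
    ind (Chars_Z (Mt ω) i b b') = (∑ u ∈ Mt ω, chi (PhiB u i b b')) / (Mt ω).card := by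
  cases i
  · exact ind_ZB ω b b'
  · have h := ind_ZB ω b' b
    have e : ∀ u, PhiB u true b b' = PhiB u false b' b := fun u => PhiB_swap u false b' b
    simp only [Chars_Z, e]
    exact h

/-- (III) -/
theorem char_III (hp : p.Ok) (h : GP0 ρ k δ Tc θ) (hs : Sup ρ) (hS : Small F p e η δ β θ)
    (ω₀ : Om F p) (c : Bool × Bool → Qv F) (hc : ∀ z, (c z).2 = 0) (hc' : ∀ z, (c z).1.2.1 = 0)
    {z : Bool × Bool} (hz : (c z).1.1 = 1) :
    av (fun P => |c4 k P (fun b => ind (Z4 (Mt ω₀) b) * chQ c (sv b))|) ≤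
      Real.sqrt (η + 2 * δ) := by
  have hk := h.ker
  set a : F := algebraMap (ZMod 2) F (c z).1.2.2 with ha
  set a' : F := algebraMap (ZMod 2) F (c (opp z)).1.2.2 with ha'
  set D : Ix F p → Blk F p → Pt F p → ℝ := fun u b3 x => c1 (k z.1) x (fun b1 =>
    chi (bil b1.1.2.2 (bh b1) (bh b1) + a * bil b3.2 (bh b1) (bh b1) +
      a' * bil b1.2 (bh b3) (bh b3) + bil b3.2 (u z.1) (bh b1) + bil b1.2 (u (!z.1)) (bh b3)))
    with hD
  have hM : (0 : ℝ) < (Mt ω₀).card := by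
    exact_mod_cast card_pos.2 ⟨0, zero_mem_Mt ω₀⟩
  have h1 : ∀ P : Bool × Bool → Pt F p,
      |c4 k P (fun b => ind (Z4 (Mt ω₀) b) * chQ c (sv b))| ≤
        c1 (k (!z.1)) (P (opp z)) (fun b3 => (∑ u ∈ Mt ω₀, |D u b3 (P z)|) / (Mt ω₀).card) := by
    intro P
    rw [c4_eq k P z]
    have hp4 := isProb_cP (hk (!z.1)) (P (sib (opp z)))
    have hp3 := isProb_cP (hk (!z.1)) (P (opp z))
    have hp2 := isProb_cP (hk z.1) (P (sib z))
    refine (abs_Ex_le hp4.1 _).trans (Ex_le_const hp4 fun y4 => ?_)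
    refine (abs_Ex_le hp3.1 _).trans (Ex_mono hp3.1 fun y3 => ?_)
    refine (abs_Ex_le hp2.1 _).trans (Ex_le_const hp2 fun y2 => ?_)
    set b4 : Blk F p := ((P (sib (opp z)), y4.1), y4.2) with hb4
    set b3 : Blk F p := ((P (opp z), y3.1), y3.2) with hb3
    set b2 : Blk F p := ((P (sib z), y2.1), y2.2) with hb2
    set r : ℝ := ind (Chars_Z (Mt ω₀) z.1 b2 b4) *
      chi (Chars_T (c (sib z)) b2.1.2.2 b4.2 (bh b2) (bh b2)) *
      chi (algebraMap (ZMod 2) F (c (opp z)).1.1 * bil b3.1.2.2 (bh b3) (bh b3)) *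
      chi (Chars_T (c (sib (opp z))) b4.1.2.2 b2.2 (bh b4) (bh b3)) with hr
    have hr1 : |r| ≤ 1 := Chars_abs_mul (Chars_abs_mul (Chars_abs_mul (Chars_abs_ind _)
      (abs_chi _).le) (abs_chi _).le) (abs_chi _).le
    have e1 : c1 (k z.1) (P z) (fun b1 => ind (Z4 (Mt ω₀) (mk4 z b1 b2 b3 b4)) *
        chQ c (sv (mk4 z b1 b2 b3 b4))) = r * ((∑ u ∈ Mt ω₀, D u b3 (P z)) / (Mt ω₀).card) := by
      simp only [hD]
      unfold c1
      rw [← Ex_sum, div_eq_mul_inv, ← Ex_mul_const, ← Ex_const_mul]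
      refine Ex_congr fun y1 => ?_
      set b1 : Blk F p := ((P z, y1.1), y1.2) with hb1
      beta_reduce
      rw [Chars_mk4, Chars_ind_Z]
      have e2 : chi (Chars_T (c (sib z)) b2.1.2.2 b4.2 (bh b2) (bh b1)) =
          chi (Chars_T (c (sib z)) b2.1.2.2 b4.2 (bh b2) (bh b2)) := by
        unfold Chars_T; simp only [hc, hc', map_zero, add_zero, zero_mul]
      have e3 : ∀ u : Ix F p, chi (bil b1.1.2.2 (bh b1) (bh b1) + a * bil b3.2 (bh b1) (bh b1) +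
          a' * bil b1.2 (bh b3) (bh b3) + bil b3.2 (u z.1) (bh b1) + bil b1.2 (u (!z.1)) (bh b3)) *
          chi (algebraMap (ZMod 2) F (c (opp z)).1.1 * bil b3.1.2.2 (bh b3) (bh b3)) =
          chi (PhiB u z.1 b1 b3) * (chi (Chars_T (c z) b1.1.2.2 b3.2 (bh b1) (bh b2)) *
            chi (Chars_T (c (opp z)) b3.1.2.2 b1.2 (bh b3) (bh b4))) := fun u => by
        rw [← chi_add, ← chi_add, ← chi_add]
        congr 1
        unfold Chars_T PhiB
        simp only [hc, hc', hz, map_zero, map_one, add_zero, zero_mul, ha, ha']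
        ring
      have e4 : (∑ u ∈ Mt ω₀, chi (bil b1.1.2.2 (bh b1) (bh b1) + a * bil b3.2 (bh b1) (bh b1) +
          a' * bil b1.2 (bh b3) (bh b3) + bil b3.2 (u z.1) (bh b1) + bil b1.2 (u (!z.1)) (bh b3))) *
          chi (algebraMap (ZMod 2) F (c (opp z)).1.1 * bil b3.1.2.2 (bh b3) (bh b3)) =
          (∑ u ∈ Mt ω₀, chi (PhiB u z.1 b1 b3)) *
            (chi (Chars_T (c z) b1.1.2.2 b3.2 (bh b1) (bh b2)) *
            chi (Chars_T (c (opp z)) b3.1.2.2 b1.2 (bh b3) (bh b4))) := by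
        rw [sum_mul, sum_mul]; exact sum_congr rfl fun u _ => e3 u
      rw [e2, hr]
      linear_combination (-(ind (Chars_Z (Mt ω₀) z.1 b2 b4) *
        chi (Chars_T (c (sib z)) b2.1.2.2 b4.2 (bh b2) (bh b2)) *
        chi (Chars_T (c (sib (opp z))) b4.1.2.2 b2.2 (bh b4) (bh b3)) *
        ((Mt ω₀).card : ℝ)⁻¹)) * e4
    refine (congrArg abs e1).le.trans ?_
    rw [abs_mul, abs_div, Nat.abs_cast]
    refine (mul_le_of_le_one_left (by positivity) hr1).trans ?_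
    exact div_le_div_of_nonneg_right (abs_sum_le_sum_abs _ _) hM.le
  refine (av_mono h1).trans ?_
  have h2 : ∀ u, Ex (mP (k (!z.1))) (fun b3 => av (fun x => |D u b3 x|)) ≤
      Real.sqrt (η + 2 * δ) := fun u => by
    have hP := isProb_mP (hk (!z.1))
    refine Real.le_sqrt_of_sq_le ((Ex_sq_le hP _).trans (le_trans (Ex_mono hP.1 fun b3 => ?_)
      (diag_small hp h hs hS z.1 a a' (u z.1) (u (!z.1)))))
    exact (av_sq_le _).trans (le_of_eq (av_congr fun x => sq_abs _))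
  have h3 : av (fun P : Bool × Bool → Pt F p => c1 (k (!z.1)) (P (opp z))
      (fun b3 => (∑ u ∈ Mt ω₀, |D u b3 (P z)|) / (Mt ω₀).card)) =
      (∑ u ∈ Mt ω₀, Ex (mP (k (!z.1))) (fun b3 => av (fun x => |D u b3 x|))) / (Mt ω₀).card := by
    rw [av_four z]
    simp only [mk4_self, mk4_opp, av_const]
    rw [← Ex_sum, div_eq_mul_inv, ← Ex_mul_const, Ex_mP]
    refine av_congr fun x3 => ?_
    unfold c1
    rw [av_Ex]
    refine Ex_congr fun y => ?_
    rw [av_div_const, av_sum, div_eq_mul_inv]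
  rw [h3, div_le_iff₀ hM]
  refine (sum_le_sum fun u _ => h2 u).trans (le_of_eq ?_)
  rw [sum_const, nsmul_eq_mul, mul_comm]

end

end Vale.Agent.P060
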