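import Vale.Agent.P060.Cont

/-! P060: the two extraction claims. -/

namespace Vale.Agent.P060

open Finset Polynomial Vale.Agent.P056.Sharp

noncomputable section

open scoped Classical

variable {F : Type} [Field F] {p : Par}

lemma claim_num (hp : p.Ok) : 8 * p.j + p.r + 2 ≤ p.J ∧ 2 * p.ns * p.k + 4 * p.j ≤ p.J ∧
    4 * p.k ≤ p.J ∧ 3 ≤ p.j := by
  have h1 := hp.hns
  have h2 := hp.hk
  have h3 : 4 * p.k ≤ 2 * p.ns * p.k := Nat.mul_le_mul_right _ (by omega)
  unfold Par.J Par.j
  rw [add_mul, one_mul]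
  omega

lemma claim_pair_dvd (τ : Bool × Bool → F) (k : Bool) :
    (X - C (τ (false, k))) * (X - C (τ (true, k))) ∣ w4 τ := by
  unfold w4
  rw [← prod_pair (f := fun z => X - C (τ z)) (a := (false, k)) (b := (true, k)) (by simp)]
  exact prod_dvd_prod_of_subset _ _ _ (subset_univ _)

lemma claim_coprime {h : F[X]} {τ : Bool × Bool → F} (hav : ∀ z, h.eval (τ z) ≠ 0) (n : ℕ) :
    IsCoprime (w4 τ ^ n) h := by
  refine IsCoprime.pow_left (IsCoprime.prod_left fun z _ => ?_)
  exact (irreducible_X_sub_C (τ z)).coprime_iff_not_dvd.2 fun hd => hav z (dvd_iff_isRoot.1 hd)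

lemma claim_natDegree (τ : Bool × Bool → F) (n : ℕ) : (w4 τ ^ n).natDegree = 4 * n := by
  rw [(monic_w4 τ).natDegree_pow, natDegree_w4, mul_comm]

lemma claim_eval (τ : Bool × Bool → F) (z : Bool × Bool) : (w4 τ).eval (τ z) = 0 := by
  unfold w4
  rw [eval_prod]
  exact prod_eq_zero (mem_univ z) (by simp)

lemma claim_cg (L : Bool → Cv F p) (k : Bool) : cg (L k) (L (!k)) = cg (L false) (L true) := by
  cases k
  · rfl
  · exact cg_comm _ _

lemma claim_ce (L : Bool → Cv F p) (k : Bool) : ce (L k) (L (!k)) = ce (L false) (L true) := by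
  cases k
  · rfl
  · exact ce_comm _ _

lemma claim_ne {L : Bool → Cv F p} (h : L false ≠ L true) (k : Bool) : L k ≠ L (!k) := by
  cases k
  · exact h
  · exact h.symm

lemma claim_test_zero {ι : Type} [Fintype ι] (e : ι → Cv F p) (l : ι → Fin p.N) (f : F[X])
    (a : ι) : f * ∏ b, ((e a (l b) : F[X]) - e b (l b)) = 0 := by
  rw [prod_eq_zero (mem_univ a) (sub_self _), mul_zero]

lemma claim_bool (g : Bool → F) (k : Bool) (h : ∑ k', g k' = 0) (h' : g (!k) = 0) : g k = 0 := by
  rw [Fintype.sum_bool] at h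
  cases k
  · rwa [show g true = 0 from h', zero_add] at h
  · rwa [show g false = 0 from h', add_zero] at h

variable [Algebra (ZMod 2) F]

set_option linter.unusedSectionVars false

/-- type I: a vanishing sum without unforced contacts is local. -/
theorem claimI (hp : p.Ok) {ι : Type} [Fintype ι] (hι : Fintype.card ι ≤ p.ns)
    (L : ι → Bool → Cv F p) (A : Bool → F[X] →ₗ[F] F) {τ : Bool × Bool → F} (m0 : ι)
    (hok : okc (L m0 false) (L m0 true)) (hav : Avoid (L m0) τ)
    (hsum : ∀ G : GG F p, ∑ m, ∑ k, A k (G.1 (L m k)) = 0)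
    (hf : ∀ m, m ≠ m0 → ∀ k k', ¬ Unf (τ (false, k)) (τ (true, k)) (L m0 k) (L m k'))
    (G : GG F p) (hG : G ∈ Kg p τ) : ∑ k, A k (G.1 (L m0 k)) = 0 := by
  obtain ⟨n1, n2, n3, n4⟩ := claim_num hp
  have hr := hok.2
  let e : {m // m ≠ m0} × Bool → Cv F p := fun a => L a.1.1 a.2
  have hcard : Fintype.card ({m // m ≠ m0} × Bool) + 2 ≤ 2 * p.ns := by
    have h1 : 1 ≤ Fintype.card ι := Fintype.card_pos_iff.2 ⟨m0⟩
    rw [Fintype.card_prod, Fintype.card_bool, Fintype.card_subtype_compl,
      Fintype.card_subtype_eq]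
    omega
  have hfe : ∀ k a, L m0 k ≠ e a ∧ ce (L m0 k) (e a) = 0 ∧
      cg (L m0 k) (e a) ∣ (X - C (τ (false, k))) * (X - C (τ (true, k))) :=
    fun k a => not_not.1 (hf a.1.1 a.1.2 k a.2)
  have hH : ∀ k, ∏ a, cg (L m0 k) (e a) ∣ w4 τ ^ p.j := by
    intro k
    refine (prod_dvd_prod_of_dvd _ (fun _ => w4 τ)
      fun a _ => (hfe k a).2.2.trans (claim_pair_dvd τ k)).trans ?_
    rw [prod_const, card_univ]
    exact pow_dvd_pow _ (by unfold Par.j; omega)
  have hsum' : ∀ G : GG F p, (∀ a, G.1 (e a) = 0) → ∑ k, A k (G.1 (L m0 k)) = 0 := by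
    intro G h0
    rw [← hsum G, eq_comm]
    refine sum_eq_single m0 (fun m _ hm => sum_eq_zero fun k _ => ?_) (by simp)
    rw [show G.1 (L m k) = 0 from h0 (⟨m, hm⟩, k), map_zero]
  have s1 : ∀ k, Perp (A k) (cg (L m0 false) (L m0 true) * w4 τ ^ p.j)
      (p.J - ce (L m0 false) (L m0 true)) := by
    intro k
    let e' : Option ({m // m ≠ m0} × Bool) → Cv F p := fun o => o.elim (L m0 (!k)) e
    have hc' : Fintype.card (Option ({m // m ≠ m0} × Bool)) + 1 ≤ 2 * p.ns := by
      rw [Fintype.card_option]; omega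
    have := perp_prod (L m0 k) e' (fun o => by
      cases o
      · exact claim_ne hok.1 k
      · exact (hfe k _).1) (A k) (D := p.J)
      ((Nat.mul_le_mul_right _ hc').trans (by omega)) fun l f hl => by
        have h1 := hsum' ⟨_, test_mem (by unfold Par.j; omega) e' l hl⟩
          fun a => claim_test_zero e' l f (some a)
        have h2 : A (!k) (f * ∏ a, ((L m0 (!k) (l a) : F[X]) - e' a (l a))) = 0 := by
          rw [show f * ∏ a, ((L m0 (!k) (l a) : F[X]) - e' a (l a)) = 0 from
            claim_test_zero e' l f none, map_zero]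
        exact claim_bool (fun k' => A k' (f * ∏ a, ((L m0 k' (l a) : F[X]) - e' a (l a)))) k h1 h2
    rw [Fintype.prod_option, Fintype.sum_option] at this
    refine this.mono ?_ ?_
    · exact mul_dvd_mul (dvd_of_eq (claim_cg (L m0) k)) (hH k)
    · rw [sum_eq_zero (f := fun a => ce (L m0 k) (e' (some a))) fun a _ => (hfe k a).2.1, add_zero]
      exact (congrArg (p.J - ·) (claim_ce (L m0) k)).ge
  let η : F[X] →ₗ[F] F := (A false + A true) ∘ₗ LinearMap.mulLeft F (w4 τ ^ p.j)
  have hη : ∀ f, η f = A false (w4 τ ^ p.j * f) + A true (w4 τ ^ p.j * f) := fun f => rfl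
  have s0 : ∀ k f, (cg (L m0 false) (L m0 true) * f).natDegree ≤
      p.J - 4 * p.j - ce (L m0 false) (L m0 true) →
      A k (w4 τ ^ p.j * (cg (L m0 false) (L m0 true) * f)) = 0 := by
    intro k f hd
    have e1 : w4 τ ^ p.j * (cg (L m0 false) (L m0 true) * f) =
        cg (L m0 false) (L m0 true) * w4 τ ^ p.j * f := by ring
    have := s1 k f (by
      rw [← e1]
      refine natDegree_mul_le.trans ?_
      rw [claim_natDegree]
      omega)
    rwa [e1]
  have s2 : ∀ G' ∈ GGs F p (p.J - 4 * p.j),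
      ∑ k, A k (w4 τ ^ p.j * G' (L m0 k)) = η (G' (L m0 false)) := by
    intro G' hG'
    obtain ⟨⟨g, hg⟩, hd⟩ := GGs_sub hG' (L m0 false) (L m0 true)
    have h1 := s0 true g (hg ▸ hd)
    rw [← hg, mul_sub, map_sub, sub_eq_zero] at h1
    rw [hη, Fintype.sum_bool, h1, add_comm]
  have s3 : Perp η (∏ a, cg (L m0 false) (e a)) (p.J - 4 * p.j) := by
    have := perp_prod (L m0 false) e (fun a => (hfe false a).1) η (D := p.J - 4 * p.j)
      ((Nat.mul_le_mul_right p.k (show _ ≤ 2 * p.ns by omega)).trans (by omega)) fun l f hl => by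
        have h1 := test_mem (by unfold Par.j; omega) e l hl
        have h2 := mul_mem_GGs h1 (claim_natDegree τ p.j).le
        rw [Nat.sub_add_cancel (by omega)] at h2
        rw [← s2 _ h1]
        exact hsum' ⟨_, h2⟩ fun a => by
          show w4 τ ^ p.j * _ = 0
          rw [claim_test_zero e l f a, mul_zero]
    rwa [sum_eq_zero fun a _ => (hfe false a).2.1, Nat.sub_zero] at this
  have s4 : Perp η (cg (L m0 false) (L m0 true))
      (p.J - 4 * p.j - ce (L m0 false) (L m0 true)) := fun f hd => by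
    rw [hη, s0 false f hd, s0 true f hd, add_zero]
  obtain ⟨G', hG', hGe⟩ := hG
  have hdH := natDegree_le_of_dvd (hH false) ((monic_w4 τ).pow _).ne_zero
  rw [claim_natDegree] at hdH
  simp only [hGe]
  rw [s2 G' hG']
  exact perp_coprime (monic_prod_of_monic _ _ fun a _ => cg_monic (hfe false a).1)
    (cg_monic hok.1) ((claim_coprime hav p.j).of_isCoprime_of_dvd_left (hH false)) s3 s4
    (Nat.sub_le _ _) (by omega) _ (GGs_natDegree hG' _)

/-- type II: a local functional that is represented twice without unforced contacts is a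
combination of the four evaluations. -/
theorem claimII (hp : p.Ok) (L L' : Bool → Cv F p) (A : Bool → F[X] →ₗ[F] F)
    {τ : Bool × Bool → F} (hτ : Function.Injective τ) (hok : okc (L false) (L true))
    (hav : Avoid L τ) (hav' : Avoid L' τ)
    (heq : ∀ G : GG F p, ∑ k, A k (G.1 (L k)) = ∑ k, A k (G.1 (L' k)))
    (hf : ∀ k k', ¬ Unf (τ (false, k)) (τ (true, k)) (L k) (L' k'))
    (hloc : ∀ G : GG F p, G ∈ Kg p τ → ∑ k, A k (G.1 (L k)) = 0) :
    ∃ c : Bool × Bool → F, ∀ G : GG F p,
      ∑ k, A k (G.1 (L k)) = ∑ z, c z * (G.1 (L z.2)).eval (τ z) := by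
  obtain ⟨n1, n2, n3, n4⟩ := claim_num hp
  have hr := hok.2
  have hfe : ∀ k k', L k ≠ L' k' ∧ ce (L k) (L' k') = 0 ∧
      cg (L k) (L' k') ∣ (X - C (τ (false, k))) * (X - C (τ (true, k))) :=
    fun k k' => not_not.1 (hf k k')
  have hQ : ∀ k, ∏ k', cg (L k) (L' k') ∣ (X - C (τ (false, k))) * (X - C (τ (true, k))) := by
    intro k
    rw [Fintype.prod_bool]
    refine IsCoprime.mul_dvd ?_ (hfe k true).2.2 (hfe k false).2.2
    refine isCoprime_of_irreducible_dvd (fun h => (cg_monic (hfe k true).1).ne_zero h.1)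
      fun z hz h1 h2 => ?_
    have key : ∀ y, z ∣ X - C (τ y) → False := fun y hy => by
      have h3 := (hz.associated_of_dvd (irreducible_X_sub_C _) hy).symm.dvd
      have h4 := (eval_cg_eq_zero_iff _ _ _).1 (dvd_iff_isRoot.1 (h3.trans h1))
      have h5 := (eval_cg_eq_zero_iff _ _ _).1 (dvd_iff_isRoot.1 (h3.trans h2))
      exact hav' y ((eval_cg_eq_zero_iff _ _ _).2 (h5.symm.trans h4))
    exact (hz.prime.dvd_or_dvd (h1.trans (hfe k true).2.2)).elim (key _) (key _)
  have s1 : ∀ k, Perp (A k) (cg (L false) (L true) *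
      ((X - C (τ (false, k))) * (X - C (τ (true, k))))) (p.J - ce (L false) (L true)) := by
    intro k
    let e' : Option Bool → Cv F p := fun o => o.elim (L (!k)) L'
    have hc' : Fintype.card (Option Bool) = 3 := rfl
    have := perp_prod (L k) e' (fun o => by
      cases o
      · exact claim_ne hok.1 k
      · exact (hfe k _).1) (A k) (D := p.J) (by rw [hc']; omega) fun l f hl => by
        have h1 := heq ⟨_, test_mem (by rw [hc']; omega) e' l hl⟩
        have h0 : ∀ k', f * ∏ a, ((L' k' (l a) : F[X]) - e' a (l a)) = 0 :=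
          fun k' => claim_test_zero e' l f (some k')
        have h2 : A (!k) (f * ∏ a, ((L (!k) (l a) : F[X]) - e' a (l a))) = 0 := by
          rw [show f * ∏ a, ((L (!k) (l a) : F[X]) - e' a (l a)) = 0 from
            claim_test_zero e' l f none, map_zero]
        simp only [h0, map_zero, sum_const_zero] at h1
        exact claim_bool (fun k' => A k' (f * ∏ a, ((L k' (l a) : F[X]) - e' a (l a)))) k h1 h2
    rw [Fintype.prod_option, Fintype.sum_option] at this
    refine this.mono ?_ ?_
    · exact mul_dvd_mul (dvd_of_eq (claim_cg L k)) (hQ k)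
    · rw [sum_eq_zero (f := fun a => ce (L k) (e' (some a))) fun a _ => (hfe k a).2.1, add_zero]
      exact (congrArg (p.J - ·) (claim_ce L k)).ge
  have s2 := fun k => perp_split (fun h => by simpa using hτ h) (hav (false, k)) (hav (true, k))
    (by omega) (s1 k)
  choose a b hab using s2
  set A' : Bool → F[X] →ₗ[F] F :=
    fun k => A k - a k • leval (τ (false, k)) - b k • leval (τ (true, k)) with hA'
  have hA : ∀ k f, A k f = A' k f + (a k * f.eval (τ (false, k)) + b k * f.eval (τ (true, k))) := by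
    intro k f
    simp only [hA', LinearMap.sub_apply, LinearMap.smul_apply, leval_apply, smul_eq_mul]
    ring
  have hU : InU (L false) (L true) (A' true) := (inU_iff hp hok.1 _).2 (hab true)
  have s3 : Perp (A' false + A' true) (w4 τ ^ p.j) p.J := by
    intro f hd
    by_cases h0 : f = 0
    · rw [h0, mul_zero, map_zero]
    · have hd' := hd
      rw [((monic_w4 τ).pow _).natDegree_mul' h0, claim_natDegree] at hd'
      have h1 := hloc ⟨_, const_mem hd⟩ ⟨fun _ => f, const_mem (by omega), rfl⟩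
      have h2 : ∀ z, (w4 τ ^ p.j * f).eval (τ z) = 0 := fun z => by
        rw [eval_mul, eval_pow, claim_eval, zero_pow (by omega), zero_mul]
      simp only [hA, h2, mul_zero, add_zero, Fintype.sum_bool] at h1
      rw [LinearMap.add_apply, add_comm, h1]
  have s4 : Perp (A' false + A' true) (cg (L false) (L true)) (p.J - ce (L false) (L true)) :=
    fun f hd => by rw [LinearMap.add_apply, hab false f hd, hab true f hd, add_zero]
  refine ⟨fun z => if z.1 then b z.2 else a z.2, fun G => ?_⟩
  have s5 := perp_coprime ((monic_w4 τ).pow _) (cg_monic hok.1) (claim_coprime hav p.j) s3 s4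
    (Nat.sub_le _ _) (by rw [claim_natDegree]; omega) _ (GGs_natDegree G.2 (L false))
  rw [LinearMap.add_apply, hU G] at s5
  simp only [Fintype.sum_prod_type, Fintype.sum_bool, if_true, Bool.false_eq_true, if_false]
  rw [hA true, hA false]
  linear_combination s5

end

end Vale.Agent.P060
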