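import Vale.Agent.P060.GGL

/-! P060: contacts and orthogonality. -/

namespace Vale.Agent.P060

open Finset Polynomial Vale.Agent.P056.Sharp

noncomputable section

open scoped Classical

variable {F : Type} [Field F] {p : Par}

lemma Perp.mono {A : F[X] →ₗ[F] F} {h h' : F[X]} {D D' : ℕ} (H : Perp A h D) (hd : h ∣ h')
    (hD : D' ≤ D) : Perp A h' D' := by
  obtain ⟨c, rfl⟩ := hd
  intro f hf
  rw [mul_assoc] at hf ⊢
  exact H _ (hf.trans hD)

lemma Cont_max {c e : Cv F p} (hne : c ≠ e) : ∃ l, (c l : F[X]) - e l ≠ 0 ∧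
    ((c l : F[X]) - e l).natDegree = p.k - ce c e := by
  obtain ⟨l, hl⟩ := GGL_exists_ne hne
  obtain ⟨l', -, hl'⟩ := exists_mem_eq_sup univ ⟨l, mem_univ l⟩
    (fun l => ((c l : F[X]) - e l).natDegree)
  have h1 := GGL_sup_le c e
  have h2 : ((c l' : F[X]) - e l').natDegree = p.k - ce c e := by
    unfold ce; omega
  by_cases h0 : (c l' : F[X]) - e l' = 0
  · refine ⟨l, hl, ?_⟩
    have h3 := natDegree_sub_le_ce c e l
    rw [h0, natDegree_zero] at h2
    omega
  · exact ⟨l', h0, h2⟩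

/-- (G1) -/
lemma Cont_G1 {c e : Cv F p} (hne : c ≠ e) (A : F[X] →ₗ[F] F) {m : ℕ} (hm : p.k ≤ m)
    (h : ∀ (l : Fin p.N) (g : F[X]), g.natDegree ≤ m → A (g * ((c l : F[X]) - e l)) = 0) :
    Perp A (cg c e) (m + p.k - ce c e) := by
  obtain ⟨l0, h0, hd⟩ := Cont_max hne
  obtain ⟨a, ha⟩ := Finset.gcd_eq_sum_mul univ (fun l => (c l : F[X]) - e l)
  have hce := ce_le c e
  intro f hf
  set δ : Fin p.N → F[X] := fun l => (c l : F[X]) - e l with hδ
  have hδ0 : δ l0 ≠ 0 := h0
  have hδd : (δ l0).natDegree = p.k - ce c e := hd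
  have hδl : ∀ l, (δ l).natDegree ≤ p.k - ce c e := natDegree_sub_le_ce c e
  have hr : ∀ l, ((a l * f) % δ l0).natDegree ≤ p.k - ce c e := fun l =>
    hδd ▸ natDegree_le_natDegree (degree_mod_lt _ hδ0).le
  have e1 : cg c e * f = (∑ l, δ l * ((a l * f) / δ l0)) * δ l0 + ∑ l, ((a l * f) % δ l0) * δ l := by
    rw [cg, ha, sum_mul, sum_mul, ← sum_add_distrib]
    refine sum_congr rfl fun l _ => ?_
    have := EuclideanDomain.div_add_mod (a l * f) (δ l0)
    linear_combination (-δ l) * this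
  have hs : (∑ l, ((a l * f) % δ l0) * δ l).natDegree ≤ m + p.k - ce c e := by
    refine natDegree_sum_le_of_forall_le _ _ fun l _ => natDegree_mul_le.trans ?_
    have := hr l
    have := hδl l
    omega
  have hQ : (∑ l, δ l * ((a l * f) / δ l0)).natDegree ≤ m := by
    by_cases hQ0 : (∑ l, δ l * ((a l * f) / δ l0)) = 0
    · rw [hQ0]; simp
    · have h1 := natDegree_mul hQ0 hδ0
      rw [← sub_eq_iff_eq_add.2 e1] at h1
      have h2 := (natDegree_sub_le _ _).trans (max_le hf hs)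
      omega
  rw [e1, map_add, h l0 _ hQ, zero_add, map_sum]
  exact sum_eq_zero fun l _ => h l _ ((hr l).trans (by omega))

lemma Cont_prod {ι : Type} (c : Cv F p) (e : ι → Cv F p) (hne : ∀ a, c ≠ e a) (s : Finset ι)
    (A : F[X] →ₗ[F] F) {D : ℕ} (hD : (s.card + 1) * p.k ≤ D)
    (h : ∀ (l : ι → Fin p.N) (f : F[X]), f.natDegree + s.card * p.k ≤ D →
      A (f * ∏ a ∈ s, ((c (l a) : F[X]) - e a (l a))) = 0) :
    Perp A (∏ a ∈ s, cg c (e a)) (D - ∑ a ∈ s, ce c (e a)) := by
  induction s using Finset.induction_on generalizing A D with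
  | empty =>
    choose l0 _ using fun a => GGL_exists_ne (hne a)
    intro f hf
    simpa using h l0 f (by simpa using hf)
  | insert a s ha ih =>
    rw [card_insert_of_notMem ha] at hD h
    simp only [add_mul, one_mul] at hD h
    have hk := natDegree_cg_le (hne a)
    have key := ih (A ∘ₗ LinearMap.mulLeft F (cg c (e a)))
      (D := D - ce c (e a) - (cg c (e a)).natDegree) (by simp only [add_mul, one_mul]; omega) ?_
    · intro f hf
      rw [prod_insert ha, mul_assoc] at hf ⊢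
      rw [sum_insert ha] at hf
      by_cases h0 : (∏ a ∈ s, cg c (e a)) * f = 0
      · rw [h0]; simp
      · rw [(cg_monic (hne a)).natDegree_mul' h0] at hf
        exact key f (by omega)
    · intro l f hf
      have h1 := Cont_G1 (hne a)
        (A ∘ₗ LinearMap.mulRight F (∏ a ∈ s, ((c (l a) : F[X]) - e a (l a))))
        (m := D - (s.card * p.k + p.k)) (by omega) ?_ f
        (natDegree_mul_le.trans (by omega))
      · simpa [mul_assoc] using h1
      · intro l' g hg
        have h2 := h (Function.update l a l') g (by omega)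
        rw [prod_insert ha, Function.update_self,
          prod_congr rfl fun b hb => by
            rw [Function.update_of_ne (ne_of_mem_of_not_mem hb ha)]] at h2
        simpa [mul_assoc] using h2

/-- (G1), (G2) -/
theorem perp_prod {ι : Type} [Fintype ι] (c : Cv F p) (e : ι → Cv F p) (hne : ∀ a, c ≠ e a)
    (A : F[X] →ₗ[F] F) {D : ℕ} (hD : (Fintype.card ι + 1) * p.k ≤ D)
    (h : ∀ (l : ι → Fin p.N) (f : F[X]), f.natDegree + Fintype.card ι * p.k ≤ D →
      A (f * ∏ a, ((c (l a) : F[X]) - e a (l a))) = 0) :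
    Perp A (∏ a, cg c (e a)) (D - ∑ a, ce c (e a)) :=
  Cont_prod c e hne univ A hD h

lemma Cont_J (hp : p.Ok) : p.J = p.J1 + p.k ∧ 10 * p.k ≤ p.J1 ∧ Even p.J1 ∧ 10 ≤ p.j := by
  have h1 := hp.hns
  refine ⟨by unfold Par.J Par.J1; ring, ?_, ⟨p.ns * p.k, by unfold Par.J1; ring⟩,
    by unfold Par.j; omega⟩
  exact Nat.mul_le_mul_right _ (by omega)

theorem inU_iff (hp : p.Ok) {L L' : Cv F p} (h : L ≠ L') (A : F[X] →ₗ[F] F) :
    InU L L' A ↔ Perp A (cg L L') (p.J - ce L L') := by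
  obtain ⟨j1, j2, -, j4⟩ := Cont_J hp
  constructor
  · intro H
    have := Cont_G1 h A (m := p.J1) (by omega) fun l g hg => by
      have h1 := H ⟨_, test_mem (ι := Unit) (by simp; omega) (fun _ => L') (fun _ => l) (f := g)
        (by simp; omega)⟩
      simpa using h1
    rwa [← j1] at this
  · intro H G
    obtain ⟨⟨u, hu⟩, h2⟩ := GGs_sub G.2 L L'
    rw [← sub_eq_zero, ← map_sub, hu]
    exact H u (hu ▸ h2)

/-- (G4) -/
theorem perp_coprime {A : F[X] →ₗ[F] F} {H h : F[X]} {D D' : ℕ} (hH : H.Monic) (hh : h.Monic)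
    (hc : IsCoprime H h) (h1 : Perp A H D) (h2 : Perp A h D') (hD : D' ≤ D)
    (hdeg : H.natDegree + h.natDegree ≤ D') (f : F[X]) (hf : f.natDegree ≤ D) : A f = 0 := by
  obtain ⟨α, β, hαβ⟩ := hc
  have h3 := modByMonic_add_div (f * β) H
  have h4 := natDegree_modByMonic_le (f * β) hH
  have h5 : (h * ((f * β) %ₘ H)).natDegree ≤ D' := natDegree_mul_le.trans (by omega)
  have e : H * (f * α + h * ((f * β) /ₘ H)) = f - h * ((f * β) %ₘ H) := by
    linear_combination f * hαβ + h * h3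
  have h6 := h1 (f * α + h * ((f * β) /ₘ H))
    (by rw [e]; exact (natDegree_sub_le _ _).trans (max_le hf (h5.trans hD)))
  rwa [e, map_sub, h2 _ h5, sub_zero] at h6

/-- removing two evaluations. -/
theorem perp_split {A : F[X] →ₗ[F] F} {h : F[X]} {D : ℕ} {t t' : F} (htt : t ≠ t')
    (ht : h.eval t ≠ 0) (ht' : h.eval t' ≠ 0) (hD : h.natDegree + 2 ≤ D)
    (H : Perp A (h * ((X - C t) * (X - C t'))) D) :
    ∃ c c' : F, Perp (A - c • leval t - c' • leval t') h D := by
  have h1 : t - t' ≠ 0 := sub_ne_zero.2 htt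
  have h2 : t' - t ≠ 0 := sub_ne_zero.2 htt.symm
  refine ⟨A (h * (X - C t')) / (h.eval t * (t - t')), A (h * (X - C t)) / (h.eval t' * (t' - t)),
    fun f hf => ?_⟩
  obtain ⟨α, hα⟩ : ∃ α, α = f.eval t / (t - t') := ⟨_, rfl⟩
  obtain ⟨β, hβ⟩ : ∃ β, β = f.eval t' / (t' - t) := ⟨_, rfl⟩
  obtain ⟨q, hq⟩ : (X - C t) * (X - C t') ∣ f - α • (X - C t') - β • (X - C t) := by
    refine (isCoprime_X_sub_C_of_isUnit_sub h1.isUnit).mul_dvd ?_ ?_
    · rw [dvd_iff_isRoot, IsRoot.def, hα]; simp; field_simp; ring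
    · rw [dvd_iff_isRoot, IsRoot.def, hβ]; simp; field_simp; ring
  have e : h * ((X - C t) * (X - C t')) * q =
      h * f - α • (h * (X - C t')) - β • (h * (X - C t)) := by
    rw [mul_assoc, ← hq, mul_sub, mul_sub, mul_smul_comm, mul_smul_comm]
  have hd : ∀ (a u : F), (a • (h * (X - C u))).natDegree ≤ D := fun a u => by
    refine (natDegree_smul_le _ _).trans (natDegree_mul_le.trans ?_)
    rw [natDegree_X_sub_C]; omega
  have h3 := H q (by
    rw [e]
    exact (natDegree_sub_le _ _).trans (max_le ((natDegree_sub_le _ _).trans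
      (max_le hf (hd _ _))) (hd _ _)))
  rw [e, map_sub, map_sub, map_smul, map_smul, smul_eq_mul, smul_eq_mul, hα, hβ] at h3
  simp only [LinearMap.sub_apply, LinearMap.smul_apply, leval_apply, smul_eq_mul, eval_mul,
    MulOpposite.smul_eq_mul_unop, MulOpposite.unop_op]
  rw [← h3]
  field_simp

/-- evaluations away from the contact are independent from `U`. -/
theorem evals_indep (hp : p.Ok) {L L' : Cv F p} (hok : okc L L') {A : F[X] →ₗ[F] F}
    (hA : InU L L' A) {t t' c c' : F} (htt : t ≠ t') (ht : (cg L L').eval t ≠ 0)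
    (ht' : (cg L L').eval t' ≠ 0)
    (h : ∀ f : F[X], f.natDegree ≤ p.J - ce L L' → A f = c * f.eval t + c' * f.eval t') :
    c = 0 ∧ c' = 0 := by
  obtain ⟨j1, j2, -, -⟩ := Cont_J hp
  have h1 := hp.hk
  have h2 := hok.2
  have H := (inU_iff hp hok.1 A).1 hA
  have hd : ∀ u : F, (cg L L' * (X - C u)).natDegree ≤ p.J - ce L L' := fun u => by
    refine natDegree_mul_le.trans ?_
    rw [natDegree_X_sub_C]; omega
  have e1 := h _ (hd t')
  have e2 := h _ (hd t)
  rw [H _ (hd _)] at e1 e2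
  simp [ht, ht', sub_eq_zero, htt, htt.symm] at e1 e2
  exact ⟨e1, e2⟩

lemma Cont_mod {h : F[X]} {A : F[X] →ₗ[F] F} {D : ℕ} (H : Perp A h D) {g : F[X]}
    (hg : g.natDegree ≤ D) : A g = A (g %ₘ h) := by
  have e : h * (g /ₘ h) = g - g %ₘ h := by linear_combination modByMonic_add_div g h
  have h1 := H (g /ₘ h) (by
    rw [e]
    exact (natDegree_sub_le _ _).trans (max_le hg (natDegree_modByMonic_le_left.trans hg)))
  rwa [e, map_sub, sub_eq_zero] at h1

/-- (T2) for functionals that only kill multiples of bounded degree. -/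
theorem Typ.perp {ψ : Mx F p} (hψ : Typ ψ) {h : F[X]} (hh : h.Monic) (hd : h.natDegree ≤ p.r + 2)
    {A : F[X] →ₗ[F] F} {D : ℕ} (hD : p.J1 ≤ D) (H : Perp A h D) (h0 : ∀ a, A (ψ a) = 0)
    (f : F[X]) (hf : f.natDegree ≤ D) : A f = 0 := by
  have h1 := hψ.t2 h hh hd (A ∘ₗ modByMonicHom h)
    (fun g => by simp [self_mul_modByMonic hh]) (fun a => by
      rw [← h0 a, Cont_mod H ((Pol.le (ψ a)).trans hD)]; rfl)
  rw [Cont_mod H hf]
  exact LinearMap.congr_fun h1 f

lemma posP_spec (hp : p.Ok) (n : Fin (2 * p.k)) :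
    Odd (posP p n) ∧ p.J < 2 * posP p n ∧ posP p n ≤ p.J1 := by
  obtain ⟨j1, j2, ⟨m, hm⟩, -⟩ := Cont_J hp
  have := n.2
  unfold posP
  exact ⟨⟨m - 1 - n, by omega⟩, by omega, by omega⟩

/-- the extended mixer polynomials are independent. -/
theorem Typ.indep (hp : p.Ok) {ψ : Mx F p} (hψ : Typ ψ) {c : Oi p → F}
    (h : ∑ o, C (c o) * ph ψ o = 0) : c = 0 := by
  rw [Fintype.sum_option] at h
  simp only [ph, hat_none, hat_some, mul_one] at h
  have h1 := hψ.t1 (fun a => c (some a)) fun n => by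
    have h2 := congrArg (fun f => coeff f (posP p n)) h
    simp only [coeff_add, coeff_zero] at h2
    rwa [coeff_C_of_ne_zero (posP_spec hp n).1.pos.ne', zero_add] at h2
  have h2 : ∀ a, c (some a) = 0 := congrFun h1
  funext o
  cases o with
  | none => simpa [h2] using h
  | some a => exact h2 a

/-- mixer values at two positions are independent. -/
theorem Typ.two {ψ : Mx F p} (hψ : Typ ψ) {t t' c c' : F} (htt : t ≠ t')
    (h : ∀ a, c * mv ψ t a + c' * mv ψ t' a = 0) : c = 0 ∧ c' = 0 := by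
  have h1 := hψ.t2 ((X - C t) * (X - C t')) ((monic_X_sub_C t).mul (monic_X_sub_C t'))
    (natDegree_mul_le.trans (by simp)) (c • leval t + c' • leval t')
    (fun f => by simp [leval_apply]) (fun a => by simpa [leval_apply, mv] using h a)
  have e1 := LinearMap.congr_fun h1 (X - C t')
  have e2 := LinearMap.congr_fun h1 (X - C t)
  simp [leval_apply, sub_eq_zero, htt, htt.symm] at e1 e2
  exact ⟨e1, e2⟩

lemma posP_injective (hp : p.Ok) : Function.Injective (posP p) := by
  intro n n' h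
  obtain ⟨j1, j2, -, -⟩ := Cont_J hp
  have := n.2
  have := n'.2
  unfold posP at h
  exact Fin.ext (by omega)

lemma posT_spec (hp : p.Ok) (n : Fin (2 * p.k)) :
    Odd (posT p n) ∧ p.J + 2 * p.J1 < 2 * posT p n ∧ 2 * p.J1 < posT p n ∧ p.J < posT p n ∧
      posT p n ≤ 2 * p.J1 + p.J := by
  obtain ⟨j1, j2, -, -⟩ := Cont_J hp
  have := n.2
  unfold posT
  exact ⟨⟨p.J1 + n, by omega⟩, by omega, by omega, by omega, by omega⟩

variable [Fintype F] [Algebra (ZMod 2) F]

lemma Cont_eI_sq (I : Finset F) (f : F[X]) : eI I (f * f) = eI I f ^ 2 := by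
  have := charP_two (F := F)
  simp only [eI_apply, CharTwo.sum_sq, eval_mul, sq]
  rw [CharTwo.sum_mul_self]

/-- (F3) -/
theorem coef_bit (hp : p.Ok) {L L' : Cv F p} (hok : okc L L') {A : F[X] →ₗ[F] F} (hA : InU L L' A)
    {t t' c c' : F} (htt : t ≠ t') (ht : (cg L L').eval t ≠ 0) (I : Finset F)
    (h : ∀ f : F[X], f.natDegree ≤ p.J → eI I f = c * f.eval t + c' * f.eval t' + A f) :
    c = 0 ∨ c = 1 := by
  obtain ⟨j1, j2, -, -⟩ := Cont_J hp
  have h1 := hp.hk
  have h2 := hok.2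
  have H := (inU_iff hp hok.1 A).1 hA
  set f := cg L L' * (X - C t') with hf
  have hd : f.natDegree ≤ (cg L L').natDegree + 1 := by
    refine natDegree_mul_le.trans ?_
    rw [natDegree_X_sub_C]
  have hd2 : (f * f).natDegree ≤ p.J - ce L L' := natDegree_mul_le.trans (by omega)
  have a1 : A f = 0 := H _ (hd.trans (by omega))
  have a2 : A (f * f) = 0 := by
    rw [hf, mul_assoc] at hd2 ⊢
    exact H _ hd2
  have e0 : f.eval t' = 0 := by simp [hf]
  have e1 : f.eval t ≠ 0 := by simp [hf, ht, sub_eq_zero, htt]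
  have b1 := h f (by omega)
  have b2 := h (f * f) (by omega)
  rw [Cont_eI_sq, b1, a1, a2, eval_mul (p := f), eval_mul (p := f), e0] at b2
  have : c * (c - 1) * (f.eval t) ^ 2 = 0 := by linear_combination b2
  simpa [e1, sub_eq_zero] using this

lemma eI_symmDiff (I I' : Finset F) : eI (symmDiff I I') = eI I + eI I' := by
  have := charP_two (F := F)
  refine LinearMap.ext fun f => ?_
  have e : ∀ J : Finset F, eI J f = ∑ u, if u ∈ J then f.eval u else 0 := fun J => by
    rw [eI_apply, sum_ite_mem, univ_inter]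
  rw [LinearMap.add_apply, e, e, e, ← sum_add_distrib]
  refine sum_congr rfl fun u _ => ?_
  by_cases h1 : u ∈ I <;> by_cases h2 : u ∈ I' <;>
    simp [mem_symmDiff, h1, h2, CharTwo.add_self_eq_zero]

lemma zero_mem_Mt (ω : Om F p) : (0 : Ix F p) ∈ Mt ω := by
  refine mem_filter.2 ⟨mem_univ _, ∅, fun G => by simp [eI], ?_⟩
  funext i o
  simp [uA, eI]

lemma add_mem_Mt {ω : Om F p} {u u' : Ix F p} (h : u ∈ Mt ω) (h' : u' ∈ Mt ω) : u + u' ∈ Mt ω := by
  obtain ⟨I, h1, rfl⟩ := (mem_filter.1 h).2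
  obtain ⟨I', h1', rfl⟩ := (mem_filter.1 h').2
  refine mem_filter.2 ⟨mem_univ _, symmDiff I I', fun G => ?_, ?_⟩
  · rw [eI_symmDiff, LinearMap.add_apply, LinearMap.add_apply, h1 G, h1' G]
  · funext i o
    simp [uA, eI_symmDiff]

lemma Mt_none {ω : Om F p} {u : Ix F p} (h : u ∈ Mt ω) :
    u true none = u false none ∧ (u false none = 0 ∨ u false none = 1) := by
  have := charP_two (F := F)
  obtain ⟨I, -, rfl⟩ := (mem_filter.1 h).2
  refine ⟨rfl, ?_⟩
  simpa [uA, ph, eI_apply] using CharTwo.natCast_cases (R := F) I.card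

/-- fixed points of a semilinear map. -/
def Cont_V {d : ℕ} (m : Fin d → Fin d → F) : Submodule (ZMod 2) (Fin d → F) where
  carrier := {b | ∀ i, b i ^ 2 = ∑ j, m i j * b j}
  add_mem' := by
    intro a b ha hb i
    have := charP_two (F := F)
    simp only [Pi.add_apply, CharTwo.add_sq, mul_add, sum_add_distrib, ha i, hb i]
  zero_mem' := by intro i; simp
  smul_mem' := by
    intro c b hb
    rcases zmod2_cases c with rfl | rfl
    · intro i; simp
    · rwa [one_smul]

lemma Cont_indep {d : ℕ} {m : Fin d → Fin d → F} {ι : Type} {v : ι → Fin d → F}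
    (hv : ∀ i, v i ∈ Cont_V m) (hi : LinearIndependent (ZMod 2) v) : LinearIndependent F v := by
  have := charP_two (F := F)
  rw [linearIndependent_iff'] at hi ⊢
  intro s
  induction s using Finset.strongInduction with
  | H s ih =>
    intro g hg i0 hi0
    by_contra h0
    choose e he using fun i => isSquare_of_charTwo' (g i / g i0)
    have h1 : ∑ i ∈ s, (g i / g i0) • v i = 0 := by
      simp only [div_eq_inv_mul, mul_smul]
      rw [← smul_sum, hg, smul_zero]
    have h2 : ∑ i ∈ s, e i • v i = 0 := by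
      funext k
      refine pow_eq_zero_iff (two_ne_zero) |>.1 ?_
      simp only [Finset.sum_apply, Pi.smul_apply, smul_eq_mul, CharTwo.sum_sq, mul_pow]
      have h3 : ∀ i, e i ^ 2 * v i k ^ 2 = ∑ j, m k j * ((g i / g i0) * v i j) := fun i => by
        rw [hv i k, he i, mul_sum]
        exact sum_congr rfl fun j _ => by ring
      simp only [h3]
      rw [sum_comm]
      refine sum_eq_zero fun j _ => ?_
      have h4 := congrFun h1 j
      simp only [Finset.sum_apply, Pi.smul_apply, smul_eq_mul, Pi.zero_apply] at h4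
      rw [← mul_sum, h4, mul_zero]
    have e0 : e i0 = 1 := by
      have h5 := he i0
      rw [div_self h0] at h5
      have h6 : (e i0 + 1) ^ 2 = 0 := by
        rw [CharTwo.add_sq, sq, ← h5, one_pow, CharTwo.add_self_eq_zero]
      have h7 := pow_eq_zero_iff (two_ne_zero) |>.1 h6
      rwa [CharTwo.add_eq_zero] at h7
    have h3 : ∀ i ∈ s.erase i0, e i * e i - e i = 0 := by
      refine ih _ (erase_ssubset hi0) (fun i => e i * e i - e i) ?_
      rw [sum_erase _ (by simp [e0])]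
      simp only [sub_smul, sum_sub_distrib, ← he, h1, h2, sub_zero]
    have h4 : ∀ i ∈ s, e i = 0 ∨ e i = 1 := fun i hi => by
      by_cases h : i = i0
      · right; rw [h, e0]
      · have := h3 i (mem_erase.2 ⟨h, hi⟩)
        rw [← mul_sub_one, mul_eq_zero, sub_eq_zero] at this
        exact this
    have h5 := hi s (fun i => if e i = 0 then 0 else 1) (by
      rw [← h2]
      refine sum_congr rfl fun i hi => ?_
      rcases h4 i hi with h | h <;> simp [h]) i0 hi0
    simp [e0] at h5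

lemma Cont_card_V {d : ℕ} (m : Fin d → Fin d → F) : Fintype.card (Cont_V m) ≤ 2 ^ d := by
  have : Fact (Nat.Prime 2) := ⟨Nat.prime_two⟩
  have b := Module.finBasis (ZMod 2) (Cont_V m)
  have h1 := b.linearIndependent.map' (Cont_V m).subtype (Submodule.ker_subtype _)
  have h2 := (Cont_indep (m := m) (fun i => (b i).2) h1).fintype_card_le_finrank
  rw [Module.card_eq_pow_finrank (K := ZMod 2), ZMod.card]
  exact Nat.pow_le_pow_right (by norm_num) (by simpa using h2)

omit [Fintype F] [Algebra (ZMod 2) F] in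
lemma Cont_expand {h : F[X]} (hh : h.Monic) {A : F[X] →ₗ[F] F} {D : ℕ} (H : Perp A h D) {g : F[X]}
    (hg : g.natDegree ≤ D) :
    A g = ∑ j : Fin h.natDegree, (g %ₘ h).coeff j * A (X ^ (j : ℕ)) := by
  have h1 : (g %ₘ h).degree < h.natDegree := by
    rw [← degree_eq_natDegree hh.ne_zero]; exact degree_modByMonic_lt g hh
  have h2 := sum_fin (fun i a => monomial i a) (by simp) h1
  rw [sum_monomial_eq] at h2
  rw [Cont_mod H hg]
  conv_lhs => rw [← h2, map_sum]
  exact sum_congr rfl fun j _ => by rw [← smul_X_eq_monomial, map_smul, smul_eq_mul]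

/-- (F4) -/
theorem card_Mt_le (hp : p.Ok) {ω : Om F p} (hok : okc (cv ω false) (cv ω true)) :
    (Mt ω).card ≤ 2 ^ p.r := by
  obtain ⟨j1, j2, -, -⟩ := Cont_J hp
  have h1 := hp.hk
  have h2 := hok.2
  have hh := cg_monic hok.1
  set h := cg (cv ω false) (cv ω true) with hdef
  set m : Fin h.natDegree → Fin h.natDegree → F :=
    fun i j => ((X ^ (i : ℕ) * X ^ (i : ℕ)) %ₘ h).coeff j with hm
  set Φ : Cont_V m → Ix F p := fun b i o => ∑ j : Fin h.natDegree,
    (ph (mx ω i) o %ₘ h).coeff j * b.1 j with hΦ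
  have hsub : Mt ω ⊆ univ.image Φ := by
    intro u hu
    obtain ⟨I, hI, rfl⟩ := (mem_filter.1 hu).2
    have H := (inU_iff hp hok.1 _).1 hI
    refine mem_image.2 ⟨⟨fun j => eI I (X ^ (j : ℕ)), fun i => ?_⟩, mem_univ _, ?_⟩
    · rw [← Cont_eI_sq]
      refine Cont_expand hh H (natDegree_mul_le.trans ?_)
      have := i.2
      rw [natDegree_X_pow]
      omega
    · funext i o
      exact (Cont_expand hh H ((natDegree_ph _ _).trans (by omega))).symm
  calc (Mt ω).card ≤ (univ.image Φ).card := card_le_card hsub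
    _ ≤ Fintype.card (Cont_V m) := card_image_le
    _ ≤ 2 ^ h.natDegree := Cont_card_V m
    _ ≤ 2 ^ p.r := Nat.pow_le_pow_right (by norm_num) (by omega)

theorem Rel.unique (hp : p.Ok) {ω : Om F p} (hω : Reg ω) {u : Ix F p} {i : Bool}
    {M M' : Fin p.S → Oi p → F} (h : Rel ω u i M) (h' : Rel ω u i M') : M = M' := by
  funext a
  rw [← sub_eq_zero]
  refine (hω.typ (!i)).indep hp ?_
  simp only [Pi.sub_apply, C_sub, sub_mul, sum_sub_distrib]
  rw [← h a, ← h' a, sub_self]

lemma Cont_mem_W0 {ω : Om F p} {x : Rt F p} : x ∈ W0 ω ↔ RecP ω x := by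
  simp [W0]

theorem card_W0_le (hp : p.Ok) {ω : Om F p} (hω : Reg ω) : (W0 ω).card ≤ 5 * 2 ^ p.r := by
  have h1 : (W0 ω).card ≤ (Mt ω ×ˢ (univ : Finset (Option (Bool × Bool)))).card := by
    refine card_le_card_of_injOn
      (fun x => (x.1, x.2.map fun y => (y.1, y.2.2.isSome))) (fun x hx => ?_) ?_
    · simpa using (Cont_mem_W0.1 hx).1
    · rintro ⟨u, y⟩ hx ⟨u', y'⟩ hx' hxx
      obtain ⟨rfl, h2⟩ := Prod.mk.inj hxx
      have a1 := (Cont_mem_W0.1 hx).2
      have a2 := (Cont_mem_W0.1 hx').2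
      rcases y with _ | ⟨i, M, c⟩ <;> rcases y' with _ | ⟨i', M', c'⟩
      · rfl
      · simp at h2
      · simp at h2
      · simp only [Option.map_some, Option.some.injEq, Prod.mk.injEq] at h2
        obtain ⟨rfl, h3⟩ := h2
        obtain ⟨b1, b2⟩ := a1 _ rfl
        obtain ⟨b1', b2'⟩ := a2 _ rfl
        obtain rfl : M = M' := b1.unique hp hω b1'
        rcases c with _ | c <;> rcases c' with _ | c'
        · rfl
        · simp at h3
        · simp at h3
        · rw [← b2 c rfl 0, ← b2' c' rfl 0]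
  rw [card_product, card_univ] at h1
  have h2 := card_Mt_le hp hω.ok
  have h3 : Fintype.card (Option (Bool × Bool)) = 5 := by simp
  rw [h3] at h1
  omega

lemma Mt_eq_of_W0 {ω ω' : Om F p} (h : W0 ω = W0 ω') : Mt ω = Mt ω' := by
  have e : ∀ (ω : Om F p) u, u ∈ Mt ω ↔ (u, none) ∈ W0 ω := fun ω u => by
    simp [Cont_mem_W0, RecP]
  ext u
  rw [e, e, h]

lemma Rel_of_W0 {ω ω' : Om F p} (h : W0 ω = W0 ω') {u : Ix F p} (hu : u ∈ Mt ω) {i : Bool}
    {M : Fin p.S → Oi p → F} (hM : Rel ω u i M) : Rel ω' u i M := by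
  have h1 : ((u, some (i, M, none)) : Rt F p) ∈ W0 ω :=
    Cont_mem_W0.2 ⟨hu, by rintro _ ⟨⟩; exact ⟨hM, by rintro _ ⟨⟩⟩⟩
  rw [h] at h1
  exact ((Cont_mem_W0.1 h1).2 _ rfl).1

lemma flag_of_W0 {ω ω' : Om F p} (h : W0 ω = W0 ω') {u : Ix F p} (hu : u ∈ Mt ω) {i : Bool}
    {M : Fin p.S → Oi p → F} (hM : Rel ω u i M) {c : ZMod 2}
    (hc : ∀ s, tr ((PP ω i (fun a => M a none)).eval s) = c) (s : F) :
    tr ((PP ω' i (fun a => M a none)).eval s) = c := by
  have h1 : ((u, some (i, M, some c)) : Rt F p) ∈ W0 ω :=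
    Cont_mem_W0.2 ⟨hu, by rintro _ ⟨⟩; exact ⟨hM, by rintro _ ⟨⟩; exact hc⟩⟩
  rw [h] at h1
  exact ((Cont_mem_W0.1 h1).2 _ rfl).2 c rfl s

end

end Vale.Agent.P060
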