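import Vale.Agent.P060.SS

/-! P060: containers from supersaturation (deterministic part). -/

namespace Vale.Agent.P060

open Finset Vale.Agent.P056.Sharp

noncomputable section

open scoped Classical

variable {V : Type} [Fintype V] [Nonempty V]

theorem contain_reweight {H : V → V → Prop} {K ε D : ℝ} (hSS : SS H 64 K ε) (hε : 0 < ε)
    (hD : 0 ≤ D) (hK : 2 * D ≤ K) {ν : V × V → ℝ} (hν : IsProb ν)
    (h1 : ∀ a b, ν (a, b) = ν (b, a)) (h2 : ∀ a b, H a b → ν (a, b) = 0)
    (h3 : ∀ p, ν p ≤ D / (Fintype.card V : ℝ) ^ 2)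
    (h4 : ∑ a, max (∑ b, ν (a, b) - 51 / Fintype.card V) 0 ≤ 1 / 10) :
    ∃ v, ν v ≠ 0 ∧ 4 / 5 * ε ≤ Pr ν (Conf H v) := by
  have hn : (0 : ℝ) < Fintype.card V := Nat.cast_pos.2 Fintype.card_pos
  obtain ⟨w, w0, w1, w2, w3⟩ : ∃ w : V → ℝ, (∀ a, 0 ≤ w a) ∧ (∀ a, w a ≤ 1) ∧
      (∀ a, (∑ b, ν (a, b)) * w a ≤ 51 / Fintype.card V) ∧
      ∀ a, (∑ b, ν (a, b)) * (1 - w a) ≤ max (∑ b, ν (a, b) - 51 / Fintype.card V) 0 := by
    have hc : (0 : ℝ) < 51 / Fintype.card V := by positivity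
    refine ⟨fun a => if ∑ b, ν (a, b) ≤ 51 / Fintype.card V then 1 else
      51 / Fintype.card V / ∑ b, ν (a, b), fun a => ?_, fun a => ?_, fun a => ?_, fun a => ?_⟩ <;>
      dsimp only <;> split_ifs with h
    · exact zero_le_one
    · exact div_nonneg hc.le (hc.trans (not_le.1 h)).le
    · exact le_rfl
    · exact div_le_one_of_le₀ (not_le.1 h).le (hc.trans (not_le.1 h)).le
    · rwa [mul_one]
    · rw [mul_div_cancel₀ _ (hc.trans (not_le.1 h)).ne']
    · simp
    · rw [mul_sub, mul_one, mul_div_cancel₀ _ (hc.trans (not_le.1 h)).ne']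
      exact le_max_left _ _
  set m := ∑ p : V × V, ν p * (w p.1 * w p.2) with hm
  have a1 : ∑ p : V × V, ν p * (1 - w p.1) ≤ 1 / 10 := by
    rw [Fintype.sum_prod_type]
    exact (sum_le_sum fun a _ => by simpa only [← sum_mul] using w3 a).trans h4
  have a2 : ∑ p : V × V, ν p * (1 - w p.2) ≤ 1 / 10 := by
    rw [Fintype.sum_prod_type_right]
    exact (sum_le_sum fun a _ => by simpa only [← sum_mul, h1 a] using w3 a).trans h4
  have a3 : 4 / 5 ≤ m := by
    have : ∑ p : V × V, ν p ≤ ∑ p : V × V,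
        (ν p * (w p.1 * w p.2) + ν p * (1 - w p.1) + ν p * (1 - w p.2)) :=
      sum_le_sum fun p _ => by
        have := mul_nonneg (hν.1 p) (mul_nonneg (sub_nonneg.2 (w1 p.1)) (sub_nonneg.2 (w1 p.2)))
        linarith
    rw [sum_add_distrib, sum_add_distrib, hν.2] at this
    linarith
  have m0 : 0 < m := by linarith
  have b1 : ∀ p : V × V, ν p * (w p.1 * w p.2) ≤ ν p := fun p =>
    mul_le_of_le_one_right (hν.1 p) (mul_le_one₀ (w1 _) (w0 _) (w1 _))
  have hP : IsProb fun p : V × V => ν p * (w p.1 * w p.2) / m :=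
    ⟨fun p => div_nonneg (mul_nonneg (hν.1 p) (mul_nonneg (w0 _) (w0 _))) m0.le, by
      rw [← sum_div, div_self m0.ne']⟩
  have key := hSS _ hP (fun a b => by simp only [h1 a b, mul_comm (w a)])
    (fun a b h => by simp only [h2 a b h, zero_mul, zero_div]) (fun a => ?_) (fun p => ?_)
  · obtain ⟨v, hv, hv'⟩ := exists_ge_Ex hP fun p =>
      Pr (fun p : V × V => ν p * (w p.1 * w p.2) / m) (Conf H p)
    refine ⟨v, fun h => hv (by simp [h]), ?_⟩
    have c1 : Pr (fun p : V × V => ν p * (w p.1 * w p.2) / m) (Conf H v) ≤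
        Pr ν (Conf H v) / m := by
      unfold Pr Ex
      rw [sum_div]
      refine sum_le_sum fun p _ => ?_
      rw [div_mul_eq_mul_div]
      exact div_le_div_of_nonneg_right (mul_le_mul_of_nonneg_right (b1 p) (ind_nonneg _)) m0.le
    have c2 := (le_div_iff₀ m0).1 ((key.trans hv').trans c1)
    nlinarith
  · rw [← sum_div, div_le_iff₀ m0]
    have c1 : ∑ b, ν (a, b) * (w a * w b) ≤ (∑ b, ν (a, b)) * w a := by
      rw [sum_mul]
      exact sum_le_sum fun b _ => mul_le_mul_of_nonneg_left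
        (mul_le_of_le_one_right (w0 a) (w1 b)) (hν.1 _)
    refine (c1.trans (w2 a)).trans ?_
    rw [div_mul_eq_mul_div]
    exact div_le_div_of_nonneg_right (by linarith) hn.le
  · rw [div_le_iff₀ m0]
    refine ((b1 p).trans (h3 p)).trans ?_
    rw [div_mul_eq_mul_div]
    exact div_le_div_of_nonneg_right (by nlinarith) (by positivity)

/-- The weight of a pair. -/
def containW (C : Finset (V × V)) (y : V → ℝ) (p : V × V) : ℝ :=
  ind (p ∈ C) * Real.exp (-(y p.1) - y p.2)

/-- The potential. -/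
def containG (C : Finset (V × V)) (y : V → ℝ) : ℝ :=
  av (containW C y) * Real.exp (102 * av y)

omit [Fintype V] [Nonempty V] in
theorem containW_nonneg (C : Finset (V × V)) (y : V → ℝ) (p : V × V) : 0 ≤ containW C y p :=
  mul_nonneg (ind_nonneg _) (Real.exp_pos _).le

omit [Nonempty V] in
theorem contain_var (C : Finset (V × V)) (y u : V → ℝ)
    (h : ∀ t ∈ Set.Icc (0 : ℝ) 1, containG C y ≤ containG C (y + t • u)) :
    av (fun p => containW C y p * (u p.1 + u p.2)) ≤ av (containW C y) * (102 * av u) := by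
  have e : ∀ t : ℝ, containG C (y + t • u) =
      (∑ p : V × V, containW C y p * Real.exp (t * -(u p.1 + u p.2))) / Fintype.card (V × V) *
        Real.exp (102 * (av y + t * av u)) := by
    intro t
    rw [containG, ← av_const_mul t u, ← av_add]
    refine congrArg₂ (· * ·) (congrArg (· / _) (sum_congr rfl fun p _ => ?_)) rfl
    simp only [containW, mul_assoc, ← Real.exp_add, Pi.add_apply, Pi.smul_apply, smul_eq_mul]
    congr 2
    ring
  have d1 := ((HasDerivAt.fun_sum (u := univ) fun (p : V × V) _ =>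
    ((hasDerivAt_mul_const (x := (0 : ℝ)) (-(u p.1 + u p.2))).exp.const_mul
      (containW C y p))).div_const (Fintype.card (V × V) : ℝ)).fun_mul
    (((hasDerivAt_mul_const (x := (0 : ℝ)) (av u)).const_add (av y)).const_mul 102).exp
  simp only [← e] at d1
  have d2 := ge_of_tendsto (b := 0) d1.tendsto_slope_zero_right (by
    filter_upwards [Ioc_mem_nhdsGT zero_lt_one] with t ht
    refine smul_nonneg (inv_nonneg.2 ht.1.le) (sub_nonneg.2 ?_)
    rw [zero_add, zero_smul, add_zero]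
    exact h t ⟨ht.1.le, ht.2⟩)
  simp only [zero_mul, Real.exp_zero, one_mul, mul_one, add_zero] at d2
  simp only [mul_neg, sum_neg_distrib, neg_div] at d2
  refine le_of_mul_le_mul_right ?_ (Real.exp_pos (102 * av y))
  unfold av at d2 ⊢
  linarith

theorem contain_step {H : V → V → Prop} {K ε K0 : ℝ} (hSS : SS H 64 K ε) (hε : 0 < ε)
    (hK0 : 2 ≤ K0) (hK : 2 * K0 ^ 11 ≤ K) {C : Finset (V × V)} (h1 : ∀ p ∈ C, p.swap ∈ C)
    (h2 : ∀ p ∈ C, ¬ H p.1 p.2) {y : V → ℝ}
    (hy : y ∈ Set.Icc (0 : V → ℝ) fun _ => 5 * Real.log K0)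
    (hmin : ∀ y' ∈ Set.Icc (0 : V → ℝ) fun _ => 5 * Real.log K0, containG C y ≤ containG C y')
    (hG : 1 / K0 < containG C y) :
    ∃ v ∈ C, containG (C.filter fun q => ¬ Conf H v q) y ≤ (1 - 4 / 5 * ε) * containG C y := by
  have hn : (0 : ℝ) < Fintype.card V := Nat.cast_pos.2 Fintype.card_pos
  have hc : (Fintype.card (V × V) : ℝ) = (Fintype.card V : ℝ) ^ 2 := by
    rw [Fintype.card_prod, Nat.cast_mul, sq]
  have hl : 0 < Real.log K0 := Real.log_pos (by linarith)
  set Z := av (containW C y) with hZ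
  have Z0 : 0 < Z := (mul_pos_iff_of_pos_right (Real.exp_pos _)).1 (lt_trans (by positivity) hG)
  set ν : V × V → ℝ := fun p => containW C y p / ((Fintype.card V : ℝ) ^ 2 * Z) with hν
  have hE : ∀ f : V × V → ℝ, av (fun p => containW C y p * f p) = Z * Ex ν f := by
    intro f
    unfold av Ex
    rw [mul_sum, sum_div, hc]
    refine sum_congr rfl fun p _ => ?_
    simp only [hν]
    field_simp
  have hP : IsProb ν := ⟨fun p => div_nonneg (containW_nonneg C y p) (by positivity), by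
    have := hE fun _ => 1
    simp only [mul_one, Ex] at this
    exact (mul_left_cancel₀ Z0.ne' (this.symm.trans (mul_one Z).symm))⟩
  have hsym : ∀ a b, ν (a, b) = ν (b, a) := by
    intro a b
    simp only [hν, containW]
    rw [ind_congr (⟨h1 _, h1 _⟩ : (a, b) ∈ C ↔ (b, a) ∈ C)]
    congr 3
    ring
  have hE2 : ∀ u : V → ℝ, Ex ν (fun p => u p.1 + u p.2) = 2 * ∑ a, (∑ b, ν (a, b)) * u a := by
    intro u
    rw [Ex_add, two_mul]
    unfold Ex
    congr 1
    · rw [Fintype.sum_prod_type]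
      simp only [sum_mul]
    · rw [Fintype.sum_prod_type_right]
      simp only [sum_mul, hsym]
  have var : ∀ y' ∈ Set.Icc (0 : V → ℝ) fun _ => 5 * Real.log K0,
      2 * ∑ a, (∑ b, ν (a, b)) * y' a - 102 * av y' ≤
        2 * ∑ a, (∑ b, ν (a, b)) * y a - 102 * av y := by
    intro y' hy'
    have h := contain_var C y (y' - y) fun t ht =>
      hmin _ ((convex_Icc _ _).add_smul_sub_mem hy hy' ht)
    rw [hE fun p => (y' - y) p.1 + (y' - y) p.2, hE2, show av (y' - y) = _ from av_sub y' y] at h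
    have h' := le_of_mul_le_mul_left h Z0
    simp only [Pi.sub_apply, mul_sub, sum_sub_distrib] at h'
    linarith
  have m1 : ∑ a, ∑ b, ν (a, b) = 1 := by rw [← hP.2, Fintype.sum_prod_type]
  have hlog : -Real.log K0 < Real.log Z + 102 * av y := by
    have := Real.log_lt_log (by positivity) hG
    rwa [containG, Real.log_mul Z0.ne' (Real.exp_pos _).ne', Real.log_exp, one_div,
      Real.log_inv] at this
  have a1 : 102 * av y ≤ 10 * Real.log K0 := by
    have h := var 0 ⟨le_rfl, fun _ => by positivity⟩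
    have h' : ∑ a, (∑ b, ν (a, b)) * y a ≤ ∑ a, (∑ b, ν (a, b)) * (5 * Real.log K0) :=
      sum_le_sum fun a _ => mul_le_mul_of_nonneg_left (hy.2 a) (sum_nonneg fun b _ => hP.1 _)
    rw [← sum_mul, m1] at h'
    simp only [Pi.zero_apply, mul_zero, sum_const_zero, show av (0 : V → ℝ) = 0 from av_zero] at h
    linarith
  have a2 : Real.log Z + 2 * ∑ a, (∑ b, ν (a, b)) * y a ≤ 0 := by
    rw [← hE2, ← Ex_const hP (Real.log Z), ← Ex_add]
    have h : Ex ν (fun p => Real.log Z + (y p.1 + y p.2)) ≤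
        Ex ν fun p => Z * Real.exp (y p.1 + y p.2) - 1 := Ex_mono hP.1 fun p => by
      have := Real.add_one_le_exp (Real.log Z + (y p.1 + y p.2))
      rw [Real.exp_add, Real.exp_log Z0] at this
      linarith
    rw [Ex_sub, Ex_const hP, Ex_const_mul, ← hE] at h
    refine h.trans (sub_nonpos.2 (av_le_of_forall fun p => ?_))
    rw [containW, mul_assoc, ← Real.exp_add, show -y p.1 - y p.2 + (y p.1 + y p.2) = 0 by ring,
      Real.exp_zero, mul_one]
    exact ind_le_one _
  have a3 : ∑ a, max (∑ b, ν (a, b) - 51 / Fintype.card V) 0 ≤ 1 / 10 := by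
    have h := var (fun a => if 0 ≤ ∑ b, ν (a, b) - 51 / Fintype.card V then 5 * Real.log K0 else 0)
      ⟨fun a => by dsimp only [Pi.zero_apply]; positivity, fun a => by
        dsimp only; split_ifs <;> linarith⟩
    have e : 2 * ∑ a, (∑ b, ν (a, b)) * (if 0 ≤ ∑ b, ν (a, b) - 51 / Fintype.card V then
        5 * Real.log K0 else 0) - 102 * av (fun a => if 0 ≤ ∑ b, ν (a, b) - 51 / Fintype.card V
        then 5 * Real.log K0 else 0) =
        10 * Real.log K0 * ∑ a, max (∑ b, ν (a, b) - 51 / Fintype.card V) 0 := by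
      unfold av
      simp only [sum_div, mul_sum _ _ (2 : ℝ), mul_sum _ _ (102 : ℝ),
        mul_sum _ _ (10 * Real.log K0), ← sum_sub_distrib]
      refine sum_congr rfl fun a _ => ?_
      split_ifs with h
      · rw [max_eq_left h]; ring
      · rw [max_eq_right (not_le.1 h).le]; ring
    rw [e] at h
    refine le_of_mul_le_mul_left ?_ hl
    linarith
  have a4 : Z⁻¹ ≤ K0 ^ 11 := by
    rw [← Real.log_le_log_iff (by positivity) (by positivity), Real.log_inv, Real.log_pow]
    push_cast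
    linarith
  obtain ⟨v, hv, hv'⟩ := contain_reweight hSS hε (by positivity) hK hP hsym
    (fun a b h => by
      simp only [hν, containW]
      rw [ind_neg fun h' => h2 _ h' h, zero_mul, zero_div]) (fun p => by
      have : containW C y p ≤ 1 := mul_le_one₀ (ind_le_one _) (Real.exp_pos _).le
        (Real.exp_le_one_iff.2 (by
          linarith [show 0 ≤ y p.1 from hy.1 p.1, show 0 ≤ y p.2 from hy.1 p.2]))
      simp only [hν]
      rw [mul_comm, ← div_div, div_eq_mul_inv _ Z]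
      exact div_le_div_of_nonneg_right ((mul_le_of_le_one_left (by positivity) this).trans a4)
        (by positivity)) a3
  refine ⟨v, by_contra fun h => hv (by simp [hν, containW, ind_neg h]), ?_⟩
  have e : av (containW (C.filter fun q => ¬ Conf H v q) y) = Z * (1 - Pr ν (Conf H v)) := by
    rw [← Pr_not hP, Pr, ← hE]
    refine av_congr fun p => ?_
    rw [containW, containW, ind_congr mem_filter, ind_and]
    ring
  rw [containG, containG, e, ← hZ, ← mul_assoc, mul_comm _ Z]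
  gcongr

omit [Nonempty V] in
theorem containG_mono {C C' : Finset (V × V)} (h : C ⊆ C') (y : V → ℝ) :
    containG C y ≤ containG C' y :=
  mul_le_mul_of_nonneg_right (av_mono fun _ => mul_le_mul_of_nonneg_right
    (ind_mono fun hp => h hp) (Real.exp_pos _).le) (Real.exp_pos _).le

theorem contain_kw {H : V → V → Prop} {K ε K0 : ℝ} (hSS : SS H 64 K ε) (hε : 0 < ε) (hε1 : ε ≤ 1)
    (hK0 : 2 ≤ K0) (hK : 2 * K0 ^ 11 ≤ K) (t : ℕ) (C : Finset (V × V))
    (h1 : ∀ p ∈ C, p.swap ∈ C) (h2 : ∀ p ∈ C, ¬ H p.1 p.2)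
    (h3 : ∃ y ∈ Set.Icc (0 : V → ℝ) fun _ => 5 * Real.log K0,
      (1 - 4 / 5 * ε) ^ t * containG C y ≤ 1 / K0) :
    ∃ D : List (V × V) → Finset (V × V),
      (∀ l, ∃ y ∈ Set.Icc (0 : V → ℝ) fun _ => 5 * Real.log K0, containG (D l) y ≤ 1 / K0) ∧
      ∀ I ⊆ C, (∀ p ∈ I, p.swap ∈ I) → (∀ p ∈ I, ∀ q ∈ I, ¬ Conf H p q) →
        ∃ l : List (V × V), l.length ≤ t ∧ (∀ p ∈ l, p ∈ I) ∧ I ⊆ D l := by
  induction t generalizing C with
  | zero => exact ⟨fun _ => C, fun _ => by simpa using h3, fun I hI _ _ => ⟨[], by simp, by simp, hI⟩⟩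
  | succ t iht =>
    induction C using Finset.strongInduction with
    | H C ih =>
      obtain ⟨y₀, hy₀, h3⟩ := h3
      have hc : Continuous (containG C) := by
        unfold containG containW av
        fun_prop
      obtain ⟨y, hy, hmin⟩ := isCompact_Icc.exists_isMinOn ⟨y₀, hy₀⟩ hc.continuousOn
      rcases le_or_gt (containG C y) (1 / K0) with hG | hG
      · exact ⟨fun _ => C, fun _ => ⟨y, hy, hG⟩, fun I hI _ _ => ⟨[], by simp, by simp, hI⟩⟩
      obtain ⟨v, hv, hv'⟩ := contain_step hSS hε hK0 hK h1 h2 hy hmin hG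
      have r0 : 0 ≤ 1 - 4 / 5 * ε := by linarith
      obtain ⟨D₁, a1, a2⟩ := iht (C.filter fun q => ¬ Conf H v q)
        (fun p hp => mem_filter.2 ⟨h1 p (mem_filter.1 hp).1, fun h => (mem_filter.1 hp).2
          ⟨h.2.1, h.1, h.2.2.2, h.2.2.1⟩⟩) (fun p hp => h2 p (mem_filter.1 hp).1) ⟨y, hy, by
          refine le_trans ?_ h3
          rw [pow_succ, mul_assoc]
          exact mul_le_mul_of_nonneg_left (hv'.trans (mul_le_mul_of_nonneg_left (hmin hy₀) r0))
            (pow_nonneg r0 t)⟩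
      obtain ⟨D₂, b1, b2⟩ := ih (C.filter fun q => q ≠ v ∧ q.swap ≠ v)
        (filter_ssubset.2 ⟨v, hv, fun h => h.1 rfl⟩)
        (fun p hp => mem_filter.2 ⟨h1 p (mem_filter.1 hp).1, (mem_filter.1 hp).2.symm⟩)
        (fun p hp => h2 p (mem_filter.1 hp).1) ⟨y₀, hy₀, le_trans (mul_le_mul_of_nonneg_left
          (containG_mono (filter_subset _ _) y₀) (pow_nonneg r0 _)) h3⟩
      refine ⟨fun l => if l.head? = some v then D₁ l.tail else D₂ l, fun l => ?_,
        fun I hI c1 c2 => ?_⟩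
      · dsimp only
        split_ifs
        · exact a1 _
        · exact b1 _
      · by_cases hvI : v ∈ I
        · obtain ⟨l, d1, d2, d3⟩ := a2 I (fun p hp => mem_filter.2 ⟨hI hp, c2 v hvI p hp⟩) c1 c2
          exact ⟨v :: l, by simpa using d1, by simpa [hvI] using d2, by simpa using d3⟩
        · obtain ⟨l, d1, d2, d3⟩ := b2 I (fun p hp => mem_filter.2 ⟨hI hp,
            fun h => hvI (h ▸ hp), fun h => hvI (h ▸ c1 p hp)⟩) c1 c2
          refine ⟨l, d1, d2, ?_⟩
          dsimp only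
          rwa [if_neg fun h : l.head? = some v => hvI (d2 v (List.mem_of_mem_head? h))]

theorem containers (H : V → V → Prop) (hs : ∀ a b, H a b → H b a) (hi : ∀ a, ¬ H a a)
    {K ε K0 : ℝ} (hSS : SS H 64 K ε) (hε : 0 < ε) (hε1 : ε ≤ 1) (hK0 : 2 ≤ K0)
    (hK : 2 * K0 ^ 11 ≤ K) (T : ℕ) (hT : 2 * Real.log K0 ≤ ε * T) :
    ∃ (C : List (V × V) → Finset (V × V)) (y : List (V × V) → V → ℝ),
      (∀ l a, 0 ≤ y l a ∧ y l a ≤ 5 * Real.log K0) ∧
      (∀ l, av (fun p : V × V => ind (p ∈ C l) * Real.exp (-(y l p.1) - y l p.2)) *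
        Real.exp (102 * av (y l)) ≤ 1 / K0) ∧
      ∀ I : Finset (V × V), (∀ p ∈ I, p.swap ∈ I) → (∀ p ∈ I, ¬ H p.1 p.2) →
        (∀ p ∈ I, ∀ q ∈ I, ¬ Conf H p q) →
        ∃ l : List (V × V), l.length ≤ T ∧ (∀ p ∈ l, p ∈ I) ∧ I ⊆ C l := by
  have hl : 0 < Real.log K0 := Real.log_pos (by linarith)
  obtain ⟨D, h1, h2⟩ := contain_kw hSS hε hε1 hK0 hK T (univ.filter fun p => ¬ H p.1 p.2)
    (fun p hp => mem_filter.2 ⟨mem_univ _, fun h => (mem_filter.1 hp).2 (hs _ _ h)⟩)
    (fun p hp => (mem_filter.1 hp).2) ⟨0, ⟨le_rfl, fun _ => by positivity⟩, by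
      have a1 : containG (univ.filter fun p : V × V => ¬ H p.1 p.2) 0 ≤ 1 := by
        rw [containG, show av (0 : V → ℝ) = 0 from av_zero, mul_zero, Real.exp_zero, mul_one]
        exact av_le_of_forall fun p => by simpa [containW] using ind_le_one _
      have r0 : 0 ≤ 1 - 4 / 5 * ε := by linarith
      refine (mul_le_of_le_one_right (pow_nonneg r0 T) a1).trans ?_
      refine (pow_le_pow_left₀ r0 (Real.one_sub_le_exp_neg _) T).trans ?_
      rw [← Real.exp_nat_mul, one_div, ← Real.exp_log (show 0 < K0 by linarith), ← Real.exp_neg]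
      exact Real.exp_le_exp.2 (by linarith)⟩
  choose y hy hy' using h1
  exact ⟨D, y, fun l a => ⟨(hy l).1 a, (hy l).2 a⟩, hy',
    fun I a b c => h2 I (fun p hp => mem_filter.2 ⟨mem_univ _, b p hp⟩) a c⟩

end

end Vale.Agent.P060
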