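import Vale.Agent.P060.CountA

/-! P060: counting curves and mixers. -/

namespace Vale.Agent.P060

open Finset Polynomial Vale.Agent.P056.Sharp

noncomputable section

open scoped Classical

variable {F : Type} [Field F] [Fintype F] {p : Par}

lemma av_two_points (hp : p.Ok) {t t' : F} (htt : t ≠ t') (x x' : Fin p.N → F) :
    av (fun c : Cv F p => ind (ptv c t = x ∧ ptv c t' = x')) =
      1 / (Fintype.card F : ℝ) ^ (2 * p.N) := by
  let φ : Cv F p →+ (Fin p.N → F) × (Fin p.N → F) :=
    { toFun := fun c => (ptv c t, ptv c t')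
      map_zero' := by ext l <;> simp [ptv]
      map_add' := fun c c' => by ext l <;> simp [ptv] }
  have hφ : Function.Surjective φ := by
    rintro ⟨y, y'⟩
    have hs : Function.Injective (fun b : Bool => if b then t else t') := by
      intro b b' h
      cases b <;> cases b' <;> simp_all [eq_comm]
    have hk := hp.hk
    choose f hf using fun l => exists_pol_eval (n := p.k) (by rw [Fintype.card_bool]; omega) hs
      (fun b => if b then y l else y' l)
    exact ⟨f, Prod.ext (funext fun l => hf l true) (funext fun l => hf l false)⟩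
  have := count_fiber φ hφ (x, x')
  rw [Fintype.card_prod, Fintype.card_fun, Fintype.card_fin, ← pow_add, ← two_mul,
    Nat.cast_pow] at this
  rw [← this]
  exact av_congr fun c => ind_congr (Prod.ext_iff (x := φ c) (y := (x, x'))).symm

/-- (CP) -/
theorem av_unf (hp : p.Ok) (hq : 4 ≤ Fintype.card F) {t t' : F} (htt : t ≠ t')
    (x x' : Fin p.N → F) (e : Cv F p) :
    av (fun c : Cv F p => ind (ptv c t = x ∧ ptv c t' = x' ∧ Unf t t' c e)) ≤
      (Fintype.card F : ℝ) ^ 2 / (Fintype.card F : ℝ) ^ (3 * p.N) := by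
  have hk := hp.hk
  have hN := hp.hN
  have hq' : (4 : ℝ) ≤ Fintype.card F := by exact_mod_cast hq
  set Q : F[X] := (X - C t) * (X - C t') with hQ
  have hQm : Q.Monic := (monic_X_sub_C t).mul (monic_X_sub_C t')
  have hQd : Q.natDegree = 2 := by
    rw [hQ, (monic_X_sub_C t).natDegree_mul (monic_X_sub_C t'), natDegree_X_sub_C,
      natDegree_X_sub_C]
  have hdiv : ∀ c c' : Cv F p, (ptv c t = x ∧ ptv c t' = x') → (ptv c' t = x ∧ ptv c' t' = x') →
      ∀ l, Q ∣ (c l : F[X]) - c' l := by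
    intro c c' h h' l
    refine count_pair_dvd htt ?_ ?_
    · rw [eval_sub, sub_eq_zero]; exact congrFun (h.1.trans h'.1.symm) l
    · rw [eval_sub, sub_eq_zero]; exact congrFun (h.2.trans h'.2.symm) l
  have hsub : ∀ (c c' : Cv F p) l, (c l : F[X]) - c' l = (c l - e l) - (c' l - e l) :=
    fun c c' l => by ring
  have hA : av (fun c : Cv F p => ind ((ptv c t = x ∧ ptv c t' = x') ∧
      ∀ l, ((c l : F[X]) - e l).degree < p.k)) ≤ 1 / (Fintype.card F : ℝ) ^ (3 * p.N) := by
    refine count_class _ hQm (E := p.k) (by omega) (by omega) fun c c' h h' l =>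
      ⟨hdiv c c' h.1 h'.1 l, ?_⟩
    rw [hsub]
    exact (degree_sub_le _ _).trans_lt (max_lt (h.2 l) (h'.2 l))
  have hB : ∀ i ∈ range p.k, av (fun c : Cv F p => ind (∃ P : F[X], P.Monic ∧
      P.natDegree = i + 1 ∧ Irreducible P ∧ (ptv c t = x ∧ ptv c t' = x') ∧ P ∣ cg c e ∧
      (P ∣ Q → P * P ∣ cg c e))) ≤
      (Fintype.card F : ℝ) / (Fintype.card F : ℝ) ^ (3 * p.N) * (1 / 2) ^ i := by
    intro i hi
    have hi := mem_range.1 hi
    refine (count_monic (i + 1) _ (b := 1 / (Fintype.card F : ℝ) ^ (min (i + 3) (p.k + 1) * p.N))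
      (by positivity) fun P hP hd => ?_).trans ?_
    · refine count_class _ (hQm.mul hP) (E := p.k + 1) (min_le_right _ _)
        (by rw [hQm.natDegree_mul hP]; omega) fun c c' h h' l => ⟨?_, ?_⟩
      · refine count_excess_dvd htt h.1 (hdiv c c' h.2.1 h'.2.1 l) ?_ fun h1 => ?_
        · rw [hsub]
          exact dvd_sub (h.2.2.1.trans (cg_dvd _ _ _)) (h'.2.2.1.trans (cg_dvd _ _ _))
        · rw [hsub]
          exact dvd_sub ((h.2.2.2 h1).trans (cg_dvd _ _ _)) ((h'.2.2.2 h1).trans (cg_dvd _ _ _))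
      · exact mem_degreeLT.1 (sub_mem (c l).2 (c' l).2)
    · have h1 : (i + 1) + (3 * p.N + i) ≤ 1 + min (i + 3) (p.k + 1) * p.N := by
        rcases le_total (i + 3) (p.k + 1) with h | h
        · rw [min_eq_left h]
          have : i * 3 ≤ i * p.N := Nat.mul_le_mul_left _ hN
          rw [add_mul]
          omega
        · rw [min_eq_right h]
          obtain ⟨m, hm⟩ : ∃ m, p.k = m + 2 := ⟨p.k - 2, by omega⟩
          have : m * 3 ≤ m * p.N := Nat.mul_le_mul_left _ hN
          rw [hm, add_assoc m, add_mul]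
          omega
      rw [mul_one_div]
      refine (count_div_le h1).trans ?_
      rw [pow_one, pow_add, ← div_div, div_eq_mul_one_div _ (_ ^ i), ← one_div_pow]
      refine mul_le_mul_of_nonneg_left (pow_le_pow_left₀ (by positivity) ?_ _) (by positivity)
      exact one_div_le_one_div_of_le two_pos (by linarith)
  refine le_trans (count_mono fun c hc => ?_) ((count_or _ _).trans
    ((add_le_add hA ((count_union (range p.k) _).trans (sum_le_sum hB))).trans ?_))
  · obtain ⟨h1, h2, h3⟩ := hc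
    by_cases h4 : c = e
    · exact Or.inl ⟨⟨h1, h2⟩, fun l => by simp [h4]⟩
    by_cases h5 : ce c e = 0
    · obtain ⟨P, p1, p2, p3, p4⟩ := count_excess (Q := Q) (cg_monic h4).ne_zero
        fun h => h3 ⟨h4, h5, h⟩
      have h6 := natDegree_le_of_dvd p3 (cg_monic h4).ne_zero
      have h7 := natDegree_cg_le h4
      have h8 := p2.natDegree_pos
      exact Or.inr ⟨P.natDegree - 1, mem_range.2 (by omega), P, p1, by omega, p2, ⟨h1, h2⟩, p3, p4⟩
    · refine Or.inl ⟨⟨h1, h2⟩, fun l => degree_le_natDegree.trans_lt ?_⟩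
      have := natDegree_sub_le_ce c e l
      exact_mod_cast (by omega : ((c l : F[X]) - e l).natDegree < p.k)
  · rw [← mul_sum]
    refine (add_le_add_right (mul_le_mul_of_nonneg_left (sum_geometric_two_le _)
      (by positivity)) _).trans ?_
    rw [div_mul_eq_mul_div, ← add_div]
    refine div_le_div_of_nonneg_right ?_ (by positivity)
    nlinarith

/-- (CP2) -/
theorem av_not_okc (hp : p.Ok) (e : Cv F p) :
    av (fun c : Cv F p => ind (¬ okc c e)) ≤
      ((p.k : ℝ) + 2) ^ 2 * (Fintype.card F : ℝ) ^ (p.r + 1) /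
        (Fintype.card F : ℝ) ^ ((p.r + 1) * p.N) := by
  have hk := hp.hk
  have hN := hp.hN
  have hq := count_one_le (F := F)
  have hB := count_union_le (X := Cv F p) (range (p.k + 1) ×ˢ range (p.k + 1))
    (fun y c => (p.r + 1 ≤ y.1 + y.2 ∧ y.1 + y.2 ≤ p.k) ∧ ∃ g : F[X], g.Monic ∧
      g.natDegree = y.1 ∧ ∀ l, g ∣ (c l : F[X]) - e l ∧ ((c l : F[X]) - e l).natDegree ≤ p.k - y.2)
    (b := (Fintype.card F : ℝ) ^ (p.r + 1) / (Fintype.card F : ℝ) ^ ((p.r + 1) * p.N)) ?_
  · refine le_trans (count_mono fun c hc => ?_) (hB.trans ?_)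
    · by_cases h : c = e
      · exact ⟨(0, p.k), by simp, by simp only; omega, 1, monic_one, natDegree_one,
          fun l => by simp [h]⟩
      · have h1 := natDegree_cg_le h
        have h2 : ¬ (cg c e).natDegree + ce c e ≤ p.r := fun h2 => hc ⟨h, h2⟩
        exact ⟨((cg c e).natDegree, ce c e), by simp only [mem_product, mem_range]; omega,
          by simp only; omega, _, cg_monic h, rfl,
          fun l => ⟨cg_dvd _ _ _, natDegree_sub_le_ce _ _ _⟩⟩
    · rw [mul_div_assoc, card_product, card_range]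
      refine mul_le_mul_of_nonneg_right ?_ (by positivity)
      push_cast
      have : (0 : ℝ) ≤ p.k := Nat.cast_nonneg _
      nlinarith
  · rintro ⟨d, f⟩ -
    by_cases h : p.r + 1 ≤ d + f ∧ d + f ≤ p.k
    swap
    · exact count_empty (fun c hc => h hc.1) (by positivity)
    refine (count_mono fun c hc => hc.2).trans ?_
    refine (count_monic d _ (b := 1 / (Fintype.card F : ℝ) ^ ((d + f) * p.N))
      (by positivity) fun g hg hd => ?_).trans ?_
    · refine count_class _ hg (E := p.k - f + 1) (by omega) (by omega) fun c c' h1 h2 l => ?_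
      have hsub : (c l : F[X]) - c' l = (c l - e l) - (c' l - e l) := by ring
      rw [hsub]
      refine ⟨dvd_sub (h1 l).1 (h2 l).1, degree_le_natDegree.trans_lt ?_⟩
      exact_mod_cast Nat.lt_succ_of_le ((natDegree_sub_le _ _).trans (max_le (h1 l).2 (h2 l).2))
    · rw [mul_one_div]
      refine count_div_le ?_
      obtain ⟨m, hm⟩ := Nat.exists_eq_add_of_le h.1
      have : m * 1 ≤ m * p.N := Nat.mul_le_mul_left _ (by omega)
      rw [hm, add_mul (p.r + 1)]
      omega

/-- high odd coefficients of a nonzero combination of uniform mixers are uniform. -/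
theorem av_posP (hp : p.Ok) {m : Fin p.S → F} (hm : m ≠ 0) (φ : (Fin (2 * p.k) → F) → ℝ) :
    av (fun ψ : Mx F p => φ (fun n => (∑ a, C (m a) * (ψ a : F[X])).coeff (posP p n))) = av φ := by
  let θ : Mx F p →+ (Fin (2 * p.k) → F) :=
    { toFun := fun ψ n => (∑ a, C (m a) * (ψ a : F[X])).coeff (posP p n)
      map_zero' := by ext n; simp
      map_add' := fun ψ ψ' => by ext n; simp [mul_add, sum_add_distrib] }
  refine av_comp_hom θ (fun v => ?_) φ
  obtain ⟨a, ha⟩ := Function.ne_iff.1 hm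
  have ha : m a ≠ 0 := ha
  obtain ⟨T, hT, hv⟩ := count_target (posP_injective hp) (fun n => (posP_spec hp n).2.2) v
  refine ⟨Pi.single a (Pol.mk (C (m a)⁻¹ * T) ((natDegree_C_mul_le _ _).trans hT)),
    funext fun n => ?_⟩
  show (∑ b, C (m b) * _).coeff _ = _
  rw [sum_eq_single a (fun b _ hb => by simp [Pi.single_eq_of_ne hb]) (by simp),
    Pi.single_eq_same, Pol.coe_mk, ← mul_assoc, ← C_mul, mul_inv_cancel₀ ha, C_1, one_mul, hv]

theorem av_not_typ (hp : p.Ok) (hS : 2 * p.r + 5 ≤ p.S) (hSk : p.S + 1 ≤ 2 * p.k) :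
    av (fun ψ : Mx F p => ind (¬ Typ ψ)) ≤ ((p.r : ℝ) + 5) / Fintype.card F := by
  have hk := hp.hk
  have hns := hp.hns
  have hq := count_one_le (F := F)
  have hJ : p.r + 2 ≤ p.J1 := by
    have : 1 * p.k ≤ 2 * p.ns * p.k := Nat.mul_le_mul_right _ (by omega)
    unfold Par.J1
    omega
  have hcS : (Fintype.card (Fin p.S → F) : ℝ) = (Fintype.card F : ℝ) ^ p.S := by
    rw [Fintype.card_fun, Fintype.card_fin, Nat.cast_pow]
  have hone : ∀ a b : ℕ, a + 1 ≤ b →
      (Fintype.card F : ℝ) ^ a * (1 / (Fintype.card F : ℝ) ^ b) ≤ 1 / Fintype.card F := by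
    intro a b h
    have := count_div_le (F := F) (a := a) (b := b) (c := 0) (d := 1) (by omega)
    rwa [pow_zero, pow_one, div_eq_mul_one_div] at this
  have hlin : ∀ A : F[X] →ₗ[F] F, (∃ n ≤ p.J1, A (X ^ n) ≠ 0) →
      av (fun ψ : Mx F p => ind (∀ a, A (ψ a) = 0)) = 1 / (Fintype.card F : ℝ) ^ p.S := by
    rintro A ⟨n, hn, hA⟩
    let θ : Mx F p →+ (Fin p.S → F) :=
      { toFun := fun ψ a => A (ψ a)
        map_zero' := by ext a; simp
        map_add' := fun ψ ψ' => by ext a; simp }
    have hθ : Function.Surjective θ := fun v =>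
      ⟨fun a => Pol.mk ((v a / A (X ^ n)) • X ^ n)
        ((natDegree_smul_le _ _).trans ((natDegree_X_pow_le n).trans hn)), funext fun a => by
          show A ((v a / A (X ^ n)) • X ^ n) = v a
          rw [map_smul, smul_eq_mul, div_mul_cancel₀ _ hA]⟩
    rw [← hcS, ← count_fiber θ hθ 0]
    exact av_congr fun ψ => ind_congr (funext_iff (f := θ ψ) (g := 0)).symm
  have h1 : av (fun ψ : Mx F p => ind (∃ c ∈ (univ : Finset (Fin p.S → F)), c ≠ 0 ∧
      ∀ n, (∑ a, C (c a) * (ψ a : F[X])).coeff (posP p n) = 0)) ≤ 1 / Fintype.card F := by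
    refine (count_union_le _ _ (b := 1 / (Fintype.card F : ℝ) ^ (2 * p.k)) fun c _ => ?_).trans ?_
    · by_cases hc : c = 0
      · exact count_empty (fun ψ h => h.1 hc) (by positivity)
      · have := av_posP hp hc (fun v => ind (v = 0))
        rw [av_ind_eq, Fintype.card_fun, Fintype.card_fin, Nat.cast_pow] at this
        rw [← this]
        exact count_mono fun ψ h => funext h.2
    · rw [card_univ, hcS]
      exact hone _ _ hSk
  have h2 : av (fun ψ : Mx F p => ind (∀ a, lcoeff F p.J1 (ψ a) = 0)) ≤ 1 / Fintype.card F := by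
    rw [hlin _ ⟨p.J1, le_rfl, by simp⟩]
    simpa using hone 0 p.S (by omega)
  have h3 : av (fun ψ : Mx F p => ind (∃ d ∈ range (p.r + 3), ∃ h : F[X], h.Monic ∧
      h.natDegree = d ∧ ∃ w ∈ (univ : Finset (Fin d → F)), ∃ A : F[X] →ₗ[F] F,
        ((∀ f, A (h * f) = 0) ∧ A ≠ 0 ∧ ∀ n : Fin d, A (X ^ n.1) = w n) ∧ ∀ a, A (ψ a) = 0)) ≤
      (range (p.r + 3)).card * (1 / Fintype.card F) := by
    refine count_union_le _ _ fun d hd => ?_
    have hd := mem_range.1 hd
    refine (count_monic d _ (b := (Fintype.card F : ℝ) ^ d * (1 / (Fintype.card F : ℝ) ^ p.S))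
      (by positivity) fun h hh hdeg => ?_).trans ?_
    · subst hdeg
      refine (count_union_le _ _ (b := 1 / (Fintype.card F : ℝ) ^ p.S) fun w _ => ?_).trans ?_
      · by_cases h0 : ∃ A : F[X] →ₗ[F] F, (∀ f, A (h * f) = 0) ∧ A ≠ 0 ∧
            ∀ n : Fin h.natDegree, A (X ^ n.1) = w n
        · obtain ⟨A0, a1, a2, a3⟩ := h0
          have a4 : ∃ n ≤ p.J1, A0 (X ^ n) ≠ 0 := by
            by_contra a4
            push Not at a4
            exact a2 (count_fun_zero hh a1 fun n => a4 _ (by have := n.2; omega))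
          rw [← hlin A0 a4]
          refine count_mono ?_
          rintro ψ ⟨A, ⟨b1, -, b3⟩, b4⟩
          have : A0 - A = 0 := count_fun_zero hh (fun f => by simp [a1, b1])
            fun n => by simp [a3, b3]
          rwa [sub_eq_zero.1 this]
        · exact count_empty (fun ψ ⟨A, b1, _⟩ => h0 ⟨A, b1⟩) (by positivity)
      · rw [card_univ, Fintype.card_fun, Fintype.card_fin, Nat.cast_pow]
    · rw [← mul_assoc, ← pow_add]
      exact hone _ _ (by omega)
  refine le_trans (count_mono fun ψ hψ => ?_) ((count_or _ _).trans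
    ((add_le_add h1 ((count_or _ _).trans (add_le_add h2 h3))).trans (le_of_eq ?_)))
  · by_contra hc
    refine hψ ⟨fun c h => ?_, ?_, fun h hh hd A a1 a2 => ?_⟩
    · by_contra h0
      exact hc (Or.inl ⟨c, mem_univ _, h0, h⟩)
    · by_contra h0
      push Not at h0
      exact hc (Or.inr (Or.inl h0))
    · by_contra h0
      exact hc (Or.inr (Or.inr ⟨_, mem_range.2 (by omega), h, hh, rfl, fun n => A (X ^ n.1),
        mem_univ _, A, ⟨a1, h0, fun _ => rfl⟩, a2⟩))
  · rw [card_range]
    push_cast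
    ring

lemma count_bil_single {R : Type} [CommRing R] {S : ℕ} (a : Fin S) (g : R)
    (u : Option (Fin S) → R) :
    bil (Pi.single (some s(a, a)) g) u u = u (some a) * u (some a) * g := by
  unfold bil
  rw [Pi.single_eq_of_ne (by simp), sum_eq_single a, sum_eq_single a, Pi.single_eq_same]
  · ring
  · intro b _ hb
    rw [Pi.single_eq_of_ne (by simp [hb])]; simp
  · simp
  · intro b _ hb
    refine sum_eq_zero fun b' _ => ?_
    rw [Pi.single_eq_of_ne (by simp [hb])]; simp
  · simp

omit [Fintype F] in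
lemma count_div_top {W T : F[X]} {d D : ℕ} (hW : W ≠ 0) (hd : W.natDegree = d)
    (hT : T.natDegree ≤ d + D) :
    ∃ f : F[X], f.natDegree ≤ D ∧ ∀ n, d < n → (W * f).coeff n = T.coeff n := by
  refine ⟨T / W, ?_, fun n hn => ?_⟩
  · by_cases h0 : T / W = 0
    · rw [h0]; simp
    · have hT0 : T ≠ 0 := fun h => h0 (by simp [h])
      have h7 := degree_add_div hW (not_lt.1 fun h => h0 ((Polynomial.div_eq_zero_iff hW).2 h))
      rw [degree_eq_natDegree hW, degree_eq_natDegree h0, degree_eq_natDegree hT0, hd] at h7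
      have h8 : d + (T / W).natDegree = T.natDegree := by exact_mod_cast h7
      omega
  · rw [eq_sub_of_add_eq (EuclideanDomain.div_add_mod T W), coeff_sub,
      coeff_eq_zero_of_degree_lt (p := T % W), sub_zero]
    refine (degree_mod_lt T hW).trans ?_
    rw [degree_eq_natDegree hW, hd]
    exact_mod_cast hn

omit [Fintype F] in
lemma count_posT_surj (hp : p.Ok) {ψ : Mx F p} (hψ : ∃ a, (ψ a : F[X]).coeff p.J1 ≠ 0)
    (L : Cv F p) (v : Fin (2 * p.k) → F) :
    ∃ γ : Gh F p, ∀ n, (bil (fun e => (γ e).1 L) (ph ψ) (ph ψ)).coeff (posT p n) = v n := by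
  obtain ⟨a, ha⟩ := hψ
  have hinj : Function.Injective (posT p) := fun n n' h => by
    unfold posT at h
    exact Fin.ext (by omega)
  obtain ⟨T, hT, hv⟩ := count_target hinj (fun n => (posT_spec hp n).2.2.2.2) v
  have h1 : (ψ a : F[X]).natDegree = p.J1 := le_antisymm (Pol.le _) (le_natDegree_of_ne_zero ha)
  have h2 : (ψ a : F[X]) ≠ 0 := fun h => ha (by simp [h])
  obtain ⟨f, h5, hf⟩ := count_div_top (mul_ne_zero h2 h2)
    (by rw [natDegree_mul h2 h2, h1, ← two_mul]) hT
  let G : GG F p := ⟨_, const_mem h5⟩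
  refine ⟨Pi.single (some s(a, a)) G, fun n => ?_⟩
  have h6 : (fun e => ((Pi.single (some s(a, a)) G : Gh F p) e).1 L) =
      Pi.single (some s(a, a)) f := by
    funext e
    by_cases he : e = some s(a, a)
    · rw [he, Pi.single_eq_same, Pi.single_eq_same]
    · rw [Pi.single_eq_of_ne he, Pi.single_eq_of_ne he]; rfl
  rw [h6, count_bil_single, ← hv]
  exact hf _ (posT_spec hp n).2.2.1

/-- top odd coefficients of the diagonal form are uniform. -/
theorem av_posT (hp : p.Ok) {ψ : Mx F p} (hψ : ∃ a, (ψ a : F[X]).coeff p.J1 ≠ 0) (L : Cv F p)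
    (φ : (Fin (2 * p.k) → F) → ℝ) :
    av (fun γ : Gh F p => φ (fun n =>
      (bil (fun e => (γ e).1 L) (ph ψ) (ph ψ)).coeff (posT p n))) = av φ := by
  let θ : Gh F p →+ (Fin (2 * p.k) → F) := AddMonoidHom.mk'
    (fun γ n => (bil (fun e => (γ e).1 L) (ph ψ) (ph ψ)).coeff (posT p n)) fun γ γ' => by
      funext n
      rw [Pi.add_apply, ← coeff_add, ← bil_add]
      rfl
  refine av_comp_hom θ (fun v => ?_) φ
  obtain ⟨γ, hγ⟩ := count_posT_surj hp hψ L v
  exact ⟨γ, funext hγ⟩

end

end Vale.Agent.P060
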