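import Vale.Agent.P060.Cont

/-! P060: tools for counting curves and mixers. -/

namespace Vale.Agent.P060

open Finset Polynomial Vale.Agent.P056.Sharp

noncomputable section

open scoped Classical

section gen

variable {X : Type*} [Fintype X]

lemma count_union {ι : Type*} (s : Finset ι) (P : ι → X → Prop) :
    av (fun x => ind (∃ i ∈ s, P i x)) ≤ ∑ i ∈ s, av (fun x => ind (P i x)) := by
  rw [← av_sum]
  refine av_mono fun x => ?_
  by_cases h : ∃ i ∈ s, P i x
  · obtain ⟨i, hi, h'⟩ := h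
    refine (ind_le_one _).trans (le_trans (ind_pos h').ge ?_)
    exact single_le_sum (f := fun i => ind (P i x)) (fun _ _ => ind_nonneg _) hi
  · rw [ind_neg h]
    exact sum_nonneg fun _ _ => ind_nonneg _

lemma count_union_le {ι : Type*} (s : Finset ι) (P : ι → X → Prop) {b : ℝ}
    (h : ∀ i ∈ s, av (fun x => ind (P i x)) ≤ b) :
    av (fun x => ind (∃ i ∈ s, P i x)) ≤ s.card * b := by
  refine (count_union s P).trans ((sum_le_card_nsmul s _ b h).trans ?_)
  rw [nsmul_eq_mul]

lemma count_mono {P Q : X → Prop} (h : ∀ x, P x → Q x) :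
    av (fun x => ind (P x)) ≤ av (fun x => ind (Q x)) :=
  av_mono fun x => ind_mono (h x)

lemma count_or (P Q : X → Prop) :
    av (fun x => ind (P x ∨ Q x)) ≤ av (fun x => ind (P x)) + av (fun x => ind (Q x)) := by
  rw [← av_add]
  exact av_mono fun x => ind_or_le _ _

lemma count_empty {P : X → Prop} (h : ∀ x, ¬ P x) {b : ℝ} (hb : 0 ≤ b) :
    av (fun x => ind (P x)) ≤ b :=
  av_le_const hb fun x => (ind_neg (h x)).le.trans hb

lemma count_fiber {A B : Type*} [AddGroup A] [AddGroup B] [Fintype A] [Fintype B] (φ : A →+ B)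
    (hφ : Function.Surjective φ) (b : B) :
    av (fun a => ind (φ a = b)) = 1 / Fintype.card B := by
  rw [av_comp_hom φ hφ (fun y => ind (y = b)), av_ind_eq]

end gen

variable {F : Type} [Field F] [Fintype F] {p : Par}

lemma count_one_le : (1 : ℝ) ≤ Fintype.card F := by
  exact_mod_cast Fintype.card_pos

lemma count_div_le {a b c d : ℕ} (h : a + d ≤ c + b) :
    (Fintype.card F : ℝ) ^ a / (Fintype.card F : ℝ) ^ b ≤
      (Fintype.card F : ℝ) ^ c / (Fintype.card F : ℝ) ^ d := by
  have h1 := count_one_le (F := F)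
  rw [div_le_div_iff₀ (by positivity) (by positivity), ← pow_add, ← pow_add]
  exact pow_le_pow_right₀ h1 h

/-- union over the monic polynomials of a given degree. -/
lemma count_monic {X : Type*} [Fintype X] (d : ℕ) (P : F[X] → X → Prop) {b : ℝ} (hb : 0 ≤ b)
    (h : ∀ g : F[X], g.Monic → g.natDegree = d → av (fun x => ind (P g x)) ≤ b) :
    av (fun x => ind (∃ g : F[X], g.Monic ∧ g.natDegree = d ∧ P g x)) ≤
      (Fintype.card F : ℝ) ^ d * b := by
  let mk : (Fin d → F) → F[X] := fun v => Polynomial.X ^ d + ∑ i : Fin d, C (v i) * Polynomial.X ^ i.1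
  have h1 := count_union_le (X := X) (univ : Finset (Fin d → F))
    (fun v x => (mk v).Monic ∧ (mk v).natDegree = d ∧ P (mk v) x) (b := b) fun v _ => by
      by_cases hv : (mk v).Monic ∧ (mk v).natDegree = d
      · exact (count_mono fun x hx => hx.2.2).trans (h _ hv.1 hv.2)
      · exact count_empty (fun x hx => hv ⟨hx.1, hx.2.1⟩) hb
  rw [card_univ, Fintype.card_fun, Fintype.card_fin, Nat.cast_pow] at h1
  refine (count_mono fun x => ?_).trans h1
  rintro ⟨g, hg, hd, hP⟩
  have e : mk (fun i => g.coeff i) = g := by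
    conv_rhs => rw [hg.as_sum, hd, sum_range]
  exact ⟨fun i => g.coeff i, mem_univ _, by rw [e]; exact ⟨hg, hd, hP⟩⟩

/-- events on which all curves are congruent. -/
lemma count_class (P : Cv F p → Prop) {m : F[X]} (hm : m.Monic) {E n : ℕ} (hn : n ≤ p.k + 1)
    (hE : E + n ≤ p.k + 1 + m.natDegree)
    (h : ∀ c c', P c → P c' → ∀ l, m ∣ (c l : F[X]) - c' l ∧ ((c l : F[X]) - c' l).degree < E) :
    av (fun c => ind (P c)) ≤ 1 / (Fintype.card F : ℝ) ^ (n * p.N) := by
  have h1 := count_one_le (F := F)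
  by_cases h0 : ∃ c, P c
  swap
  · exact count_empty (not_exists.1 h0) (by positivity)
  obtain ⟨c0, hc0⟩ := h0
  have hq : ∀ c, P c → ∀ l, ∃ g : F[X], (c l : F[X]) - c0 l = m * g ∧
      ∀ i, E - m.natDegree ≤ i → g.coeff i = 0 := by
    intro c hc l
    obtain ⟨⟨g, hg⟩, hd⟩ := h c c0 hc hc0 l
    refine ⟨g, hg, fun i hi => ?_⟩
    by_cases hg0 : g = 0
    · simp [hg0]
    · rw [hg, ← natDegree_lt_iff_degree_lt (mul_ne_zero hm.ne_zero hg0),
        hm.natDegree_mul' hg0] at hd
      exact coeff_eq_zero_of_natDegree_lt (by omega)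
  choose! g hg hg' using hq
  have hc : (univ.filter P).card ≤ (univ : Finset (Fin p.N → Fin (E - m.natDegree) → F)).card := by
    refine card_le_card_of_injOn (fun c l i => (g c l).coeff i) (fun _ _ => mem_univ _) ?_
    intro c hc c' hc' e
    have hc := (mem_filter.1 hc).2
    have hc' := (mem_filter.1 hc').2
    funext l
    have : g c l = g c' l := by
      ext i
      by_cases hi : i < E - m.natDegree
      · exact congrFun (congrFun e l) ⟨i, hi⟩
      · rw [hg' c hc l i (not_lt.1 hi), hg' c' hc' l i (not_lt.1 hi)]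
    exact Subtype.ext (sub_left_injective ((hg c hc l).trans (this ▸ (hg c' hc' l).symm)))
  rw [card_univ, Fintype.card_fun, Fintype.card_fun, Fintype.card_fin, Fintype.card_fin,
    ← pow_mul] at hc
  rw [av_ind_eq_card, Fintype.card_fun, Pol.card, Fintype.card_fin, ← pow_mul, Nat.cast_pow]
  have hc' : ((univ.filter P).card : ℝ) ≤ (Fintype.card F : ℝ) ^ ((E - m.natDegree) * p.N) := by
    exact_mod_cast hc
  refine (div_le_div_of_nonneg_right hc' (by positivity)).trans ?_
  rw [← pow_zero (Fintype.card F : ℝ)]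
  refine count_div_le ?_
  rw [← add_mul, zero_add]
  exact Nat.mul_le_mul_right _ (by omega)

omit [Fintype F] in
lemma count_pair_dvd {t t' : F} (htt : t ≠ t') {f : F[X]} (h : f.eval t = 0) (h' : f.eval t' = 0) :
    (X - C t) * (X - C t') ∣ f :=
  (isCoprime_X_sub_C_of_isUnit_sub (sub_ne_zero.2 htt).isUnit).mul_dvd (dvd_iff_isRoot.2 h)
    (dvd_iff_isRoot.2 h')

omit [Fintype F] in
/-- a polynomial that does not divide `Q` has an excess prime factor. -/
lemma count_excess {Q g : F[X]} (hg : g ≠ 0) (h : ¬ g ∣ Q) :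
    ∃ P : F[X], P.Monic ∧ Irreducible P ∧ P ∣ g ∧ (P ∣ Q → P * P ∣ g) := by
  obtain ⟨g', hg'⟩ := gcd_dvd_left g Q
  have h0 : g' ≠ 0 := fun h0 => hg (by rw [hg', h0, mul_zero])
  have h1 : ¬ IsUnit g' := fun hu => h (by
    rw [hg']
    exact (hu.mul_right_dvd).2 (gcd_dvd_right g Q))
  obtain ⟨z, hz, hzg⟩ := WfDvdMonoid.exists_irreducible_factor h1 h0
  have ha := associated_normalize z
  have h2 : normalize z ∣ g' := ha.symm.dvd.trans hzg
  have h3 : normalize z ∣ g := h2.trans (Dvd.intro_left _ hg'.symm)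
  refine ⟨_, monic_normalize hz.ne_zero, ha.irreducible hz, h3, fun h4 => ?_⟩
  rw [hg']
  exact mul_dvd_mul (dvd_gcd h3 h4) h2

omit [Fintype F] in
lemma count_excess_dvd {t t' : F} (htt : t ≠ t') {P f : F[X]} (hP : Irreducible P)
    (h1 : (X - C t) * (X - C t') ∣ f) (h2 : P ∣ f) (h3 : P ∣ (X - C t) * (X - C t') → P * P ∣ f) :
    (X - C t) * (X - C t') * P ∣ f := by
  by_cases h : P ∣ (X - C t) * (X - C t')
  · have key : ∀ {s s' : F}, s ≠ s' → X - C s' ∣ f → P ∣ X - C s → (X - C s) * (X - C s') * P ∣ f := by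
      intro s s' hs h4 h5
      have ha := hP.associated_of_dvd (irreducible_X_sub_C s) h5
      have hc : IsCoprime (X - C s) (X - C s') :=
        isCoprime_X_sub_C_of_isUnit_sub (sub_ne_zero.2 hs).isUnit
      rw [mul_right_comm]
      exact (hc.mul_left (hc.of_isCoprime_of_dvd_left h5)).mul_dvd
        ((mul_dvd_mul_right ha.symm.dvd P).trans (h3 h)) h4
    rcases hP.prime.dvd_or_dvd h with h5 | h5
    · exact key htt ((dvd_mul_left _ _).trans h1) h5
    · rw [mul_comm (X - C t)]
      exact key htt.symm ((dvd_mul_right _ _).trans h1) h5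
  · exact (hP.coprime_iff_not_dvd.2 h).symm.mul_dvd h1 h2

omit [Fintype F] in
lemma count_fun_zero {h : F[X]} (hh : h.Monic) {A : F[X] →ₗ[F] F} (h1 : ∀ f, A (h * f) = 0)
    (h2 : ∀ n : Fin h.natDegree, A (X ^ n.1) = 0) : A = 0 := by
  refine LinearMap.ext fun g => ?_
  rw [← modByMonic_add_div g h, map_add, h1, add_zero, LinearMap.zero_apply]
  by_cases h0 : g %ₘ h = 0
  · rw [h0, map_zero]
  · rw [as_sum_range' _ _ (natDegree_lt_natDegree h0 (degree_modByMonic_lt g hh)), map_sum]
    refine sum_eq_zero fun i hi => ?_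
    rw [← smul_X_eq_monomial, map_smul, h2 ⟨i, mem_range.1 hi⟩, smul_zero]

omit [Fintype F] in
lemma count_target {ι : Type} [Fintype ι] {pos : ι → ℕ} (hi : Function.Injective pos) {D : ℕ}
    (hD : ∀ n, pos n ≤ D) (v : ι → F) :
    ∃ T : F[X], T.natDegree ≤ D ∧ ∀ n, T.coeff (pos n) = v n := by
  refine ⟨∑ n, monomial (pos n) (v n), ?_, fun n => ?_⟩
  · exact natDegree_sum_le_of_forall_le _ _ fun n _ => (natDegree_monomial_le _).trans (hD n)
  · simp [coeff_monomial, hi.eq_iff]

end

end Vale.Agent.P060
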