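import Vale.Agent.P060.MDefs

/-! P060: Fubini tools for the model law. -/

namespace Vale.Agent.P060

open Finset Vale.Agent.P056.Sharp

noncomputable section

open scoped Classical

/-- the other position on the same vertex. -/
def sib (z : Bool × Bool) : Bool × Bool := (z.1, !z.2)

/-- the matching position on the other vertex. -/
def opp (z : Bool × Bool) : Bool × Bool := (!z.1, z.2)

/-- the four-block family with prescribed values at `z`, `sib z`, `opp z`, `sib (opp z)`. -/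
def mk4 {B : Type} (z : Bool × Bool) (b1 b2 b3 b4 : B) : Bool × Bool → B :=
  fun y => if y.1 = z.1 then (if y.2 = z.2 then b1 else b2) else (if y.2 = z.2 then b3 else b4)

section
variable {B : Type} (z : Bool × Bool) (b1 b2 b3 b4 : B)
@[simp] lemma mk4_self : mk4 z b1 b2 b3 b4 z = b1 := by simp [mk4]
@[simp] lemma mk4_sib : mk4 z b1 b2 b3 b4 (sib z) = b2 := by simp [mk4, sib]
@[simp] lemma mk4_opp : mk4 z b1 b2 b3 b4 (opp z) = b3 := by simp [mk4, opp]
@[simp] lemma mk4_sib_opp : mk4 z b1 b2 b3 b4 (sib (opp z)) = b4 := by simp [mk4, opp, sib]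
@[simp] lemma sib_sib : sib (sib z) = z := by simp [sib]
@[simp] lemma opp_opp : opp (opp z) = z := by simp [opp]
@[simp] lemma opp_sib : opp (sib z) = sib (opp z) := rfl
@[simp] lemma sib_fst : (sib z).1 = z.1 := rfl
@[simp] lemma opp_fst : (opp z).1 = !z.1 := rfl
lemma sum_four {A : Type*} [AddCommMonoid A] (f : Bool × Bool → A) :
    ∑ y, f y = f z + f (sib z) + f (opp z) + f (sib (opp z)) := by
  obtain ⟨a, b⟩ := z
  cases a <;> cases b <;> simp [Fintype.sum_prod_type, sib, opp] <;> abel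
lemma prod_four {A : Type*} [CommMonoid A] (f : Bool × Bool → A) :
    ∏ y, f y = f z * f (sib z) * f (opp z) * f (sib (opp z)) := by
  obtain ⟨a, b⟩ := z
  cases a <;> cases b <;> simp [Fintype.prod_prod_type, sib, opp] <;> ac_rfl
lemma forall_four (P : Bool × Bool → Prop) :
    (∀ y, P y) ↔ P z ∧ P (sib z) ∧ P (opp z) ∧ P (sib (opp z)) := by
  obtain ⟨a, b⟩ := z
  cases a <;> cases b <;> simp [sib, opp] <;> tauto
end

variable {Pt Vo Cr : Type} [Fintype Pt] [Fintype Vo] [Fintype Cr]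

/-- the law of a block given its point. -/
def cP (k : Pt × Vo → Cr → ℝ) (x : Pt) : Vo × Cr → ℝ := fun y => k (x, y.1) y.2 / Fintype.card Vo

/-- conditional expectation of a function of one block given its point. -/
def c1 (k : Pt × Vo → Cr → ℝ) (x : Pt) (φ : (Pt × Vo) × Cr → ℝ) : ℝ :=
  Ex (cP k x) (fun y => φ ((x, y.1), y.2))

/-- conditional expectation of a function of four blocks given their points. -/
def c4 (k : Bool → Pt × Vo → Cr → ℝ) (P : Bool × Bool → Pt)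
    (φ : (Bool × Bool → (Pt × Vo) × Cr) → ℝ) : ℝ :=
  Ex (fun y : Bool × Bool → Vo × Cr => ∏ z, cP (k z.1) (P z) (y z))
    (fun y => φ (fun z => ((P z, (y z).1), (y z).2)))

lemma isProb_cP [Nonempty Vo] {k : Pt × Vo → Cr → ℝ} (hk : IsKer k) (x : Pt) : IsProb (cP k x) := by
  have hc : (0 : ℝ) < Fintype.card Vo := by exact_mod_cast Fintype.card_pos
  refine ⟨fun y => div_nonneg ((hk _).1 _) hc.le, ?_⟩
  have h1 : ∀ v, ∑ c, k (x, v) c = 1 := fun v => (hk _).2
  unfold cP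
  rw [Fintype.sum_prod_type]
  simp only [← sum_div, h1]
  rw [sum_const, card_univ, nsmul_eq_mul, mul_one, div_self hc.ne']

lemma isProb_mP {O : Type} [Fintype O] [Nonempty O] {k : O → Cr → ℝ} (hk : IsKer k) :
    IsProb (mP k) := by
  have hc : (0 : ℝ) < Fintype.card O := by exact_mod_cast Fintype.card_pos
  refine ⟨fun y => div_nonneg ((hk _).1 _) hc.le, ?_⟩
  have h1 : ∀ v, ∑ c, k v c = 1 := fun v => (hk _).2
  unfold mP
  rw [Fintype.sum_prod_type]
  simp only [← sum_div, h1]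
  rw [sum_const, card_univ, nsmul_eq_mul, mul_one, div_self hc.ne']

/-- the own part is uniform given the point. -/
lemma Ex_cP_own {k : Pt × Vo → Cr → ℝ} (hk : IsKer k) (x : Pt) (φ : Vo → ℝ) :
    Ex (cP k x) (fun y => φ y.1) = av φ := by
  have h1 : ∀ v, ∑ c, k (x, v) c = 1 := fun v => (hk _).2
  unfold Ex cP av
  rw [Fintype.sum_prod_type, sum_div]
  refine sum_congr rfl fun v _ => ?_
  dsimp only
  rw [← sum_mul, ← sum_div, h1]
  ring

lemma Ex_mP (k : Pt × Vo → Cr → ℝ) (φ : (Pt × Vo) × Cr → ℝ) :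
    Ex (mP k) φ = av (fun x => c1 k x φ) := by
  unfold c1 Ex mP cP av
  rw [Fintype.sum_prod_type, Fintype.sum_prod_type, sum_div]
  refine sum_congr rfl fun x _ => ?_
  rw [Fintype.sum_prod_type, sum_div]
  refine sum_congr rfl fun v _ => ?_
  rw [sum_div]
  refine sum_congr rfl fun c _ => ?_
  rw [Fintype.card_prod]
  push_cast
  ring

lemma abs_c1_le [Nonempty Vo] {k : Pt × Vo → Cr → ℝ} (hk : IsKer k) (x : Pt)
    {φ : (Pt × Vo) × Cr → ℝ} {c : ℝ} (h : ∀ b, |φ b| ≤ c) : |c1 k x φ| ≤ c := by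
  have h1 := isProb_cP hk x
  exact (abs_Ex_le h1.1 _).trans (Ex_le_const h1 fun y => h _)

lemma c1_comm (k k' : Pt × Vo → Cr → ℝ) (x x' : Pt) (φ : (Pt × Vo) × Cr → (Pt × Vo) × Cr → ℝ) :
    c1 k x (fun b => c1 k' x' (fun b' => φ b b')) = c1 k' x' (fun b' => c1 k x (fun b => φ b b')) := by
  unfold c1
  exact Ex_comm _ _ _

/-- splitting four blocks into their points and the rest. -/
def MTools_split (Pt Vo Cr : Type) :
    (Bool × Bool → Pt) × (Bool × Bool → Vo × Cr) ≃ (Bool × Bool → (Pt × Vo) × Cr) where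
  toFun p := fun z => ((p.1 z, (p.2 z).1), (p.2 z).2)
  invFun b := (fun z => (b z).1.1, fun z => ((b z).1.2, (b z).2))
  left_inv _ := rfl
  right_inv _ := rfl

/-- four values give a family on the four positions. -/
def MTools_e4 (B : Type) (z : Bool × Bool) : B × B × B × B ≃ (Bool × Bool → B) where
  toFun p := mk4 z p.2.2.2 p.2.2.1 p.2.1 p.1
  invFun b := (b (sib (opp z)), b (opp z), b (sib z), b z)
  left_inv p := by simp
  right_inv b := by
    funext y
    revert y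
    rw [forall_four z]
    simp

lemma MTools_sum4 {B : Type} [Fintype B] (z : Bool × Bool) (φ : (Bool × Bool → B) → ℝ) :
    ∑ b, φ b = ∑ b4, ∑ b3, ∑ b2, ∑ b1, φ (mk4 z b1 b2 b3 b4) := by
  rw [← Equiv.sum_comp (MTools_e4 B z)]
  simp only [Fintype.sum_prod_type]
  rfl

lemma MTools_Ex4 {B : Type} [Fintype B] (z : Bool × Bool) (p : Bool × Bool → B → ℝ)
    (φ : (Bool × Bool → B) → ℝ) :
    Ex (fun b : Bool × Bool → B => ∏ y, p y (b y)) φ =
      Ex (p (sib (opp z))) (fun b4 => Ex (p (opp z)) (fun b3 =>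
        Ex (p (sib z)) (fun b2 => Ex (p z) (fun b1 => φ (mk4 z b1 b2 b3 b4))))) := by
  unfold Ex
  rw [MTools_sum4 z]
  simp only [mul_sum]
  refine sum_congr rfl fun b4 _ => sum_congr rfl fun b3 _ => sum_congr rfl fun b2 _ =>
    sum_congr rfl fun b1 _ => ?_
  rw [prod_four z]
  simp only [mk4_self, mk4_sib, mk4_opp, mk4_sib_opp]
  ring

lemma Ex_m4 (k : Bool → Pt × Vo → Cr → ℝ) (φ : (Bool × Bool → (Pt × Vo) × Cr) → ℝ) :
    Ex (m4 k) φ = av (fun P => c4 k P φ) := by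
  have hc : ∀ P : Bool × Bool → Pt, c4 k P φ = ∑ y : Bool × Bool → Vo × Cr,
      (∏ z, cP (k z.1) (P z) (y z)) * φ (fun z => ((P z, (y z).1), (y z).2)) := fun P => rfl
  simp only [hc]
  unfold Ex av
  rw [← Equiv.sum_comp (MTools_split Pt Vo Cr), Fintype.sum_prod_type, sum_div]
  refine sum_congr rfl fun P _ => ?_
  rw [sum_div]
  refine sum_congr rfl fun y _ => ?_
  have h1 : m4 k (MTools_split Pt Vo Cr (P, y)) =
      (∏ z, cP (k z.1) (P z) (y z)) / Fintype.card (Bool × Bool → Pt) := by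
    unfold m4 mP cP
    rw [Fintype.card_fun, Nat.cast_pow, ← card_univ (α := Bool × Bool), ← prod_const, ← prod_div_distrib]
    refine prod_congr rfl fun z _ => ?_
    rw [Fintype.card_prod, Nat.cast_mul, div_div, mul_comm (Fintype.card Vo : ℝ)]
    rfl
  rw [h1, div_mul_eq_mul_div]
  rfl

lemma c4_eq (k : Bool → Pt × Vo → Cr → ℝ) (P : Bool × Bool → Pt) (z : Bool × Bool)
    (φ : (Bool × Bool → (Pt × Vo) × Cr) → ℝ) :
    c4 k P φ = c1 (k (!z.1)) (P (sib (opp z))) (fun b4 => c1 (k (!z.1)) (P (opp z)) (fun b3 =>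
      c1 (k z.1) (P (sib z)) (fun b2 => c1 (k z.1) (P z) (fun b1 => φ (mk4 z b1 b2 b3 b4))))) := by
  unfold c4 c1
  rw [MTools_Ex4 z (fun y => cP (k y.1) (P y))]
  refine Ex_congr fun b4 => Ex_congr fun b3 => Ex_congr fun b2 => Ex_congr fun b1 => ?_
  congr 1
  funext y
  revert y
  rw [forall_four z]
  simp

lemma Ex_m4_eq {O : Type} [Fintype O] (k : Bool → O → Cr → ℝ) (z : Bool × Bool)
    (φ : (Bool × Bool → O × Cr) → ℝ) :
    Ex (m4 k) φ = Ex (mP (k (!z.1))) (fun b4 => Ex (mP (k (!z.1))) (fun b3 =>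
      Ex (mP (k z.1)) (fun b2 => Ex (mP (k z.1)) (fun b1 => φ (mk4 z b1 b2 b3 b4))))) := by
  exact MTools_Ex4 z (fun y => mP (k y.1)) φ

lemma av_four {X : Type} [Fintype X] (z : Bool × Bool) (φ : (Bool × Bool → X) → ℝ) :
    av φ = av (fun x4 => av (fun x3 => av (fun x2 => av (fun x1 => φ (mk4 z x1 x2 x3 x4))))) := by
  rw [← av_equiv (MTools_e4 X z)]
  simp only [av_prod]
  rfl

section
variable {Ω T Pf LL RR : Type} [Fintype Ω] [Fintype T] [Fintype Pf] [Fintype LL] [Fintype RR]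
  [Nonempty T] [Nonempty Pf] [Nonempty Vo]
  {L : Bool → Ω → LL} {R : Bool → Ω → RR} {Y : Ω → Bool → T → (Pf × Vo) × Cr}
  {ρ : Ω → ℝ} {k : Bool → (T × Pf) × Vo → Cr → ℝ} {δ Tc θ : ℝ}

lemma GoodPost.tv1 (h : GoodPost L R Y ρ k δ Tc θ) (i : Bool) (φ : ((T × Pf) × Vo) × Cr → ℝ)
    (hφ : ∀ b, |φ b| ≤ 1) :
    |Ex ρ (fun ω => av (fun s => φ (mkB s (Y ω i s)))) - Ex (mP (k i)) φ| ≤ δ := by
  have hp : ∀ j, IsProb (mP (k j)) := fun j => isProb_mP (h.ker j)
  have h1 := h.tv (fun b => φ (b (i, false))) fun b => hφ _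
  rw [Ex_m4_eq k (i, false)] at h1
  simp only [av_four (X := T) (i, false), mk4_self, av_const, Ex_const (hp _)] at h1
  exact h1

/-- two blocks on opposite sides. -/
lemma GoodPost.tv2 (h : GoodPost L R Y ρ k δ Tc θ) (i : Bool)
    (φ : ((T × Pf) × Vo) × Cr → ((T × Pf) × Vo) × Cr → ℝ) (hφ : ∀ b b', |φ b b'| ≤ 1) :
    |Ex ρ (fun ω => av (fun s' => av (fun s => φ (mkB s (Y ω i s)) (mkB s' (Y ω (!i) s'))))) -
      Ex (mP (k (!i))) (fun b' => Ex (mP (k i)) (fun b => φ b b'))| ≤ δ := by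
  have hp : ∀ j, IsProb (mP (k j)) := fun j => isProb_mP (h.ker j)
  have h1 := h.tv (fun b => φ (b (i, false)) (b (opp (i, false)))) fun b => hφ _ _
  rw [Ex_m4_eq k (i, false)] at h1
  simp only [av_four (X := T) (i, false), mk4_self, mk4_opp, opp_fst, av_const,
    Ex_const (hp _)] at h1
  exact h1

/-- two blocks on the same side. -/
lemma GoodPost.tv2s (h : GoodPost L R Y ρ k δ Tc θ) (i : Bool)
    (φ φ' : ((T × Pf) × Vo) × Cr → ℝ) (hφ : ∀ b, |φ b| ≤ 1) (hφ' : ∀ b, |φ' b| ≤ 1) :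
    |Ex ρ (fun ω => av (fun s => φ (mkB s (Y ω i s))) * av (fun s => φ' (mkB s (Y ω i s)))) -
      Ex (mP (k i)) φ * Ex (mP (k i)) φ'| ≤ δ := by
  have hp : ∀ j, IsProb (mP (k j)) := fun j => isProb_mP (h.ker j)
  have h1 := h.tv (fun b => φ (b (i, false)) * φ' (b (sib (i, false)))) fun b => by
    rw [abs_mul]
    exact mul_le_one₀ (hφ _) (abs_nonneg _) (hφ' _)
  rw [Ex_m4_eq k (i, false)] at h1
  simp only [av_four (X := T) (i, false), mk4_self, mk4_sib, sib_fst, av_const,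
    Ex_const (hp _), av_mul_const, av_const_mul, Ex_mul_const, Ex_const_mul] at h1
  exact h1

end

/-- overlap of two densities close to a bounded one. -/
lemma overlap {X : Type} [Fintype X] (e : X ≃ X) (f φ : X → ℝ) (hf : ∀ x, 0 ≤ f x)
    (hφ : ∀ x, 0 ≤ φ x) {c : ℝ} (hc : ∀ x, φ x ≤ c) :
    av (fun x => φ x * φ (e x)) - 2 * c * av (fun x => |f x - φ x|) ≤
      av (fun x => f x * f (e x)) := by
  rcases isEmpty_or_nonempty X with hX | hX
  · simp [av]
  have hc0 : 0 ≤ c := (hφ (Classical.arbitrary X)).trans (hc _)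
  have h1 : ∀ x, φ x * φ (e x) - (c * |f x - φ x| + c * |f (e x) - φ (e x)|) ≤ f x * f (e x) := by
    intro x
    have a1 := hf x
    have a2 := hf (e x)
    have b1 := hφ x
    have b2 := hφ (e x)
    have c1 := hc x
    have c2 := hc (e x)
    have d1 : φ x - min (f x) (φ x) ≤ |f x - φ x| := by
      rcases le_total (f x) (φ x) with h | h
      · rw [min_eq_left h, abs_sub_comm]; exact le_abs_self _
      · rw [min_eq_right h, sub_self]; exact abs_nonneg _
    have d2 : φ (e x) - min (f (e x)) (φ (e x)) ≤ |f (e x) - φ (e x)| := by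
      rcases le_total (f (e x)) (φ (e x)) with h | h
      · rw [min_eq_left h, abs_sub_comm]; exact le_abs_self _
      · rw [min_eq_right h, sub_self]; exact abs_nonneg _
    have m1 : 0 ≤ min (f x) (φ x) := le_min a1 b1
    have m2 : 0 ≤ min (f (e x)) (φ (e x)) := le_min a2 b2
    have e1 : min (f x) (φ x) * min (f (e x)) (φ (e x)) ≤ f x * f (e x) :=
      mul_le_mul (min_le_left _ _) (min_le_left _ _) m2 a1
    have e2 : (φ x - min (f x) (φ x)) * φ (e x) ≤ |f x - φ x| * c :=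
      mul_le_mul d1 c2 b2 (abs_nonneg _)
    have e3 : min (f x) (φ x) * (φ (e x) - min (f (e x)) (φ (e x))) ≤ c * |f (e x) - φ (e x)| :=
      mul_le_mul ((min_le_right _ _).trans c1) d2 (sub_nonneg.2 (min_le_right _ _)) hc0
    linarith
  have h2 := av_mono h1
  rw [av_sub, av_add, av_const_mul, av_const_mul, av_equiv e (fun x => |f x - φ x|)] at h2
  linarith

lemma MTools_bil {X : Type} [Fintype X] [Nonempty X] (f g F : X → ℝ) (c0 c1 c2 c3 : ℝ)
    (h : ∀ x, F x = c0 + c1 * f x + c2 * g x + c3 * (f x * g x)) :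
    av F = c0 + c1 * av f + c2 * av g + c3 * av (fun x => f x * g x) := by
  rw [av_congr h, av_add, av_add, av_add, av_const, av_const_mul, av_const_mul, av_const_mul]

/-- the polynomial giving the four-cycle average. -/
def MTools_J (a b a' b' A B C D : ℝ) : ℝ :=
  (1 + a' * b' + (a + A * b') * b) + (a + a' * C + (a * a + A * C) * b) * b +
    ((1 + a' * b') * a' + (a + A * b') * D) * b' + ((a + a' * C) * a' + (a * a + A * C) * D) * B

lemma MTools_expand {X : Type} [Fintype X] [Nonempty X] (α β α' β' : X → ℝ) :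
    av (fun t => av (fun z => av (fun y => av (fun x =>
      (1 + α x * β z) * (1 + α y * β t) * ((1 + α' x * β' y) * (1 + α' z * β' t)))))) =
    MTools_J (av α) (av β) (av α') (av β') (av fun x => α x * α' x) (av fun x => β x * β' x)
      (av fun x => α x * β' x) (av fun x => β x * α' x) := by
  set a := av α
  set b := av β
  set a' := av α'
  set b' := av β'
  set A := av fun x => α x * α' x
  set C := av fun x => α x * β' x
  set D := av fun x => β x * α' x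
  have h1 : ∀ t z y, av (fun x =>
      (1 + α x * β z) * (1 + α y * β t) * ((1 + α' x * β' y) * (1 + α' z * β' t))) =
      (1 + α y * β t) * (1 + α' z * β' t) * (1 + a * β z + (a' + A * β z) * β' y) := by
    intro t z y
    rw [MTools_bil α α' _ ((1 + α y * β t) * (1 + α' z * β' t))
      ((1 + α y * β t) * (1 + α' z * β' t) * β z) ((1 + α y * β t) * (1 + α' z * β' t) * β' y)
      ((1 + α y * β t) * (1 + α' z * β' t) * β z * β' y) fun x => by ring]
    ring
  have h2 : ∀ t z, av (fun y =>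
      (1 + α y * β t) * (1 + α' z * β' t) * (1 + a * β z + (a' + A * β z) * β' y)) =
      (1 + α' z * β' t) * ((1 + a' * b' + (a + a' * C) * β t) +
        (a + A * b' + (a * a + A * C) * β t) * β z) := by
    intro t z
    rw [MTools_bil α β' _ ((1 + α' z * β' t) * (1 + a * β z))
      ((1 + α' z * β' t) * β t * (1 + a * β z)) ((1 + α' z * β' t) * (a' + A * β z))
      ((1 + α' z * β' t) * β t * (a' + A * β z)) fun x => by ring]
    ring
  have h3 : ∀ t, av (fun z => (1 + α' z * β' t) * ((1 + a' * b' + (a + a' * C) * β t) +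
        (a + A * b' + (a * a + A * C) * β t) * β z)) =
      (1 + a' * b' + (a + a' * C) * β t) + (a + A * b' + (a * a + A * C) * β t) * b +
        β' t * (1 + a' * b' + (a + a' * C) * β t) * a' +
        β' t * (a + A * b' + (a * a + A * C) * β t) * D := by
    intro t
    exact MTools_bil β α' _ _ _ _ _ fun x => by ring
  simp only [h1, h2, h3]
  exact MTools_bil β β' _ _ _ _ _ fun x => by ring

lemma MTools_abs_mul {x y e : ℝ} (hx : |x| ≤ e) (hy : |y| ≤ 1) : |x * y| ≤ e := by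
  rw [abs_mul]
  exact (mul_le_of_le_one_right (abs_nonneg _) hy).trans hx

lemma MTools_mul_abs {x y e : ℝ} (hx : |x| ≤ 1) (hy : |y| ≤ e) : |x * y| ≤ e := by
  rw [mul_comm]
  exact MTools_abs_mul hy hx

lemma MTools_J1 {a b a' b' A B C D e : ℝ} (he : e ≤ 1) (ha : |a| ≤ e) (hb : |b| ≤ e)
    (ha' : |a'| ≤ e) (hb' : |b'| ≤ e) (hA : |A| ≤ 1) (hB : |B| ≤ 1) (hC : |C| ≤ 1) (hD : |D| ≤ 1)
    (h : -1 / 4 ≤ A * D * (B * C)) : 3 / 4 - 14 * e ≤ MTools_J a b a' b' A B C D := by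
  have ga := ha.trans he
  have gb := hb.trans he
  have ga' := ha'.trans he
  have gb' := hb'.trans he
  have t1 := (abs_le.1 (MTools_abs_mul ha' gb')).1
  have t2 := (abs_le.1 (MTools_abs_mul ha gb)).1
  have t3 := (abs_le.1 (MTools_abs_mul (MTools_mul_abs hA hb') gb)).1
  have t4 := (abs_le.1 (MTools_abs_mul (MTools_abs_mul ha' hC) gb)).1
  have t5 := (abs_le.1 (MTools_abs_mul (MTools_abs_mul (MTools_abs_mul ha ga) gb) gb)).1
  have t6 := (abs_le.1 (MTools_abs_mul (MTools_mul_abs (MTools_abs_mul hA hC) hb) gb)).1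
  have t7 := (abs_le.1 (MTools_abs_mul (MTools_abs_mul (MTools_abs_mul ha' gb') ga') gb')).1
  have t8 := (abs_le.1 (MTools_abs_mul (MTools_abs_mul ha hD) gb')).1
  have t9 := (abs_le.1 (MTools_abs_mul (MTools_abs_mul (MTools_mul_abs hA hb') hD) gb')).1
  have t10 := (abs_le.1 (MTools_abs_mul (MTools_abs_mul ha ga') hB)).1
  have t11 := (abs_le.1 (MTools_abs_mul (MTools_abs_mul (MTools_abs_mul ha' hC) ga') hB)).1
  have t12 := (abs_le.1 (MTools_abs_mul (MTools_abs_mul (MTools_abs_mul ha ga) hD) hB)).1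
  have e1 : MTools_J a b a' b' A B C D = 1 + 2 * (a' * b') + 2 * (a * b) + A * b' * b + a' * C * b +
      a * a * b * b + A * C * b * b + a' * b' * a' * b' + a * D * b' + A * b' * D * b' +
      a * a' * B + a' * C * a' * B + a * a * D * B + A * D * (B * C) := by
    unfold MTools_J
    ring
  linarith

lemma MTools_abs_av {X : Type} [Fintype X] {f g : X → ℝ} (hf : ∀ x, |f x| ≤ 1)
    (hg : ∀ x, |g x| ≤ 1) : |av fun x => f x * g x| ≤ 1 :=
  abs_av_le_const zero_le_one fun x => MTools_abs_mul (hf x) (hg x)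

lemma MTools_pair {X : Type} [Fintype X] (α β γ : X → ℝ) (hγ : ∀ x, |γ x| ≤ 1) :
    -(av fun x => (α x - β x) ^ 2) / 4 ≤ (av fun x => α x * γ x) * (av fun x => β x * γ x) ∧
      (av fun x => α x * γ x) * (av fun x => β x * γ x) ≤ (av fun x => (α x + β x) ^ 2) / 4 := by
  have h0 : av (fun x => γ x ^ 2) ≤ 1 := av_le_const zero_le_one fun x => by
    have := hγ x
    rw [← sq_abs]
    exact pow_le_one₀ (abs_nonneg _) this
  have h1 := av_mul_sq_le (fun x => α x - β x) γ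
  have h2 := av_mul_sq_le (fun x => α x + β x) γ
  have h3 : av (fun x => (α x - β x) * γ x) =
      (av fun x => α x * γ x) - (av fun x => β x * γ x) := by
    rw [← av_sub]
    exact av_congr fun x => by ring
  have h4 : av (fun x => (α x + β x) * γ x) =
      (av fun x => α x * γ x) + (av fun x => β x * γ x) := by
    rw [← av_add]
    exact av_congr fun x => by ring
  have h5 := mul_le_of_le_one_right (av_nonneg fun x => sq_nonneg (α x - β x)) h0
  have h6 := mul_le_of_le_one_right (av_nonneg fun x => sq_nonneg (α x + β x)) h0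
  rw [h3] at h1
  rw [h4] at h2
  constructor
  · nlinarith [sq_nonneg ((av fun x => α x * γ x) + (av fun x => β x * γ x))]
  · nlinarith [sq_nonneg ((av fun x => α x * γ x) - (av fun x => β x * γ x))]

lemma MTools_quad {u v U V : ℝ} (hU : 0 ≤ U) (hV : 0 ≤ V) (hUV : U + V ≤ 4) (h1 : -U / 4 ≤ u)
    (h2 : u ≤ V / 4) (h3 : -U / 4 ≤ v) (h4 : v ≤ V / 4) : -1 / 4 ≤ u * v := by
  have h5 : U * V ≤ 4 := by nlinarith [sq_nonneg (U - V)]
  rcases le_total 0 u with hu | hu <;> rcases le_total 0 v with hv | hv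
  · nlinarith [mul_nonneg hu hv]
  · nlinarith [mul_nonneg hu (sub_nonneg.2 h3), mul_nonneg hU (sub_nonneg.2 h2)]
  · nlinarith [mul_nonneg hv (sub_nonneg.2 h1), mul_nonneg hU (sub_nonneg.2 h4)]
  · nlinarith [mul_nonneg_of_nonpos_of_nonpos hu hv]

lemma MTools_full {X : Type} [Fintype X] {α β α' β' : X → ℝ} (hα : ∀ x, |α x| ≤ 1)
    (hβ : ∀ x, |β x| ≤ 1) (hα' : ∀ x, |α' x| ≤ 1) (hβ' : ∀ x, |β' x| ≤ 1) :
    -1 / 4 ≤ (av fun x => α x * α' x) * (av fun x => β x * α' x) *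
      ((av fun x => β x * β' x) * (av fun x => α x * β' x)) := by
  have h1 := MTools_pair α β α' hα'
  have h2 := MTools_pair α β β' hβ'
  rw [mul_comm (av fun x => β x * β' x)]
  refine MTools_quad (av_nonneg fun x => sq_nonneg _) (av_nonneg fun x => sq_nonneg _) ?_
    h1.1 h1.2 h2.1 h2.2
  rw [← av_add]
  refine av_le_const (by norm_num) fun x => ?_
  have a1 := abs_le.1 (hα x)
  have a2 := abs_le.1 (hβ x)
  nlinarith

lemma MTools_trunc {a1 a2 a3 a4 g1 g2 g3 g4 : ℝ} (ha1 : 0 ≤ a1) (ha2 : 0 ≤ a2) (ha3 : 0 ≤ a3)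
    (ha4 : 0 ≤ a4) (l1 : 0 ≤ g1) (l2 : 0 ≤ g2) (l3 : 0 ≤ g3) (l4 : 0 ≤ g4) (u1 : g1 ≤ 2)
    (u2 : g2 ≤ 2) (u3 : g3 ≤ 2) (u4 : g4 ≤ 2) :
    g1 * g2 * (g3 * g4) - 8 * (max (g1 - a1) 0 + max (g2 - a2) 0 + max (g3 - a3) 0 +
      max (g4 - a4) 0) ≤ a1 * a2 * (a3 * a4) := by
  have key : ∀ a g : ℝ, 0 ≤ a → 0 ≤ g → g ≤ 2 → ∃ m, 0 ≤ m ∧ m ≤ a ∧ m ≤ 2 ∧
      g = m + max (g - a) 0 := fun a g ha hg hg2 => by
    rcases le_total a g with h | h
    · exact ⟨a, ha, le_rfl, h.trans hg2, by rw [max_eq_left (sub_nonneg.2 h)]; ring⟩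
    · exact ⟨g, hg, h, hg2, by rw [max_eq_right (sub_nonpos.2 h)]; ring⟩
  obtain ⟨m1, p1, q1, r1, s1⟩ := key a1 g1 ha1 l1 u1
  obtain ⟨m2, p2, q2, r2, s2⟩ := key a2 g2 ha2 l2 u2
  obtain ⟨m3, p3, q3, r3, s3⟩ := key a3 g3 ha3 l3 u3
  obtain ⟨m4, p4, q4, r4, s4⟩ := key a4 g4 ha4 l4 u4
  have d1 := le_max_right (g1 - a1) 0
  have d2 := le_max_right (g2 - a2) 0
  have d3 := le_max_right (g3 - a3) 0
  have d4 := le_max_right (g4 - a4) 0
  generalize max (g1 - a1) 0 = x1 at *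
  generalize max (g2 - a2) 0 = x2 at *
  generalize max (g3 - a3) 0 = x3 at *
  generalize max (g4 - a4) 0 = x4 at *
  have b3 : ∀ p q r : ℝ, 0 ≤ p → 0 ≤ q → 0 ≤ r → p ≤ 2 → q ≤ 2 → r ≤ 2 → p * q * r ≤ 8 :=
    fun p q r hp hq hr h1 h2 h3 => by
      have := mul_le_mul (mul_le_mul h1 h2 hq zero_le_two) h3 hr (by norm_num)
      linarith
  have e0 : m1 * m2 * (m3 * m4) ≤ a1 * a2 * (a3 * a4) :=
    mul_le_mul (mul_le_mul q1 q2 p2 ha1) (mul_le_mul q3 q4 p4 ha3) (mul_nonneg p3 p4)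
      (mul_nonneg ha1 ha2)
  have e1 := mul_le_mul_of_nonneg_left (b3 g2 g3 g4 l2 l3 l4 u2 u3 u4) d1
  have e2 := mul_le_mul_of_nonneg_left (b3 m1 g3 g4 p1 l3 l4 r1 u3 u4) d2
  have e3 := mul_le_mul_of_nonneg_left (b3 m1 m2 g4 p1 p2 l4 r1 r2 u4) d3
  have e4 := mul_le_mul_of_nonneg_left (b3 m1 m2 m3 p1 p2 p3 r1 r2 r3) d4
  have e5 : g1 * g2 * (g3 * g4) = m1 * m2 * (m3 * m4) + x1 * (g2 * g3 * g4) + x2 * (m1 * g3 * g4) +
      x3 * (m1 * m2 * g4) + x4 * (m1 * m2 * m3) := by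
    linear_combination (g2 * g3 * g4) * s1 + (m1 * g3 * g4) * s2 + (m1 * m2 * g4) * s3 +
      (m1 * m2 * m3) * s4
  linarith

lemma MTools_pt {X : Type} [Fintype X] [Nonempty X] (z1 z2 : X → X → ℝ) (h1 : ∀ x y, 0 ≤ z1 x y)
    (h2 : ∀ x y, 0 ≤ z2 x y) {c e : ℝ} (hc0 : 0 ≤ c) (hc : c ≤ 1) {α β α' β' : X → ℝ}
    (hα : ∀ x, |α x| ≤ 1) (hβ : ∀ x, |β x| ≤ 1) (hα' : ∀ x, |α' x| ≤ 1) (hβ' : ∀ x, |β' x| ≤ 1)
    (e1 : av (fun x => av (fun y => max (c * (1 + α x * β y) - z1 x y) 0)) ≤ e)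
    (e2 : av (fun x => av (fun y => max (c * (1 + α' x * β' y) - z2 x y) 0)) ≤ e) :
    c ^ 4 * MTools_J (av α) (av β) (av α') (av β') (av fun x => α x * α' x)
      (av fun x => β x * β' x) (av fun x => α x * β' x) (av fun x => β x * α' x) - 32 * e ≤
    av (fun Q : Bool × Bool → X =>
        z1 (Q (false, false)) (Q (true, false)) * z1 (Q (false, true)) (Q (true, true)) *
        (z2 (Q (false, false)) (Q (false, true)) * z2 (Q (true, false)) (Q (true, true)))) := by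
  have hg : ∀ u v : ℝ, |u| ≤ 1 → |v| ≤ 1 → 0 ≤ c * (1 + u * v) ∧ c * (1 + u * v) ≤ 2 := by
    intro u v hu hv
    have := abs_le.1 (MTools_abs_mul hu hv)
    exact ⟨mul_nonneg hc0 (by linarith), by nlinarith⟩
  have h3 : av (fun Q : Bool × Bool → X =>
        z1 (Q (false, false)) (Q (true, false)) * z1 (Q (false, true)) (Q (true, true)) *
        (z2 (Q (false, false)) (Q (false, true)) * z2 (Q (true, false)) (Q (true, true)))) =
      av (fun t => av (fun z => av (fun y => av (fun x =>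
        z1 x z * z1 y t * (z2 x y * z2 z t))))) := av_four (false, false) _
  have h4 : av (fun t => av (fun z => av (fun y => av (fun x =>
      c ^ 4 * ((1 + α x * β z) * (1 + α y * β t) * ((1 + α' x * β' y) * (1 + α' z * β' t))) -
        8 * (max (c * (1 + α x * β z) - z1 x z) 0 + max (c * (1 + α y * β t) - z1 y t) 0 +
          max (c * (1 + α' x * β' y) - z2 x y) 0 + max (c * (1 + α' z * β' t) - z2 z t) 0))))) ≤
      av (fun t => av (fun z => av (fun y => av (fun x =>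
        z1 x z * z1 y t * (z2 x y * z2 z t))))) := by
    refine av_mono fun t => av_mono fun z => av_mono fun y => av_mono fun x => ?_
    refine le_trans (le_of_eq ?_) (MTools_trunc (h1 x z) (h1 y t) (h2 x y) (h2 z t)
      (hg _ _ (hα x) (hβ z)).1 (hg _ _ (hα y) (hβ t)).1 (hg _ _ (hα' x) (hβ' y)).1
      (hg _ _ (hα' z) (hβ' t)).1 (hg _ _ (hα x) (hβ z)).2 (hg _ _ (hα y) (hβ t)).2
      (hg _ _ (hα' x) (hβ' y)).2 (hg _ _ (hα' z) (hβ' t)).2)
    ring
  simp only [av_sub, av_add, av_const_mul, av_const] at h4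
  rw [MTools_expand] at h4
  rw [av_comm] at e1 e2
  rw [h3]
  linarith

lemma MTools_sq {ι X : Type} [Fintype ι] [Fintype X] [Nonempty X] {P : ι → ℝ} (hP : IsProb P)
    (S : ι → Prop) (γ : ι → X → ℝ) {e : ℝ} (he : e ≤ 1) (h : ∀ w, S w → |av (γ w)| ≤ e) :
    (Pr P S * (1 - e)) ^ 2 ≤ Ex P (fun w => Ex P (fun w' => ind (S w) * ind (S w') *
      (1 + av (γ w) + av (γ w') + av (fun x => γ w x * γ w' x)))) := by
  have h1 : ∀ w w', ind (S w) * ind (S w') *
      (1 + av (γ w) + av (γ w') + av (fun x => γ w x * γ w' x)) =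
      av (fun x => (ind (S w) * (1 + γ w x)) * (ind (S w') * (1 + γ w' x))) := by
    intro w w'
    rw [MTools_bil (γ w) (γ w') (fun x => (ind (S w) * (1 + γ w x)) * (ind (S w') * (1 + γ w' x)))
      (ind (S w) * ind (S w')) (ind (S w) * ind (S w'))
      (ind (S w) * ind (S w')) (ind (S w) * ind (S w')) fun x => by ring]
    ring
  simp only [h1, ← av_Ex, Ex_const_mul, Ex_mul_const]
  have h2 := av_sq_le (fun x => Ex P (fun w => ind (S w) * (1 + γ w x)))
  simp only [sq] at h2 ⊢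
  refine le_trans ?_ h2
  have h3 : Pr P S * (1 - e) ≤ av (fun x => Ex P (fun w => ind (S w) * (1 + γ w x))) := by
    rw [av_Ex, Pr, ← Ex_mul_const]
    refine Ex_mono hP.1 fun w => ?_
    rw [av_const_mul, av_add, av_const]
    by_cases hw : S w
    · have := (abs_le.1 (h w hw)).1
      exact mul_le_mul_of_nonneg_left (by linarith) (ind_nonneg _)
    · rw [ind_neg hw, zero_mul, zero_mul]
  have h4 : 0 ≤ Pr P S * (1 - e) := mul_nonneg (Pr_nonneg hP.1 _) (by linarith)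
  exact mul_le_mul h3 h3 h4 (h4.trans h3)

lemma MTools_fin {ι : Type} [Fintype ι] {P : ι → ℝ} (hP : IsProb P) (S Gd : ι → Prop)
    (hS : 1 / 4 ≤ Pr P S) (hSG : ∀ w, S w → Gd w) (I J : ι → ι → ℝ) (hI : ∀ w w', 0 ≤ I w w')
    {c e : ℝ} (hc0 : 0 ≤ c) (hc : c ≤ 1) (he0 : 0 ≤ e) (he : e ≤ 1 / 20)
    (hJ : ∀ w w', S w → S w' → c ^ 4 * J w w' - 32 * e ≤ I w w')
    (h : Pr P S ^ 2 * (3 / 4 - 14 * e) ≤
      Ex P (fun w => Ex P (fun w' => ind (S w) * ind (S w') * J w w'))) :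
    3 * c ^ 4 / 64 - 33 * e ≤
      Ex P (fun w => Ex P (fun w' => ind (Gd w) * ind (Gd w') * I w w')) := by
  have h1 : Ex P (fun w => Ex P (fun w' => c ^ 4 * (ind (S w) * ind (S w') * J w w') - 32 * e)) ≤
      Ex P (fun w => Ex P (fun w' => ind (Gd w) * ind (Gd w') * I w w')) := by
    refine Ex_mono hP.1 fun w => Ex_mono hP.1 fun w' => ?_
    have h0 : 0 ≤ ind (Gd w) * ind (Gd w') * I w w' :=
      mul_nonneg (mul_nonneg (ind_nonneg _) (ind_nonneg _)) (hI w w')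
    by_cases hw : S w
    · by_cases hw' : S w'
      · rw [ind_pos hw, ind_pos hw', ind_pos (hSG w hw), ind_pos (hSG w' hw')]
        have := hJ w w' hw hw'
        linarith
      · rw [ind_neg hw']
        linarith
    · rw [ind_neg hw]
      linarith
  simp only [Ex_sub, Ex_const hP, Ex_const_mul (c := c ^ 4)] at h1
  have h2 : 0 ≤ c ^ 4 := by positivity
  have h3 : c ^ 4 ≤ 1 := pow_le_one₀ hc0 hc
  have h4 : 1 / 16 ≤ Pr P S ^ 2 := by nlinarith
  have h5 : 1 / 16 * (3 / 4 - 14 * e) ≤ Pr P S ^ 2 * (3 / 4 - 14 * e) :=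
    mul_le_mul_of_nonneg_right h4 (by linarith)
  have h6 := mul_le_mul_of_nonneg_left (h5.trans h) h2
  have h7 := mul_le_mul_of_nonneg_right h3 he0
  linarith

lemma MTools_fin2 {ι X : Type} [Fintype ι] [Fintype X] [Nonempty X] {P : ι → ℝ} (hP : IsProb P)
    (S : ι → Prop) (γ : ι → X → ℝ) (hγ : ∀ w, S w → ∀ x, |γ w x| ≤ 1) {e : ℝ} (he0 : 0 ≤ e)
    (he : e ≤ 1 / 20) (h : ∀ w, S w → |av (γ w)| ≤ e) (J : ι → ι → ℝ)
    (hJ : ∀ w w', S w → S w' → J w w' = (1 + av (γ w) + av (γ w') + av (fun x => γ w x * γ w' x)) *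
      ((1 + av (γ w)) * (1 + av (γ w')))) :
    Pr P S ^ 2 * (3 / 4 - 14 * e) ≤
      Ex P (fun w => Ex P (fun w' => ind (S w) * ind (S w') * J w w')) := by
  have h1 := MTools_sq hP S γ (by linarith) h
  have h2 : Ex P (fun w => Ex P (fun w' => (1 - e) ^ 2 * (ind (S w) * ind (S w') *
      (1 + av (γ w) + av (γ w') + av (fun x => γ w x * γ w' x))))) ≤
      Ex P (fun w => Ex P (fun w' => ind (S w) * ind (S w') * J w w')) := by
    refine Ex_mono hP.1 fun w => Ex_mono hP.1 fun w' => ?_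
    by_cases hw : S w
    · by_cases hw' : S w'
      · rw [ind_pos hw, ind_pos hw', hJ w w' hw hw']
        have a1 := (abs_le.1 (h w hw)).1
        have a2 := (abs_le.1 (h w' hw')).1
        have a3 : (1 - e) * (1 - e) ≤ (1 + av (γ w)) * (1 + av (γ w')) :=
          mul_le_mul (by linarith) (by linarith) (by linarith) (by linarith)
        have a4 : 0 ≤ av (fun x => (1 + γ w x) * (1 + γ w' x)) := av_nonneg fun x =>
          mul_nonneg (by linarith [(abs_le.1 (hγ w hw x)).1])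
            (by linarith [(abs_le.1 (hγ w' hw' x)).1])
        rw [MTools_bil (γ w) (γ w') _ 1 1 1 1 fun x => by ring] at a4
        simp only [one_mul] at a4 ⊢
        have a5 := mul_le_mul_of_nonneg_left a3 a4
        linarith
      · rw [ind_neg hw']
        simp
    · rw [ind_neg hw]
      simp
  simp only [Ex_const_mul (c := (1 - e) ^ 2)] at h2
  have h3 := mul_le_mul_of_nonneg_left h1 (sq_nonneg (1 - e))
  have h4 : 3 / 4 - 14 * e ≤ (1 - e) ^ 2 * (1 - e) ^ 2 := by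
    have a1 : 1 - 2 * e ≤ (1 - e) ^ 2 := by nlinarith
    have a2 := mul_le_mul a1 a1 (by linarith) (sq_nonneg _)
    nlinarith
  have h5 := mul_le_mul_of_nonneg_left h4 (sq_nonneg (Pr P S))
  nlinarith

/-- the final inequality on the four-cycle. -/
theorem four_cycle {ι X : Type} [Fintype ι] [Fintype X] [Nonempty X] {P : ι → ℝ} (hP : IsProb P)
    (Gd : ι → Prop) (hGd : 3 / 4 ≤ Pr P Gd) (zz : ι → X → X → ℝ) (hz : ∀ w x y, 0 ≤ zz w x y)
    {c e : ℝ} (hc0 : 0 ≤ c) (hc : c ≤ 1) (he0 : 0 ≤ e) (he : e ≤ 1 / 20)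
    (h : ∀ w, Gd w → ∃ α β : X → ℝ, (∀ x, |α x| ≤ 1) ∧ (∀ x, |β x| ≤ 1) ∧
      ((|av α| ≤ e ∧ |av β| ≤ e) ∨ (|av α| ≤ e ∧ β = fun _ => 1) ∨ (α = (fun _ => 1) ∧ |av β| ≤ e)) ∧
      av (fun x => av (fun y => max (c * (1 + α x * β y) - zz w x y) 0)) ≤ e) :
    3 * c ^ 4 / 64 - 33 * e ≤ Ex P (fun w => Ex P (fun w' => ind (Gd w) * ind (Gd w') *
      av (fun Q : Bool × Bool → X =>
        zz w (Q (false, false)) (Q (true, false)) * zz w (Q (false, true)) (Q (true, true)) *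
        (zz w' (Q (false, false)) (Q (false, true)) * zz w' (Q (true, false)) (Q (true, true)))))) := by
  choose! α β hα hβ hty hm using h
  have hI : ∀ w w', 0 ≤ av (fun Q : Bool × Bool → X =>
      zz w (Q (false, false)) (Q (true, false)) * zz w (Q (false, true)) (Q (true, true)) *
        (zz w' (Q (false, false)) (Q (false, true)) * zz w' (Q (true, false)) (Q (true, true)))) :=
    fun w w' => av_nonneg fun Q =>
      mul_nonneg (mul_nonneg (hz _ _ _) (hz _ _ _)) (mul_nonneg (hz _ _ _) (hz _ _ _))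
  have hJ := fun w w' (hw : Gd w) (hw' : Gd w') => MTools_pt (zz w) (zz w') (hz w) (hz w') hc0 hc
    (hα w hw) (hβ w hw) (hα w' hw') (hβ w' hw') (hm w hw) (hm w' hw')
  have h1 : Pr P Gd ≤ Pr P (fun w => Gd w ∧ |av (α w)| ≤ e ∧ |av (β w)| ≤ e) +
      (Pr P (fun w => Gd w ∧ |av (α w)| ≤ e ∧ β w = fun _ => 1) +
        Pr P (fun w => Gd w ∧ α w = (fun _ => 1) ∧ |av (β w)| ≤ e)) := by
    refine le_trans ?_ (add_le_add_right (Pr_or_le hP.1 _ _) _)
    refine le_trans ?_ (Pr_or_le hP.1 _ _)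
    exact Pr_mono hP.1 fun w hw => by
      rcases hty w hw with h | h | h
      exacts [Or.inl ⟨hw, h⟩, Or.inr (Or.inl ⟨hw, h⟩), Or.inr (Or.inr ⟨hw, h⟩)]
  by_cases t1 : 1 / 4 ≤ Pr P (fun w => Gd w ∧ |av (α w)| ≤ e ∧ |av (β w)| ≤ e)
  · refine MTools_fin hP _ Gd t1 (fun w hw => hw.1) _ _ hI hc0 hc he0 he
      (fun w w' hw hw' => hJ w w' hw.1 hw'.1) ?_
    rw [sq, mul_assoc, Pr, ← Ex_mul_const]
    refine Ex_mono hP.1 fun w => ?_
    rw [← Ex_mul_const, ← Ex_const_mul]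
    refine Ex_mono hP.1 fun w' => ?_
    by_cases hw : Gd w ∧ |av (α w)| ≤ e ∧ |av (β w)| ≤ e
    · by_cases hw' : Gd w' ∧ |av (α w')| ≤ e ∧ |av (β w')| ≤ e
      · rw [ind_pos hw, ind_pos hw']
        have := MTools_J1 (by linarith) hw.2.1 hw.2.2 hw'.2.1 hw'.2.2
          (MTools_abs_av (hα w hw.1) (hα w' hw'.1)) (MTools_abs_av (hβ w hw.1) (hβ w' hw'.1))
          (MTools_abs_av (hα w hw.1) (hβ w' hw'.1)) (MTools_abs_av (hβ w hw.1) (hα w' hw'.1))
          (MTools_full (hα w hw.1) (hβ w hw.1) (hα w' hw'.1) (hβ w' hw'.1))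
        linarith
      · rw [ind_neg hw']
        simp
    · rw [ind_neg hw]
      simp
  by_cases t2 : 1 / 4 ≤ Pr P (fun w => Gd w ∧ |av (α w)| ≤ e ∧ β w = fun _ => 1)
  · refine MTools_fin hP _ Gd t2 (fun w hw => hw.1) _ _ hI hc0 hc he0 he
      (fun w w' hw hw' => hJ w w' hw.1 hw'.1) ?_
    refine MTools_fin2 hP _ α (fun w hw => hα w hw.1) he0 he (fun w hw => hw.2.1) _
      fun w w' hw hw' => ?_
    simp only [hw.2.2, hw'.2.2, av_const, mul_one, one_mul, MTools_J]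
    ring
  · have t3 : 1 / 4 ≤ Pr P (fun w => Gd w ∧ α w = (fun _ => 1) ∧ |av (β w)| ≤ e) := by
      linarith
    refine MTools_fin hP _ Gd t3 (fun w hw => hw.1) _ _ hI hc0 hc he0 he
      (fun w w' hw hw' => hJ w w' hw.1 hw'.1) ?_
    refine MTools_fin2 hP _ β (fun w hw => hβ w hw.1) he0 he (fun w hw => hw.2.2) _
      fun w w' hw hw' => ?_
    simp only [hw.2.1, hw'.2.1, av_const, mul_one, one_mul, MTools_J]
    ring

end

end Vale.Agent.P060
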