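import Vale.Agent.P060.Bil
import Vale.Agent.P060.AS
import Vale.Agent.P060.MTools

/-! P060: the construction. -/

namespace Vale.Agent.P060

open Finset Polynomial Vale.Agent.P056.Sharp

noncomputable section

open scoped Classical

/-- size parameters. -/
structure Par where
  N : ℕ
  S : ℕ
  k : ℕ
  ns : ℕ
  r : ℕ

def Par.j (p : Par) : ℕ := 2 * p.ns
def Par.J (p : Par) : ℕ := (2 * p.ns + 1) * p.k
def Par.J1 (p : Par) : ℕ := 2 * p.ns * p.k

/-- standing inequalities between the parameters. -/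
structure Par.Ok (p : Par) : Prop where
  hns : 5 ≤ p.ns
  hk : 20 * p.ns + 4 * p.r + 20 ≤ p.k
  heven : Even p.k
  hN : 3 ≤ p.N

/-- curves. -/
abbrev Cv (F : Type) [Field F] (p : Par) : Type := Fin p.N → Pol F p.k
/-- mixers. -/
abbrev Mx (F : Type) [Field F] (p : Par) : Type := Fin p.S → Pol F p.J1
abbrev Oi (p : Par) : Type := Option (Fin p.S)
abbrev Ei (p : Par) : Type := Option (Sym2 (Fin p.S))

variable {F : Type} [Field F] {p : Par}

/-- monomials `f(t) y^m` restricted to curves. -/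
def gen (F : Type) [Field F] (p : Par) (D : ℕ) : Set (Cv F p → F[X]) :=
  {G | ∃ (m : Multiset (Fin p.N)) (f : F[X]), Multiset.card m ≤ p.j ∧
    f.natDegree + Multiset.card m * p.k ≤ D ∧
    G = fun L => f * (m.map fun l => (L l : F[X])).prod}

/-- test functions of weighted degree at most `D`. -/
def GGs (F : Type) [Field F] (p : Par) (D : ℕ) : Submodule F (Cv F p → F[X]) :=
  Submodule.span F (gen F p D)

abbrev GG (F : Type) [Field F] (p : Par) : Type := GGs F p p.J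

lemma GGs_natDegree {D : ℕ} {G : Cv F p → F[X]} (hG : G ∈ GGs F p D) (L : Cv F p) :
    (G L).natDegree ≤ D := by
  induction hG using Submodule.span_induction with
  | mem G h =>
    obtain ⟨m, f, _, hD, rfl⟩ := h
    refine natDegree_mul_le.trans (le_trans (Nat.add_le_add_left ?_ _) hD)
    refine (natDegree_multiset_prod_le _).trans ?_
    rw [Multiset.map_map]
    have := Multiset.sum_le_card_nsmul (m.map (natDegree ∘ fun l => (L l : F[X]))) p.k (by
      intro x hx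
      obtain ⟨l, _, rfl⟩ := Multiset.mem_map.1 hx
      exact Pol.le (L l))
    simpa using this
  | zero => simp
  | add G G' _ _ h h' => exact (natDegree_add_le _ _).trans (max_le h h')
  | smul c G _ h => exact (natDegree_smul_le _ _).trans h

instance GG.fintype [Fintype F] : Fintype (GG F p) :=
  Fintype.ofInjective (fun G : GG F p => fun L => (Pol.mk (G.1 L) (GGs_natDegree G.2 L) : Pol F p.J))
    (fun G G' h => Subtype.ext (funext fun L => congrArg Subtype.val (congrFun h L)))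

abbrev Gh (F : Type) [Field F] (p : Par) : Type := Ei p → GG F p
/-- vertices: curve, mixer, test functions. -/
abbrev Vx (F : Type) [Field F] (p : Par) : Type := Cv F p × (Mx F p × Gh F p)
/-- ordered pairs of vertices. -/
abbrev Om (F : Type) [Field F] (p : Par) : Type := Bool → Vx F p

/-- the point of a curve above `s`. -/
def ptv (L : Cv F p) (s : F) : Fin p.N → F := fun l => (L l : F[X]).eval s
/-- the value of a mixer. -/
def mv (ψ : Mx F p) (s : F) : Fin p.S → F := fun a => (ψ a : F[X]).eval s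
/-- the mixer polynomials, extended by one. -/
def ph (ψ : Mx F p) : Oi p → F[X] := hat (fun a => (ψ a : F[X]))
/-- values of the test functions at the point of `L` above `s`. -/
def vals (γ : Gh F p) (L : Cv F p) (s : F) : Ei p → F := fun e => ((γ e).1 L).eval s
/-- sum of evaluations. -/
def eI (I : Finset F) : F[X] →ₗ[F] F := ∑ u ∈ I, leval u
/-- functionals that do not distinguish two curves. -/
def InU (L L' : Cv F p) (A : F[X] →ₗ[F] F) : Prop := ∀ G : GG F p, A (G.1 L) = A (G.1 L')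
/-- a functional applied to the extended mixer. -/
def uA (A : F[X] →ₗ[F] F) (ψ : Mx F p) : Oi p → F := fun o => A (ph ψ o)
/-- the form of `x` at the point of `y` above `s'`. -/
def TU (x y : Vx F p) (u : Oi p → F) (s s' : F) : F :=
  bil (vals x.2.2 y.1 s') u (hat (mv x.2.1 s))
def Phi (x y : Vx F p) (A : F[X] →ₗ[F] F) (s s' : F) : F :=
  TU x y (uA A x.2.1) s s' + TU y x (uA A y.2.1) s' s

lemma eval_ph (ψ : Mx F p) (s : F) (o : Oi p) : (ph ψ o).eval s = hat (mv ψ s) o := by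
  cases o <;> simp [ph, mv]

lemma eI_apply (I : Finset F) (f : F[X]) : eI I f = ∑ u ∈ I, f.eval u := by
  simp [eI, LinearMap.sum_apply, leval_apply]

lemma uA_leval (t : F) (ψ : Mx F p) : uA (leval t) ψ = hat (mv ψ t) := by
  funext o; simp [uA, leval_apply, eval_ph]

/-- the gcd of the differences of two curves. -/
def cg (L L' : Cv F p) : F[X] := univ.gcd (fun l => (L l : F[X]) - L' l)
/-- the contact at infinity. -/
def ce (L L' : Cv F p) : ℕ := p.k - univ.sup (fun l => ((L l : F[X]) - L' l).natDegree)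
def okc (L L' : Cv F p) : Prop := L ≠ L' ∧ (cg L L').natDegree + ce L L' ≤ p.r
/-- `A` kills the multiples of `h` of degree at most `D`. -/
def Perp (A : F[X] →ₗ[F] F) (h : F[X]) (D : ℕ) : Prop :=
  ∀ f : F[X], (h * f).natDegree ≤ D → A (h * f) = 0
/-- unforced contact. -/
def Unf (t t' : F) (c e : Cv F p) : Prop :=
  ¬ (c ≠ e ∧ ce c e = 0 ∧ cg c e ∣ (X - C t) * (X - C t'))

def posP (p : Par) (n : Fin (2 * p.k)) : ℕ := p.J1 - 1 - 2 * n
def posT (p : Par) (n : Fin (2 * p.k)) : ℕ := 2 * p.J1 + 1 + 2 * n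

/-- typical mixers. -/
structure Typ (ψ : Mx F p) : Prop where
  t1 : ∀ c : Fin p.S → F, (∀ n, (∑ a, C (c a) * (ψ a : F[X])).coeff (posP p n) = 0) → c = 0
  top : ∃ a, (ψ a : F[X]).coeff p.J1 ≠ 0
  t2 : ∀ h : F[X], h.Monic → h.natDegree ≤ p.r + 2 → ∀ A : F[X] →ₗ[F] F,
    (∀ f, A (h * f) = 0) → (∀ a, A (ψ a) = 0) → A = 0

def cv (ω : Om F p) : Bool → Cv F p := fun i => (ω i).1
def mx (ω : Om F p) : Bool → Mx F p := fun i => (ω i).2.1
def gs (ω : Om F p) : Bool → Gh F p := fun i => (ω i).2.2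
def rr (ω : Om F p) : Bool → Mx F p × Gh F p := fun i => (ω i).2
/-- transposed positions. -/
def tp {A : Type} (τ : Bool × Bool → A) : Bool × Bool → A := fun z => τ z.swap
def pts (L : Bool → Cv F p) (τ : Bool × Bool → F) : Bool × Bool → Fin p.N → F :=
  fun z => ptv (L z.1) (τ z)
def w4 (τ : Bool × Bool → F) : F[X] := ∏ z, (X - C (τ z))

/-- multiples of `w4 τ ^ j`. -/
def Kg (p : Par) (τ : Bool × Bool → F) : Submodule F (GG F p) where
  carrier := {G | ∃ G' ∈ GGs F p (p.J - 4 * p.j), G.1 = fun L => w4 τ ^ p.j * G' L}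
  add_mem' := by
    rintro a b ⟨G, hG, h⟩ ⟨G', hG', h'⟩
    exact ⟨G + G', add_mem hG hG', by funext L; simp [h, h', mul_add]⟩
  zero_mem' := ⟨0, zero_mem _, by funext L; simp⟩
  smul_mem' := by
    rintro c a ⟨G, hG, h⟩
    exact ⟨c • G, Submodule.smul_mem _ c hG, by funext L; simp [h]⟩

def Kj (p : Par) (τ : Bool × Bool → F) : AddSubgroup (Bool → Gh F p) where
  carrier := {γ | ∀ i e, γ i e ∈ Kg p τ}
  add_mem' := fun ha hb i e => add_mem (ha i e) (hb i e)
  zero_mem' := fun _ _ => zero_mem _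
  neg_mem' := fun ha i e => neg_mem (ha i e)

variable [Fintype F] [Algebra (ZMod 2) F]

/-- adjacency of the triangle-free graph. -/
def Adj (x y : Vx F p) : Prop :=
  ∃ I : Finset F, Odd I.card ∧ InU x.1 y.1 (eI I) ∧ ∀ s s', tr (Phi x y (eI I) s s') = 1

/-- regular pairs. -/
structure Reg (ω : Om F p) : Prop where
  typ : ∀ i, Typ (mx ω i)
  ok : okc (cv ω false) (cv ω true)
  nadj : ¬ Adj (ω false) (ω true)

/-- admissible laws on pairs. -/
structure Adm (ν : Om F p → ℝ) (M K : ℝ) : Prop where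
  prob : IsProb ν
  reg : ∀ ω, ν ω ≠ 0 → Reg ω
  marg : ∀ i a, Pr ν (fun ω => ω i = a) ≤ M / Fintype.card (Vx F p)
  dens : ∀ ω, ν ω ≤ K / (Fintype.card (Vx F p) : ℝ) ^ 2

/-- the two points of the other curve are not too likely given the curve `i`. -/
def G1 (ν : Om F p → ℝ) (B : ℝ) (L : Bool → Cv F p) (τ : Bool × Bool → F) (i : Bool) : Prop :=
  Pr ν (fun ω' => cv ω' i = L i ∧ ∀ k, pts (cv ω') τ (!i, k) = pts L τ (!i, k)) ≤
    B / (Fintype.card F : ℝ) ^ (2 * p.N) * Pr ν (fun ω' => cv ω' i = L i)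

/-- the jets are not too likely given curves and mixers. -/
def G2 (ν : Om F p → ℝ) (B : ℝ) (ω : Om F p) (τ : Bool × Bool → F) : Prop :=
  Pr ν (fun ω' => (cv ω', mx ω') = (cv ω, mx ω) ∧ gs ω' - gs ω ∈ Kj p τ) ≤
    B * ((Nat.card (Kj p τ) : ℝ) / Fintype.card (Bool → Gh F p)) *
      Pr ν (fun ω' => (cv ω', mx ω') = (cv ω, mx ω))

/-- the positions avoid the contact of the two curves. -/
def Avoid (L : Bool → Cv F p) (τ : Bool × Bool → F) : Prop :=
  ∀ z, (cg (L false) (L true)).eval (τ z) ≠ 0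

structure Good (ν : Om F p → ℝ) (B : ℝ) (ω : Om F p) (τ : Bool × Bool → F) : Prop where
  inj : Function.Injective τ
  avoid : Avoid (cv ω) τ
  g1 : ∀ i, G1 ν B (cv ω) τ i
  g2 : G2 ν B ω τ

/-! ### characters -/

abbrev Xi (F : Type) : Type := Bool × Bool → F × F → ZMod 2
def xT (ξ : Xi F) : Xi F := fun z u => ξ z.swap u.swap
/-- the functional `g ↦ ∑ f(s) g(s')` over the set `x`. -/
def BxL (x : F × F → ZMod 2) (f : F[X]) : F[X] →ₗ[F] F :=
  ∑ u : F × F, (algebraMap (ZMod 2) F (x u) * f.eval u.1) • leval u.2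
def Afun (ψ : Mx F p) (t : F) (x : F × F → ZMod 2) (e : Ei p) : F[X] →ₗ[F] F :=
  ∑ o, cof e (hat (mv ψ t)) (Pi.single o 1) • BxL x (ph ψ o)
def Th (ψ : Bool → Mx F p) (L : Bool → Cv F p) (τ : Bool × Bool → F) (ξ : Xi F) (i : Bool)
    (e : Ei p) (G : Cv F p → F[X]) : F :=
  ∑ k, Afun (ψ i) (τ (i, k)) (ξ (i, k)) e (G (L k))
def Nn (ψ : Bool → Mx F p) (L : Bool → Cv F p) (τ : Bool × Bool → F) (ξ : Xi F) : Prop :=
  ∀ i e, ∃ c : Bool × Bool → F, ∀ G : GG F p,
    Th ψ L τ ξ i e G.1 = ∑ z, c z * (G.1 (L z.2)).eval (τ z)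
def Loc (ψ : Bool → Mx F p) (L : Bool → Cv F p) (τ : Bool × Bool → F) (ξ : Xi F) (i : Bool)
    (e : Ei p) : Prop :=
  ∀ G : GG F p, G ∈ Kg p τ → Th ψ L τ ξ i e G.1 = 0
def phs (ω ω' : Om F p) (τ : Bool × Bool → F) (ξ : Xi F) : F :=
  ∑ z, ∑ u : F × F, algebraMap (ZMod 2) F (ξ z u) *
    TU (ω z.1) (ω' z.2) (hat (mv (mx ω z.1) (τ z))) u.1 u.2
def sg (ξ : Xi F) : ℝ := sgn (∑ z, ∑ u, ξ z u)
def Shared (ω ω' : Om F p) (τ : Bool × Bool → F) : Prop :=
  ∀ z, pts (cv ω) τ z = pts (cv ω') (tp τ) z.swap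

/-! ### blocks -/

abbrev Pt (F : Type) (p : Par) : Type := F × (Fin p.N → F)
abbrev Vo (F : Type) (p : Par) : Type := (Fin p.S → F) × (Ei p → F)
abbrev Cr (F : Type) (p : Par) : Type := Ei p → F
abbrev Blk (F : Type) (p : Par) : Type := (Pt F p × Vo F p) × Cr F p
abbrev Qv (F : Type) : Type := (ZMod 2 × ZMod 2 × ZMod 2) × F
abbrev Ix (F : Type) (p : Par) : Type := Bool → Oi p → F

def raw (ω : Om F p) (i : Bool) (s : F) : ((Fin p.N → F) × Vo F p) × Cr F p :=
  ((ptv (cv ω i) s, (mv (mx ω i) s, vals (gs ω i) (cv ω i) s)), vals (gs ω (!i)) (cv ω i) s)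
def blk (ω : Om F p) (i : Bool) (s : F) : Blk F p := mkB s (raw ω i s)
def b4 (ω : Om F p) (τ : Bool × Bool → F) : Bool × Bool → Blk F p := fun z => blk ω z.1 (τ z)
/-- the extended mixer value of a block. -/
def bh (b : Blk F p) : Oi p → F := hat b.1.2.1
def od (b : Bool × Bool → Blk F p) (z : Bool × Bool) : F := bil (b z).1.2.2 (bh (b z)) (bh (b z))
def om (b : Bool × Bool → Blk F p) (z : Bool × Bool) : F :=
  bil (b z).1.2.2 (bh (b z)) (bh (b (sib z)))
def cd (b : Bool × Bool → Blk F p) (z : Bool × Bool) : F := bil (b (opp z)).2 (bh (b z)) (bh (b z))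
def cm (b : Bool × Bool → Blk F p) (z : Bool × Bool) : F :=
  bil (b (opp z)).2 (bh (b z)) (bh (b (sib z)))
/-- the side vector. -/
def sv (b : Bool × Bool → Blk F p) (z : Bool × Bool) : Qv F :=
  ((tr (od b z), tr (om b z), tr (cd b z)), od b z + om b z + cd b z + cm b z)
def sharp (v : Qv F) : Qv F := ((v.1.1 + 1, v.1.2.2 + 1, v.1.2.1 + 1), v.2)
def PhiB (u : Ix F p) (i : Bool) (b b' : Blk F p) : F :=
  bil b'.2 (u i) (bh b) + bil b.2 (u (!i)) (bh b')
def Mt (ω : Om F p) : Finset (Ix F p) :=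
  univ.filter fun u => ∃ I : Finset F, InU (cv ω false) (cv ω true) (eI I) ∧
    u = fun i => uA (eI I) (mx ω i)
def ZB (M : Finset (Ix F p)) (b b' : Blk F p) : Prop := ∀ u ∈ M, tr (PhiB u false b b') = 0
def Z4 (M : Finset (Ix F p)) (b : Bool × Bool → Blk F p) : Prop :=
  ∀ k, ZB M (b (false, k)) (b (true, k))
def EE (ω ω' : Om F p) (τ : Bool × Bool → F) : Prop :=
  (∀ z : Bool × Bool, sv (b4 ω' (tp τ)) z.swap = sharp (sv (b4 ω τ) z)) ∧
    Z4 (Mt ω) (b4 ω τ) ∧ Z4 (Mt ω') (b4 ω' (tp τ))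

/-- the probability of the main event. -/
def mainP (ν : Om F p → ℝ) (B : ℝ) : ℝ :=
  av (fun τ : Bool × Bool → F => Ex ν (fun ω => Pr ν (fun ω' =>
    Good ν B ω τ ∧ Good ν B ω' (tp τ) ∧ Shared ω ω' τ ∧ EE ω ω' τ)))

/-! ### the record of a pair -/

/-- the polynomial vector `g_i|L_{!i} u_i`. -/
def GP (ω : Om F p) (u : Ix F p) (i : Bool) : Fin p.S → F[X] :=
  gv (fun e => (gs ω i e).1 (cv ω (!i))) (fun o => C (u i o))
def Rel (ω : Om F p) (u : Ix F p) (i : Bool) (Mm : Fin p.S → Oi p → F) : Prop :=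
  ∀ a, GP ω u i a = ∑ o, C (Mm a o) * ph (mx ω (!i)) o
/-- the additive part on side `i`. -/
def PP (ω : Om F p) (i : Bool) (m : Fin p.S → F) : F[X] :=
  (gs ω (!i) none).1 (cv ω i) + ∑ a, C (m a) * (mx ω i a : F[X])
abbrev Rt (F : Type) (p : Par) : Type :=
  Ix F p × Option (Bool × (Fin p.S → Oi p → F) × Option (ZMod 2))
def RecP (ω : Om F p) (x : Rt F p) : Prop :=
  x.1 ∈ Mt ω ∧ ∀ y, x.2 = some y → Rel ω x.1 y.1 y.2.1 ∧
    ∀ c, y.2.2 = some c → ∀ s, tr ((PP ω y.1 (fun a => y.2.1 a none)).eval s) = c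
def W0 (ω : Om F p) : Finset (Rt F p) := univ.filter (RecP ω)

/-- a good posterior for the concrete blocks. -/
abbrev GP0 (ρ : Om F p → ℝ) (k : Bool → Pt F p × Vo F p → Cr F p → ℝ) (δ Tc θ : ℝ) : Prop :=
  GoodPost (fun i ω => cv ω i) (fun i ω => rr ω i) raw ρ k δ Tc θ

/-- the model density of points and side vectors on the event `Z4`. -/
def Fw (k : Bool → Pt F p × Vo F p → Cr F p → ℝ) (M : Finset (Ix F p))
    (x : (Bool × Bool → Pt F p) × (Bool × Bool → Qv F)) : ℝ :=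
  (Fintype.card (Bool × Bool → Qv F) : ℝ) * c4 k x.1 (fun b => ind (sv b = x.2 ∧ Z4 M b))
/-- its average over everything except the bits `cd`. -/
def fw (k : Bool → Pt F p × Vo F p → Cr F p → ℝ) (M : Finset (Ix F p))
    (x : (Bool × Bool → Pt F p) × (Bool × Bool → Qv F)) : ℝ :=
  16 * c4 k x.1 (fun b => ind ((∀ z, (sv b z).1.2.2 = (x.2 z).1.2.2) ∧ Z4 M b))
/-- the model probability of `ZB` given the points. -/
def zw (k : Bool → Pt F p × Vo F p → Cr F p → ℝ) (M : Finset (Ix F p)) (x x' : Pt F p) : ℝ :=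
  c1 (k true) x' (fun b' => c1 (k false) x (fun b => ind (ZB M b b')))

end

end Vale.Agent.P060
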