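import Vale.Agent.P060.Cont

/-! P060: structure of the non-fresh characters along one edge. -/

namespace Vale.Agent.P060

open Finset Polynomial Vale.Agent.P056.Sharp

noncomputable section

open scoped Classical

variable {F : Type} [Field F] [Fintype F] [Algebra (ZMod 2) F] {p : Par}

omit [Fintype F] [Algebra (ZMod 2) F] in
lemma Edge_dual {V : Type} [AddCommGroup V] [Module F V] (W : Submodule F V) (a b c : V)
    (h : ∀ (x y z : F) (w : V), w ∈ W → x • a + y • b + z • c + w = 0 → x = 0) :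
    ∃ φ : V →ₗ[F] F, φ a = 1 ∧ φ b = 0 ∧ φ c = 0 ∧ ∀ w ∈ W, φ w = 0 := by
  have ha : a ∉ (W ⊔ Submodule.span F {b}) ⊔ Submodule.span F {c} := by
    intro ha
    obtain ⟨v, hv, c', hc', e1⟩ := Submodule.mem_sup.1 ha
    obtain ⟨w, hw, b', hb', rfl⟩ := Submodule.mem_sup.1 hv
    obtain ⟨y, rfl⟩ := Submodule.mem_span_singleton.1 hb'
    obtain ⟨z, rfl⟩ := Submodule.mem_span_singleton.1 hc'
    have := h (-1) y z w hw (by rw [← e1]; simp only [neg_smul, one_smul]; abel)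
    simp at this
  obtain ⟨f, hf, hf0⟩ := Submodule.exists_dual_map_eq_bot_of_notMem ha inferInstance
  have h0 : ∀ v ∈ (W ⊔ Submodule.span F {b}) ⊔ Submodule.span F {c}, f v = 0 := fun v hv => by
    have : f v ∈ Submodule.map f ((W ⊔ Submodule.span F {b}) ⊔ Submodule.span F {c}) :=
      Submodule.mem_map_of_mem hv
    rw [hf0] at this
    exact (Submodule.mem_bot F).1 this
  refine ⟨(f a)⁻¹ • f, ?_, ?_, ?_, fun w hw => ?_⟩
  · simp [hf]
  · simp [h0 b (Submodule.mem_sup_left (Submodule.mem_sup_right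
      (Submodule.mem_span_singleton_self b)))]
  · simp [h0 c (Submodule.mem_sup_right (Submodule.mem_span_singleton_self c))]
  · simp [h0 w (Submodule.mem_sup_left (Submodule.mem_sup_left hw))]

/-- the values on the extended mixer of the functionals in `U`. -/
def EdgeW (L L' : Cv F p) (ψ : Mx F p) : Submodule F (Oi p → F) where
  carrier := {v | ∃ A, InU L L' A ∧ v = uA A ψ}
  add_mem' := by
    rintro _ _ ⟨A, hA, rfl⟩ ⟨B, hB, rfl⟩
    exact ⟨A + B, fun G => by simp only [LinearMap.add_apply]; rw [hA G, hB G], rfl⟩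
  zero_mem' := ⟨0, fun _ => rfl, rfl⟩
  smul_mem' := by
    rintro c _ ⟨A, hA, rfl⟩
    exact ⟨c • A, fun G => by simp only [LinearMap.smul_apply]; rw [hA G], rfl⟩

omit [Fintype F] [Algebra (ZMod 2) F] in
lemma Edge_J1_le (L L' : Cv F p) : p.J1 ≤ p.J - ce L L' := by
  have := ce_le L L'
  unfold Par.J Par.J1
  rw [add_mul, one_mul]
  omega

omit [Fintype F] [Algebra (ZMod 2) F] in
lemma Edge_indep (hp : p.Ok) {ψ : Mx F p} (hψ : Typ ψ) {u us : F} (h1 : u ≠ us)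
    {La Lb : Cv F p} (hok : okc La Lb) (ha1 : (cg La Lb).eval u ≠ 0)
    (ha2 : (cg La Lb).eval us ≠ 0) {c0 c1 c2 : F} {w : Oi p → F} (hw : w ∈ EdgeW La Lb ψ)
    (h : c0 • (Pi.single none 1 : Oi p → F) + c1 • hat (mv ψ u) + c2 • hat (mv ψ us) + w = 0) :
    c0 = 0 ∧ c1 = 0 ∧ c2 = 0 := by
  obtain ⟨A, hA, rfl⟩ := hw
  have hP : Perp (c1 • leval u + c2 • leval us + A) (cg La Lb * ((X - C u) * (X - C us)))
      (p.J - ce La Lb) := by
    intro f hf
    have := ((inU_iff hp hok.1 A).1 hA).mono (Dvd.intro _ rfl :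
      cg La Lb ∣ cg La Lb * ((X - C u) * (X - C us))) le_rfl f hf
    simp [this, leval_apply]
  have hM : (cg La Lb * ((X - C u) * (X - C us))).Monic :=
    (cg_monic hok.1).mul ((monic_X_sub_C u).mul (monic_X_sub_C us))
  have hd : (cg La Lb * ((X - C u) * (X - C us))).natDegree ≤ p.r + 2 := by
    refine natDegree_mul_le.trans (Nat.add_le_add ?_ (natDegree_mul_le.trans ?_))
    · have := hok.2; omega
    · rw [natDegree_X_sub_C, natDegree_X_sub_C]
  have h0 := hψ.perp hM hd (Edge_J1_le La Lb) hP (fun a => by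
    have := congrFun h (some a)
    simpa [leval_apply, uA, ph, mv] using this)
  have h2 := evals_indep hp hok hA (c := -c1) (c' := -c2) h1 ha1 ha2 (fun f hf => by
    have := h0 f hf
    simp only [LinearMap.add_apply, LinearMap.smul_apply, leval_apply, smul_eq_mul] at this
    linear_combination this)
  have e1 : c1 = 0 := neg_eq_zero.1 h2.1
  have e2 : c2 = 0 := neg_eq_zero.1 h2.2
  refine ⟨?_, e1, e2⟩
  have h3 := h0 1 (by simp)
  have h4 := congrFun h none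
  simp [e1, e2, uA, ph] at h3 h4
  simpa [h3] using h4

omit [Fintype F] in
lemma Edge_bit {c : F} (h : c = 0 ∨ c = 1) : ∃ b : ZMod 2, c = algebraMap (ZMod 2) F b := by
  rcases h with rfl | rfl
  · exact ⟨0, by simp⟩
  · exact ⟨1, by simp⟩

omit [Fintype F] [Algebra (ZMod 2) F] in
lemma Edge_eI_bit {c : F} (h : c = 0 ∨ c = 1) (t : F) :
    ∃ I : Finset F, ∀ f : F[X], eI I f = c * f.eval t := by
  rcases h with rfl | rfl
  · exact ⟨∅, fun f => by simp [eI_apply]⟩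
  · exact ⟨{t}, fun f => by simp [eI_apply]⟩

lemma Edge_BxL_one (x : F × F → ZMod 2) : ∃ I : Finset F, ∀ f : F[X], BxL x 1 f = eI I f := by
  refine ⟨univ.filter fun s' => ∑ s, x (s, s') = 1, fun f => ?_⟩
  rw [BxL_apply, eI_apply, Fintype.sum_prod_type_right, sum_filter]
  refine sum_congr rfl fun s' _ => ?_
  simp only [eval_one, mul_one]
  rw [← sum_mul, ← map_sum]
  rcases zmod2_cases (∑ s, x (s, s')) with h | h <;> simp [h]

/-- the `none` row. -/
lemma Edge_none (hp : p.Ok) {u uo : F} (h2 : u ≠ uo) {Lc Ld : Cv F p} (hok' : okc Lc Ld)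
    (hc1 : (cg Lc Ld).eval u ≠ 0) (hc2 : (cg Lc Ld).eval uo ≠ 0) (x : F × F → ZMod 2)
    {η2 : F[X] →ₗ[F] F} (hη2 : InU Lc Ld η2) {c c' : F}
    (hl : ∀ f : F[X], f.natDegree ≤ p.J → BxL x 1 f = c * f.eval u + c' * f.eval uo + η2 f) :
    (c = 0 ∨ c = 1) ∧ (c' = 0 ∨ c' = 1) ∧
      ∃ I : Finset F, ∀ f : F[X], f.natDegree ≤ p.J → η2 f = eI I f := by
  have := charP_two (F := F)
  obtain ⟨I0, hI0⟩ := Edge_BxL_one x
  have b1 : c = 0 ∨ c = 1 := coef_bit hp hok' hη2 h2 hc1 I0 (c' := c')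
    (fun f hf => by rw [← hI0, hl f hf])
  have b2 : c' = 0 ∨ c' = 1 := coef_bit hp hok' hη2 h2.symm hc2 I0 (c' := c)
    (fun f hf => by rw [← hI0, hl f hf]; ring)
  refine ⟨b1, b2, ?_⟩
  obtain ⟨I1, hI1⟩ := Edge_eI_bit b1 u
  obtain ⟨I2, hI2⟩ := Edge_eI_bit b2 uo
  refine ⟨symmDiff (symmDiff I0 I1) I2, fun f hf => ?_⟩
  rw [eI_symmDiff, eI_symmDiff]
  simp only [LinearMap.add_apply]
  rw [← hI0, hl f hf, hI1, hI2]
  linear_combination (-1 : F) * CharTwo.add_self_eq_zero (c * f.eval u) -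
    CharTwo.add_self_eq_zero (c' * f.eval uo)

theorem edge_struct (hp : p.Ok) {ψ ψ' : Mx F p} (hψ : Typ ψ) (hψ' : Typ ψ') {u us uo : F}
    (h1 : u ≠ us) (h2 : u ≠ uo) {La Lb Lc Ld : Cv F p} (hok : okc La Lb) (hok' : okc Lc Ld)
    (ha1 : (cg La Lb).eval u ≠ 0) (ha2 : (cg La Lb).eval us ≠ 0)
    (hc1 : (cg Lc Ld).eval u ≠ 0) (hc2 : (cg Lc Ld).eval uo ≠ 0) (x : F × F → ZMod 2)
    {η2 η1 ζ2 ζ1 : F[X] →ₗ[F] F} (hη2 : InU Lc Ld η2) (hη1 : InU Lc Ld η1)
    (hζ2 : InU La Lb ζ2) (hζ1 : InU La Lb ζ1) {l l' m m' : Oi p → F}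
    (hl : ∀ (o : Oi p) (f : F[X]), f.natDegree ≤ p.J → BxL x (ph ψ o) f =
      l o * f.eval u + l' o * f.eval uo + o.elim (η2 f) (fun a => mv ψ us a * η1 f))
    (hm : ∀ (o : Oi p) (f : F[X]), f.natDegree ≤ p.J → BxL (fun z => x z.swap) (ph ψ' o) f =
      m o * f.eval u + m' o * f.eval us + o.elim (ζ2 f) (fun a => mv ψ' uo a * ζ1 f)) :
    ∃ (θ : F) (b1 b2 b3 b4 : ZMod 2) (I I' : Finset F),
      (∀ f : F[X], f.natDegree ≤ p.J → ζ2 f = eI I f) ∧
      (∀ f : F[X], f.natDegree ≤ p.J → η2 f = eI I' f) ∧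
      l = (θ + algebraMap (ZMod 2) F b1) • hat (mv ψ u) +
        (θ + algebraMap (ZMod 2) F b2) • hat (mv ψ us) ∧
      l' = (θ + algebraMap (ZMod 2) F b3) • hat (mv ψ u) +
        (θ + algebraMap (ZMod 2) F b4) • hat (mv ψ us) + uA ζ2 ψ ∧
      m = (θ + algebraMap (ZMod 2) F b1) • hat (mv ψ' u) +
        (θ + algebraMap (ZMod 2) F b3) • hat (mv ψ' uo) ∧
      m' = (θ + algebraMap (ZMod 2) F b2) • hat (mv ψ' u) +
        (θ + algebraMap (ZMod 2) F b4) • hat (mv ψ' uo) + uA η2 ψ' ∧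
      algebraMap (ZMod 2) F (∑ z, x z) =
        algebraMap (ZMod 2) F (b1 + b2 + b3 + b4) + ζ2 1 + η2 1 := by
  have := charP_two (F := F)
  have hJ : p.J1 ≤ p.J := (Edge_J1_le La Lb).trans (Nat.sub_le _ _)
  set e0 : Oi p → F := Pi.single none 1 with he0
  set pu := hat (mv ψ u) with hpu
  set ps := hat (mv ψ us) with hps
  set qu := hat (mv ψ' u) with hqu
  set qo := hat (mv ψ' uo) with hqo
  set z1 := uA ζ1 ψ with hz1
  set z2 := uA ζ2 ψ with hz2
  set y1 := uA η1 ψ' with hy1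
  set y2 := uA η2 ψ' with hy2
  have comp : ∀ o o', l o * qu o' + l' o * qo o' + (e0 o * (y2 o' - y1 o') + ps o * y1 o') =
      m o' * pu o + m' o' * ps o + (e0 o' * (z2 o - z1 o) + qo o' * z1 o) := by
    intro o o'
    have e1 := hl o (ph ψ' o') ((natDegree_ph _ _).trans hJ)
    have e2 := hm o' (ph ψ o) ((natDegree_ph _ _).trans hJ)
    rw [BxL_swap, e1] at e2
    simp only [eval_ph] at e2
    have e3 : o.elim (η2 (ph ψ' o')) (fun a => mv ψ us a * η1 (ph ψ' o')) =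
        e0 o * (y2 o' - y1 o') + ps o * y1 o' := by
      cases o <;> simp [he0, hps, hy1, hy2, uA]
    have e4 : o'.elim (ζ2 (ph ψ o)) (fun a => mv ψ' uo a * ζ1 (ph ψ o)) =
        e0 o' * (z2 o - z1 o) + qo o' * z1 o := by
      cases o' <;> simp [he0, hqo, hz1, hz2, uA]
    rw [e3, e4] at e2
    exact e2
  have hy1W : y1 ∈ EdgeW Lc Ld ψ' := ⟨η1, hη1, rfl⟩
  have hy2W : y2 ∈ EdgeW Lc Ld ψ' := ⟨η2, hη2, rfl⟩
  have hz1W : z1 ∈ EdgeW La Lb ψ := ⟨ζ1, hζ1, rfl⟩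
  have hz2W : z2 ∈ EdgeW La Lb ψ := ⟨ζ2, hζ2, rfl⟩
  have app : ∀ φ : (Oi p → F) →ₗ[F] F, (∀ w ∈ EdgeW Lc Ld ψ', φ w = 0) → ∀ o,
      l o * φ qu + l' o * φ qo = φ m * pu o + φ m' * ps o + (φ e0 * (z2 o - z1 o) + φ qo * z1 o) := by
    intro φ hφ o
    have e1 : l o • qu + l' o • qo + (e0 o • (y2 - y1) + ps o • y1) =
        pu o • m + ps o • m' + ((z2 o - z1 o) • e0 + z1 o • qo) := by
      funext o'
      simp only [Pi.add_apply, Pi.smul_apply, Pi.sub_apply, smul_eq_mul]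
      linear_combination comp o o'
    have e2 := congrArg φ e1
    simp only [map_add, map_smul, map_sub, smul_eq_mul, hφ _ hy1W, hφ _ hy2W] at e2
    linear_combination e2
  have ind' : ∀ {c0 c1 c2 : F} {w : Oi p → F}, w ∈ EdgeW Lc Ld ψ' →
      c0 • e0 + c1 • qu + c2 • qo + w = 0 → c0 = 0 ∧ c1 = 0 ∧ c2 = 0 :=
    fun hw h => Edge_indep hp hψ' h2 hok' hc1 hc2 hw h
  have ind : ∀ {c0 c1 c2 : F} {w : Oi p → F}, w ∈ EdgeW La Lb ψ →
      c0 • e0 + c1 • pu + c2 • ps + w = 0 → c0 = 0 ∧ c1 = 0 ∧ c2 = 0 :=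
    fun hw h => Edge_indep hp hψ h1 hok ha1 ha2 hw h
  obtain ⟨φ0, a0, a1, a2, a3⟩ := Edge_dual (EdgeW Lc Ld ψ') e0 qu qo
    (fun x y z w hw h => (ind' hw h).1)
  obtain ⟨φ1, b0, b1, b2, b3⟩ := Edge_dual (EdgeW Lc Ld ψ') qu e0 qo
    (fun x y z w hw h => (ind' (c0 := y) (c1 := x) (c2 := z) hw (by rw [← h]; abel)).2.1)
  obtain ⟨φ3, c0, c1, c2, c3⟩ := Edge_dual (EdgeW Lc Ld ψ') qo e0 qu
    (fun x y z w hw h => (ind' (c0 := y) (c1 := z) (c2 := x) hw (by rw [← h]; abel)).2.2)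
  have d0 := app φ0 a3
  have d1 := app φ1 b3
  have d3 := app φ3 c3
  simp only [a0, a1, a2, b0, b1, b2, c0, c1, c2, mul_zero, mul_one, zero_mul, one_mul, add_zero,
    zero_add] at d0 d1 d3
  have hz : ∀ o, z1 o = z2 o := by
    obtain ⟨-, f1, f2⟩ := ind (c0 := 0) (c1 := φ0 m) (c2 := φ0 m') (sub_mem hz2W hz1W) (by
      funext o
      simp only [Pi.add_apply, Pi.smul_apply, Pi.sub_apply, smul_eq_mul, Pi.zero_apply]
      linear_combination (-1 : F) * d0 o)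
    intro o
    have := d0 o
    rw [f1, f2] at this
    linear_combination this
  have g : ∀ o', y2 o' - y1 o' = 0 ∧ φ1 m * qu o' + φ3 m * qo o' - m o' = 0 ∧
      φ1 m' * qu o' + φ3 m' * qo o' + y1 o' - m' o' = 0 := fun o' =>
    ind (zero_mem _) (by
      funext o
      have := comp o o'
      rw [d1 o, d3 o, hz o] at this
      simp only [Pi.add_apply, Pi.smul_apply, smul_eq_mul, Pi.zero_apply]
      linear_combination this)
  obtain ⟨n1, n2, I', hI'⟩ := Edge_none hp h2 hok' hc1 hc2 x hη2 (c := l none) (c' := l' none)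
    (fun f hf => hl none f hf)
  obtain ⟨n3, -, I, hI⟩ := Edge_none hp h1 hok ha1 ha2 (fun z => x z.swap) hζ2 (c := m none)
    (c' := m' none) (fun f hf => hm none f hf)
  obtain ⟨β2, hβ2⟩ := Edge_bit n1
  obtain ⟨β, hβ⟩ := Edge_bit n2
  obtain ⟨β3, hβ3⟩ := Edge_bit n3
  have hζ : ζ2 1 = algebraMap (ZMod 2) F (I.card : ZMod 2) := by
    rw [hI 1 (by simp), eI_apply]; simp
  have two : (2 : F) = 0 := CharTwo.two_eq_zero
  have s1 : l none = φ1 m + φ1 m' := by simpa [hpu, hps] using d1 none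
  have s2 : l' none = φ3 m + φ3 m' + ζ2 1 := by
    have := d3 none
    rw [hz none] at this
    simpa [hpu, hps, hz2, uA, ph] using this
  have s3 : m none = φ1 m + φ3 m := by
    have := (g none).2.1
    simp only [hqu, hqo, hat_none, mul_one] at this
    linear_combination (-1 : F) * this
  have t2 : φ1 m + algebraMap (ZMod 2) F β2 = φ1 m' := by
    rw [← hβ2, s1]; linear_combination (φ1 m) * two
  have t3 : φ1 m + algebraMap (ZMod 2) F β3 = φ3 m := by
    rw [← hβ3, s3]; linear_combination (φ1 m) * two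
  have t4 : φ1 m + algebraMap (ZMod 2) F (β3 + β + I.card) = φ3 m' := by
    rw [map_add, map_add, ← hβ3, ← hβ, ← hζ, s3, s2]
    linear_combination (φ1 m + φ3 m + ζ2 1) * two
  refine ⟨φ1 m, 0, β2, β3, β3 + β + I.card, I, I', hI, hI', ?_, ?_, ?_, ?_, ?_⟩
  · rw [t2, map_zero, add_zero]
    funext o
    simp only [Pi.add_apply, Pi.smul_apply, smul_eq_mul]
    exact d1 o
  · rw [t3, t4]
    funext o
    simp only [Pi.add_apply, Pi.smul_apply, smul_eq_mul]
    rw [d3 o, hz o]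
  · rw [t3, map_zero, add_zero]
    funext o
    simp only [Pi.add_apply, Pi.smul_apply, smul_eq_mul]
    linear_combination (-1 : F) * (g o).2.1
  · rw [t2, t4]
    funext o
    simp only [Pi.add_apply, Pi.smul_apply, smul_eq_mul]
    linear_combination (-1 : F) * (g o).2.2 - (g o).1
  · have e1 := hl none 1 (by simp)
    have e2 : BxL x (ph ψ none) 1 = algebraMap (ZMod 2) F (∑ z, x z) := by
      rw [BxL_apply, map_sum]; simp [ph]
    rw [← e2, e1]
    simp only [eval_one, mul_one, Option.elim, map_add, map_zero, ← hβ2, ← hβ3, ← hβ, ← hζ]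
    linear_combination (-(m none) - ζ2 1) * two

end

end Vale.Agent.P060
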