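import Vale.Agent.P060.Base

/-! P060: finite entropy calculus. -/

namespace Vale.Agent.P060

open Finset Vale.Agent.P056.Sharp

noncomputable section

open scoped Classical

variable {Ω α β γ : Type*} [Fintype Ω] {ν : Ω → ℝ}

/-- the mass of the fibre of `X` through `ω`. -/
def pm (ν : Ω → ℝ) (X : Ω → α) (ω : Ω) : ℝ := Pr ν (fun ω' => X ω' = X ω)

/-- entropy. -/
def Hent (ν : Ω → ℝ) (X : Ω → α) : ℝ := Ex ν (fun ω => - Real.log (pm ν X ω))

/-- conditional entropy. -/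
def Hc (ν : Ω → ℝ) (X : Ω → α) (Y : Ω → β) : ℝ := Hent ν (fun ω => (X ω, Y ω)) - Hent ν Y

/-- the posterior law given the value of `Y` at `ω₀`. -/
def post (ν : Ω → ℝ) (Y : Ω → β) (ω₀ : Ω) : Ω → ℝ := fun ω => ν ω * ind (Y ω = Y ω₀) / pm ν Y ω₀

lemma le_pm (hν : IsProb ν) (X : Ω → α) (ω : Ω) : ν ω ≤ pm ν X ω := by
  unfold pm Pr Ex
  have := single_le_sum (f := fun ω' => ν ω' * ind (X ω' = X ω))
    (fun ω' _ => mul_nonneg (hν.1 ω') (ind_nonneg _)) (mem_univ ω)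
  rwa [ind_pos rfl, mul_one] at this

lemma pm_le_one (hν : IsProb ν) (X : Ω → α) (ω : Ω) : pm ν X ω ≤ 1 := by
  exact Pr_le_one hν _

lemma Ent_pm_pos (hν : IsProb ν) (X : Ω → α) {ω : Ω} (h : ν ω ≠ 0) : 0 < pm ν X ω :=
  (lt_of_le_of_ne (hν.1 ω) (Ne.symm h)).trans_le (le_pm hν X ω)

lemma Ent_pm_nonneg (hν : IsProb ν) (X : Ω → α) (ω : Ω) : 0 ≤ pm ν X ω := Pr_nonneg hν.1 _

lemma Ent_Ex_congr {f g : Ω → ℝ} (h : ∀ ω, ν ω ≠ 0 → f ω = g ω) : Ex ν f = Ex ν g :=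
  sum_congr rfl fun ω _ => by
    by_cases hω : ν ω = 0
    · rw [hω, zero_mul, zero_mul]
    · rw [h ω hω]

lemma Ent_Pr_congr {A B : Ω → Prop} (h : ∀ ω, A ω ↔ B ω) : Pr ν A = Pr ν B :=
  Ex_congr fun ω => ind_congr (h ω)

lemma Ent_exists_ne (hν : IsProb ν) : ∃ ω, ν ω ≠ 0 := by
  by_contra h
  push Not at h
  have := hν.2
  simp [h] at this

/-- an expectation as a sum over the values. -/
lemma Ent_Ex_fib (W : Ω → α) (T : Finset α) (hT : ∀ ω, ν ω ≠ 0 → W ω ∈ T) (B : Ω → Prop)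
    (g : α → ℝ) :
    Ex ν (fun ω => ind (B ω) * g (W ω)) = ∑ d ∈ T, Pr ν (fun ω => W ω = d ∧ B ω) * g d := by
  unfold Pr
  simp only [← Ex_mul_const]
  rw [← Ex_sum]
  refine Ent_Ex_congr fun ω hω => ?_
  rw [sum_eq_single (W ω) (fun d _ hd => by rw [ind_neg fun h => hd h.1.symm, zero_mul])
    fun h => absurd (hT ω hω) h]
  rw [ind_congr (and_iff_right rfl)]

lemma Ent_Ex_fib' (W : Ω → α) (T : Finset α) (hT : ∀ ω, ν ω ≠ 0 → W ω ∈ T) (g : α → ℝ) :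
    Ex ν (fun ω => g (W ω)) = ∑ d ∈ T, Pr ν (fun ω => W ω = d) * g d := by
  have := Ent_Ex_fib W T hT (fun _ => True) g
  simpa only [ind_pos trivial, one_mul, and_true] using this

lemma Ent_sum_Pr (W : Ω → α) (T : Finset α) (hT : ∀ ω, ν ω ≠ 0 → W ω ∈ T) (B : Ω → Prop) :
    ∑ d ∈ T, Pr ν (fun ω => W ω = d ∧ B ω) = Pr ν B := by
  have := Ent_Ex_fib W T hT B (fun _ => 1)
  simp only [mul_one] at this
  exact this.symm

lemma Ent_sum_Pr' (hν : IsProb ν) (W : Ω → α) (T : Finset α) (hT : ∀ ω, ν ω ≠ 0 → W ω ∈ T) :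
    ∑ d ∈ T, Pr ν (fun ω => W ω = d) = 1 := by
  have := Ent_Ex_fib' W T hT (fun _ => 1)
  simp only [mul_one, Ex_const hν] at this
  exact this.symm

lemma Ent_Ex_div_pm (W : Ω → α) (T : Finset α) (hT : ∀ ω, ν ω ≠ 0 → W ω ∈ T)
    (q : α → ℝ) (hq : ∀ d, 0 ≤ q d) : Ex ν (fun ω => q (W ω) / pm ν W ω) ≤ ∑ d ∈ T, q d := by
  refine (Ent_Ex_fib' W T hT fun d => q d / Pr ν (fun ω => W ω = d)).le.trans
    (sum_le_sum fun d _ => ?_)
  by_cases h : Pr ν (fun ω => W ω = d) = 0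
  · rw [h, zero_mul]
    exact hq d
  · rw [mul_div_cancel₀ _ h]

lemma Ent_gibbs (hν : IsProb ν) (W : Ω → α) (T : Finset α) (hT : ∀ ω, ν ω ≠ 0 → W ω ∈ T)
    (q : α → ℝ) (hq : ∀ d, 0 ≤ q d) (hq1 : ∑ d ∈ T, q d ≤ 1) (hpos : ∀ ω, ν ω ≠ 0 → 0 < q (W ω)) :
    Hent ν W ≤ Ex ν (fun ω => - Real.log (q (W ω))) := by
  have h1 := Ent_Ex_div_pm W T hT q hq
  have h2 : Hent ν W ≤ Ex ν (fun ω => - Real.log (q (W ω)) + (q (W ω) / pm ν W ω - 1)) := by
    refine Ex_mono' hν.1 fun ω hω => ?_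
    have h3 := Ent_pm_pos hν W hω
    have h4 := Real.log_le_sub_one_of_pos (div_pos (hpos ω hω) h3)
    rw [Real.log_div (hpos ω hω).ne' h3.ne'] at h4
    linarith
  rw [Ex_add, Ex_sub, Ex_const hν] at h2
  linarith

lemma Ent_Hc_eq (hν : IsProb ν) (X : Ω → α) (Y : Ω → β) :
    Hc ν X Y = Ex ν (fun ω => - Real.log (pm ν (fun ω => (X ω, Y ω)) ω / pm ν Y ω)) := by
  unfold Hc Hent
  rw [← Ex_sub]
  refine Ent_Ex_congr fun ω hω => ?_
  rw [Real.log_div (Ent_pm_pos hν _ hω).ne' (Ent_pm_pos hν _ hω).ne']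
  ring

lemma Ent_kernel (hν : IsProb ν) (X : Ω → α) (Y : Ω → β) (T : Finset α) (hT : ∀ ω, X ω ∈ T)
    (k : β → α → ℝ) (hk : ∀ b a, 0 ≤ k b a) (hk1 : ∀ b, ∑ a ∈ T, k b a ≤ 1)
    (hpos : ∀ ω, ν ω ≠ 0 → 0 < k (Y ω) (X ω)) :
    Hc ν X Y ≤ Ex ν (fun ω => - Real.log (k (Y ω) (X ω))) := by
  have h1 := Ent_gibbs hν (fun ω => (X ω, Y ω)) (T ×ˢ univ.image Y)
    (fun ω _ => mem_product.2 ⟨hT ω, mem_image_of_mem Y (mem_univ ω)⟩)
    (fun d => Pr ν (fun ω => Y ω = d.2) * k d.2 d.1)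
    (fun d => mul_nonneg (Pr_nonneg hν.1 _) (hk _ _)) ?_
    (fun ω hω => mul_pos (Ent_pm_pos hν Y hω) (hpos ω hω))
  · have h2 : Ex ν (fun ω => - Real.log (pm ν Y ω * k (Y ω) (X ω))) =
        Hent ν Y + Ex ν (fun ω => - Real.log (k (Y ω) (X ω))) := by
      unfold Hent
      rw [← Ex_add]
      refine Ent_Ex_congr fun ω hω => ?_
      rw [Real.log_mul (Ent_pm_pos hν Y hω).ne' (hpos ω hω).ne']
      ring
    have h3 := h1.trans h2.le
    unfold Hc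
    linarith
  · rw [sum_product_right,
      ← Ent_sum_Pr' hν Y (univ.image Y) fun ω _ => mem_image_of_mem Y (mem_univ ω)]
    refine sum_le_sum fun b _ => ?_
    dsimp only
    rw [← mul_sum]
    exact mul_le_of_le_one_right (Pr_nonneg hν.1 _) (hk1 b)

lemma Ent_sum_cond (X : Ω → α) (B : Ω → Prop) :
    ∑ a ∈ univ.image X, Pr ν (fun ω => X ω = a ∧ B ω) / Pr ν B ≤ 1 := by
  rw [← sum_div, Ent_sum_Pr X _ fun ω _ => mem_image_of_mem X (mem_univ ω)]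
  exact div_self_le_one _

lemma Ent_pm_pair (X : Ω → α) (Y : Ω → β) (ω : Ω) :
    pm ν (fun ω => (X ω, Y ω)) ω = Pr ν (fun ω' => X ω' = X ω ∧ Y ω' = Y ω) :=
  Ent_Pr_congr fun _ => Prod.mk_inj

lemma Hent_congr {X : Ω → α} {Y : Ω → β} (h : ∀ ω ω', X ω = X ω' ↔ Y ω = Y ω') :
    Hent ν X = Hent ν Y := by
  unfold Hent pm
  exact Ex_congr fun ω => by rw [Ent_Pr_congr fun ω' => h ω' ω]

lemma Hc_congr {δ : Type*} {X : Ω → α} {Y : Ω → β} {X' : Ω → γ} {Y' : Ω → δ}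
    (hY : ∀ ω ω', Y ω = Y ω' ↔ Y' ω = Y' ω')
    (hX : ∀ ω ω', Y ω = Y ω' → (X ω = X ω' ↔ X' ω = X' ω')) : Hc ν X Y = Hc ν X' Y' := by
  unfold Hc
  rw [Hent_congr hY, Hent_congr (Y := fun ω => (X' ω, Y' ω)) fun ω ω' => ?_]
  rw [Prod.mk_inj, Prod.mk_inj, ← hY]
  exact and_congr_left (hX ω ω')

lemma Hent_nonneg (hν : IsProb ν) (X : Ω → α) : 0 ≤ Hent ν X := by
  refine Ex_nonneg hν.1 fun ω => ?_
  exact neg_nonneg.2 (Real.log_nonpos (Ent_pm_nonneg hν X ω) (pm_le_one hν X ω))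

/-- a coarser variable has smaller entropy. -/
lemma Hent_mono (hν : IsProb ν) {X : Ω → α} {Y : Ω → β} (h : ∀ ω ω', X ω = X ω' → Y ω = Y ω') :
    Hent ν Y ≤ Hent ν X := by
  refine Ex_mono' hν.1 fun ω hω => neg_le_neg ?_
  exact Real.log_le_log (Ent_pm_pos hν X hω) (Pr_mono hν.1 fun ω' => h ω' ω)

lemma Hc_nonneg (hν : IsProb ν) (X : Ω → α) (Y : Ω → β) : 0 ≤ Hc ν X Y := by
  exact sub_nonneg.2 (Hent_mono hν fun ω ω' h => congrArg Prod.snd h)

lemma Hc_const (hν : IsProb ν) (X : Ω → α) (b : β) : Hc ν X (fun _ => b) = Hent ν X := by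
  have h1 : Hent ν (fun _ : Ω => b) = 0 := by
    unfold Hent pm Pr
    simp only [ind_pos, Ex_const hν, Real.log_one, neg_zero]
  unfold Hc
  rw [h1, sub_zero]
  exact Hent_congr fun ω ω' => by rw [Prod.mk_inj, and_iff_left rfl]

/-- chain rule. -/
lemma Hc_chain (X : Ω → α) (Y : Ω → β) (Z : Ω → γ) :
    Hc ν (fun ω => (X ω, Y ω)) Z = Hc ν X (fun ω => (Y ω, Z ω)) + Hc ν Y Z := by
  unfold Hc
  rw [Hent_congr (X := fun ω => ((X ω, Y ω), Z ω)) (Y := fun ω => (X ω, (Y ω, Z ω)))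
    fun ω ω' => by simp only [Prod.mk_inj, and_assoc]]
  ring

/-- Gibbs inequality against a subprobability kernel. -/
lemma Hc_le_kernel [Fintype α] (hν : IsProb ν) (X : Ω → α) (Y : Ω → β) (k : β → α → ℝ)
    (hk : ∀ b a, 0 ≤ k b a) (hk1 : ∀ b, ∑ a, k b a ≤ 1) (hpos : ∀ ω, ν ω ≠ 0 → 0 < k (Y ω) (X ω)) :
    Hc ν X Y ≤ Ex ν (fun ω => - Real.log (k (Y ω) (X ω))) := by
  exact Ent_kernel hν X Y univ (fun _ => mem_univ _) k hk hk1 hpos

/-- conditioning on a finer variable decreases entropy. -/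
lemma Hc_mono_right (hν : IsProb ν) (X : Ω → α) {Y : Ω → β} {Z : Ω → γ}
    (h : ∀ ω ω', Z ω = Z ω' → Y ω = Y ω') : Hc ν X Z ≤ Hc ν X Y := by
  have h1 : ∀ ω₀ ω', (∃ ω, Z ω = Z ω₀ ∧ Y ω' = Y ω) ↔ Y ω' = Y ω₀ := fun ω₀ ω' =>
    ⟨fun ⟨ω, h2, h3⟩ => h3.trans (h ω ω₀ h2), fun h2 => ⟨ω₀, rfl, h2⟩⟩
  have h2 := Ent_kernel hν X Z (univ.image X) (fun ω => mem_image_of_mem X (mem_univ ω))
    (fun c a => Pr ν (fun ω' => X ω' = a ∧ ∃ ω, Z ω = c ∧ Y ω' = Y ω) /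
      Pr ν (fun ω' => ∃ ω, Z ω = c ∧ Y ω' = Y ω))
    (fun c a => div_nonneg (Pr_nonneg hν.1 _) (Pr_nonneg hν.1 _))
    (fun c => Ent_sum_cond X _) fun ω hω => by
      simp only [h1]
      rw [← Ent_pm_pair]
      exact div_pos (Ent_pm_pos hν _ hω) (Ent_pm_pos hν Y hω)
  simp only [h1] at h2
  rw [Ent_Hc_eq hν X Y]
  simp only [Ent_pm_pair]
  exact h2

lemma Hc_mono_left (hν : IsProb ν) {X : Ω → α} {X' : Ω → γ} (Y : Ω → β)
    (h : ∀ ω ω', Y ω = Y ω' → X ω = X ω' → X' ω = X' ω') : Hc ν X' Y ≤ Hc ν X Y := by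
  refine sub_le_sub_right (Hent_mono hν fun ω ω' h1 => ?_) _
  rw [Prod.mk_inj] at h1 ⊢
  exact ⟨h ω ω' h1.2 h1.1, h1.2⟩

lemma Hc_le_Hent (hν : IsProb ν) (X : Ω → α) (Y : Ω → β) : Hc ν X Y ≤ Hent ν X := by
  rw [← Hc_const hν X ()]
  exact Hc_mono_right hν X fun _ _ _ => rfl

lemma Hent_le_log_card_of_mem (hν : IsProb ν) (X : Ω → α) (T : Finset α)
    (h : ∀ ω, ν ω ≠ 0 → X ω ∈ T) : Hent ν X ≤ Real.log T.card := by
  obtain ⟨ω₀, h0⟩ := Ent_exists_ne hν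
  have hT : (0 : ℝ) < T.card := by exact_mod_cast card_pos.2 ⟨_, h ω₀ h0⟩
  have h1 := Ent_gibbs hν X T h (fun _ => (T.card : ℝ)⁻¹) (fun _ => by positivity)
    (by rw [sum_const, nsmul_eq_mul, mul_inv_cancel₀ hT.ne']) fun _ _ => by positivity
  rwa [Ex_const hν, Real.log_inv, neg_neg] at h1

lemma Hc_le_log_card [Fintype α] (hν : IsProb ν) (X : Ω → α) (Y : Ω → β) :
    Hc ν X Y ≤ Real.log (Fintype.card α) := by
  exact (Hc_le_Hent hν X Y).trans (Hent_le_log_card_of_mem hν X univ fun _ _ => mem_univ _)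

/-- conditioning on an extra variable costs at most its entropy. -/
lemma Hc_le_add (hν : IsProb ν) (X : Ω → α) (Y : Ω → β) (Z : Ω → γ) :
    Hc ν X Y ≤ Hc ν X (fun ω => (Y ω, Z ω)) + Hent ν Z := by
  have h1 : Hc ν X Y ≤ Hc ν (fun ω => (X ω, Z ω)) Y :=
    Hc_mono_left hν Y fun ω ω' _ h => congrArg Prod.fst h
  have h2 : Hc ν X (fun ω => (Z ω, Y ω)) = Hc ν X (fun ω => (Y ω, Z ω)) :=
    Hc_congr (fun ω ω' => by rw [Prod.mk_inj, Prod.mk_inj, and_comm]) fun _ _ _ => Iff.rfl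
  have h3 := Hc_le_Hent hν Z Y
  rw [Hc_chain, h2] at h1
  linarith

/-- subadditivity. -/
lemma Hc_pi_le {ι : Type*} [Fintype ι] {A : ι → Type*} (hν : IsProb ν) (X : ∀ i, Ω → A i)
    (Y : Ω → β) : Hc ν (fun ω i => X i ω) Y ≤ ∑ i, Hc ν (X i) Y := by
  have hpos : ∀ i ω, ν ω ≠ 0 → 0 < Pr ν (fun ω' => X i ω' = X i ω ∧ Y ω' = Y ω) / pm ν Y ω :=
    fun i ω hω => by
      rw [← Ent_pm_pair]
      exact div_pos (Ent_pm_pos hν _ hω) (Ent_pm_pos hν Y hω)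
  have hk : ∀ i (a : A i) b, 0 ≤ Pr ν (fun ω' => X i ω' = a ∧ Y ω' = b) / Pr ν (fun ω' => Y ω' = b) :=
    fun i a b => div_nonneg (Pr_nonneg hν.1 _) (Pr_nonneg hν.1 _)
  have h1 := Ent_kernel hν (fun ω i => X i ω) Y (Fintype.piFinset fun i => univ.image (X i))
    (fun ω => Fintype.mem_piFinset.2 fun i => mem_image_of_mem _ (mem_univ ω))
    (fun b a => ∏ i, Pr ν (fun ω' => X i ω' = a i ∧ Y ω' = b) / Pr ν (fun ω' => Y ω' = b))
    (fun b a => prod_nonneg fun i _ => hk i _ b)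
    (fun b => by
      rw [← prod_univ_sum (fun i => univ.image (X i))
        fun i a => Pr ν (fun ω' => X i ω' = a ∧ Y ω' = b) / Pr ν (fun ω' => Y ω' = b)]
      exact prod_le_one (fun i _ => sum_nonneg fun a _ => hk i a b) fun i _ => Ent_sum_cond _ _)
    fun ω hω => prod_pos fun i _ => hpos i ω hω
  refine h1.trans (le_of_eq ?_)
  simp only [Ent_Hc_eq hν]
  rw [← Ex_sum]
  refine Ent_Ex_congr fun ω hω => ?_
  refine (congrArg Neg.neg (Real.log_prod fun i _ => (hpos i ω hω).ne')).trans ?_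
  rw [← sum_neg_distrib]
  exact sum_congr rfl fun i _ => by rw [Ent_pm_pair]

/-- bounded point masses give large entropy. -/
lemma le_Hent_of_pm_le (hν : IsProb ν) (X : Ω → α) {c : ℝ} (h : ∀ ω, pm ν X ω ≤ c) :
    - Real.log c ≤ Hent ν X := by
  rw [← Ex_const hν (- Real.log c)]
  exact Ex_mono' hν.1 fun ω hω => neg_le_neg (Real.log_le_log (Ent_pm_pos hν X hω) (h ω))

/-- (E6) events of small uniform measure. -/
lemma Pr_small_event [Fintype α] (hν : IsProb ν) (X : Ω → α) (Y : Ω → β) (E : β → α → Prop)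
    {θ : ℝ} (hθ : 0 < θ) (hθ1 : θ < 1) (hE : ∀ b, av (fun a => ind (E b a)) ≤ θ) :
    Pr ν (fun ω => E (Y ω) (X ω)) * Real.log (1 / θ) ≤
      Real.log (Fintype.card α) - Hc ν X Y + Real.log 2 := by
  obtain ⟨ω₀, -⟩ := Ent_exists_ne hν
  have : Nonempty α := ⟨X ω₀⟩
  have hc : (0 : ℝ) < Fintype.card α := by exact_mod_cast Fintype.card_pos
  have hpos : ∀ b a, 0 < 1 / (2 * (Fintype.card α : ℝ)) + ind (E b a) / (2 * θ * Fintype.card α) :=
    fun b a => add_pos_of_pos_of_nonneg (by positivity)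
      (div_nonneg (ind_nonneg _) (by positivity))
  have h1 := Hc_le_kernel hν X Y
    (fun b a => 1 / (2 * (Fintype.card α : ℝ)) + ind (E b a) / (2 * θ * Fintype.card α))
    (fun b a => (hpos b a).le) (fun b => by
      have h2 := hE b
      unfold av at h2
      rw [div_le_iff₀ hc] at h2
      rw [sum_add_distrib, sum_const, card_univ, nsmul_eq_mul, ← sum_div]
      have h3 : (∑ a, ind (E b a)) / (2 * θ * Fintype.card α) ≤ 1 / 2 := by
        rw [div_le_iff₀ (by positivity)]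
        linarith
      have h4 : (Fintype.card α : ℝ) * (1 / (2 * (Fintype.card α : ℝ))) = 1 / 2 := by
        field_simp
      linarith) fun ω _ => hpos _ _
  have h2 : Ex ν (fun ω => - Real.log (1 / (2 * (Fintype.card α : ℝ)) +
      ind (E (Y ω) (X ω)) / (2 * θ * Fintype.card α))) ≤
      Ex ν (fun ω => (Real.log 2 + Real.log (Fintype.card α)) -
        ind (E (Y ω) (X ω)) * Real.log (1 / θ)) := by
    refine Ex_mono hν.1 fun ω => ?_
    by_cases h : E (Y ω) (X ω)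
    · rw [ind_pos h]
      have h3 : Real.log (1 / (2 * θ * Fintype.card α)) ≤
          Real.log (1 / (2 * (Fintype.card α : ℝ)) + 1 / (2 * θ * Fintype.card α)) :=
        Real.log_le_log (by positivity) (le_add_of_nonneg_left (by positivity))
      rw [one_div, Real.log_inv, Real.log_mul (by positivity) hc.ne',
        Real.log_mul two_ne_zero hθ.ne', ← one_div] at h3
      rw [one_div θ, Real.log_inv]
      linarith
    · rw [ind_neg h, zero_div, add_zero, one_div, Real.log_inv, Real.log_mul two_ne_zero hc.ne']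
      linarith
  rw [Ex_sub, Ex_const hν, Ex_mul_const] at h2
  unfold Pr
  linarith

/-- (E7) large conditional density is unlikely. -/
lemma Pr_ratio [Fintype α] (hν : IsProb ν) (X : Ω → α) (Y : Ω → β) {T : ℝ} (hT : 1 < T) :
    Pr ν (fun ω => T * pm ν Y ω < Fintype.card α * pm ν (fun ω => (X ω, Y ω)) ω) * Real.log T ≤
      Real.log (Fintype.card α) - Hc ν X Y + 1 := by
  obtain ⟨ω₀, -⟩ := Ent_exists_ne hν
  have : Nonempty α := ⟨X ω₀⟩
  have hc : (0 : ℝ) < Fintype.card α := by exact_mod_cast Fintype.card_pos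
  have h1 := Ent_Ex_div_pm (ν := ν) (fun ω => (X ω, Y ω)) (univ ×ˢ univ.image Y)
    (fun ω _ => mem_product.2 ⟨mem_univ _, mem_image_of_mem Y (mem_univ ω)⟩)
    (fun d => Pr ν (fun ω => Y ω = d.2) / Fintype.card α)
    fun d => div_nonneg (Pr_nonneg hν.1 _) hc.le
  have h2 : ∑ d ∈ (univ : Finset α) ×ˢ univ.image Y,
      Pr ν (fun ω => Y ω = d.2) / Fintype.card α = 1 := by
    rw [sum_product]
    simp only [← sum_div]
    rw [Ent_sum_Pr' hν Y (univ.image Y) fun ω _ => mem_image_of_mem Y (mem_univ ω), sum_const,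
      card_univ, nsmul_eq_mul, mul_one, div_self hc.ne']
  have h3 : Ex ν (fun ω => ind (T * pm ν Y ω < Fintype.card α * pm ν (fun ω => (X ω, Y ω)) ω) *
      Real.log T) ≤ Ex ν (fun ω => (Real.log (Fintype.card α) -
        - Real.log (pm ν (fun ω => (X ω, Y ω)) ω / pm ν Y ω)) +
        pm ν Y ω / Fintype.card α / pm ν (fun ω => (X ω, Y ω)) ω) := by
    refine Ex_mono' hν.1 fun ω hω => ?_
    have p1 := Ent_pm_pos hν Y hω
    have p2 := Ent_pm_pos hν (fun ω => (X ω, Y ω)) hω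
    set p := pm ν Y ω
    set p' := pm ν (fun ω => (X ω, Y ω)) ω
    have e1 : Real.log (Fintype.card α) - - Real.log (p' / p) =
        Real.log (Fintype.card α * p' / p) := by
      rw [mul_div_assoc, Real.log_mul hc.ne' (div_pos p2 p1).ne']
      ring
    have e2 : p / Fintype.card α / p' = (Fintype.card α * p' / p)⁻¹ := by
      field_simp
    have p3 : 0 < Fintype.card α * p' / p := by positivity
    rw [e1, e2]
    by_cases h : T * p < Fintype.card α * p'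
    · rw [ind_pos h, one_mul]
      have h4 : Real.log T ≤ Real.log (Fintype.card α * p' / p) :=
        Real.log_le_log (by linarith) ((le_div_iff₀ p1).2 h.le)
      have h5 := inv_pos.2 p3
      linarith
    · rw [ind_neg h, zero_mul]
      have h4 := Real.one_sub_inv_le_log_of_pos p3
      linarith
  rw [Ex_mul_const, Ex_add, Ex_sub, Ex_const hν, ← Ent_Hc_eq hν] at h3
  have h4 := h1.trans h2.le
  unfold Pr
  exact h3.trans (add_le_add_right h4 _)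

lemma post_nonneg (hν : IsProb ν) (Y : Ω → β) (ω₀ ω : Ω) : 0 ≤ post ν Y ω₀ ω := by
  exact div_nonneg (mul_nonneg (hν.1 ω) (ind_nonneg _)) (Ent_pm_nonneg hν Y ω₀)

lemma isProb_post (hν : IsProb ν) (Y : Ω → β) {ω₀ : Ω} (h : ν ω₀ ≠ 0) : IsProb (post ν Y ω₀) := by
  refine ⟨post_nonneg hν Y ω₀, ?_⟩
  unfold post
  rw [← sum_div]
  exact div_self (Ent_pm_pos hν Y h).ne'

lemma post_ne_zero {Y : Ω → β} {ω₀ ω : Ω} (h : post ν Y ω₀ ω ≠ 0) : ν ω ≠ 0 ∧ Y ω = Y ω₀ := by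
  unfold post at h
  refine ⟨fun h1 => h (by rw [h1, zero_mul, zero_div]), ?_⟩
  by_contra h1
  exact h (by rw [ind_neg h1, mul_zero, zero_div])

/-- tower property. -/
lemma Ex_post (hν : IsProb ν) (Y : Ω → β) (f : Ω → ℝ) :
    Ex ν (fun ω₀ => Ex (post ν Y ω₀) f) = Ex ν f := by
  have h1 : ∀ ω₀, Ex (post ν Y ω₀) f = Ex ν (fun ω => f ω * (ind (Y ω₀ = Y ω) / pm ν Y ω)) := by
    intro ω₀
    refine sum_congr rfl fun ω _ => ?_
    unfold post
    dsimp only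
    by_cases h : Y ω = Y ω₀
    · have h2 : pm ν Y ω₀ = pm ν Y ω := by
        unfold pm
        rw [h]
      rw [ind_pos h, ind_pos h.symm, h2]
      ring
    · rw [ind_neg h, ind_neg fun h' : Y ω₀ = Y ω => h h'.symm]
      ring
  simp only [h1]
  rw [Ex_comm]
  refine Ent_Ex_congr fun ω hω => ?_
  simp only [div_eq_mul_inv]
  rw [Ex_const_mul, Ex_mul_const]
  exact (congrArg _ (mul_inv_cancel₀ (Ent_pm_pos hν Y hω).ne')).trans (mul_one _)

lemma Ent_Hc_eq_post (hν : IsProb ν) (W : Ω → α) (Y : Ω → β) :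
    Hc ν W Y = Ex ν (fun ω₀ => Hent (post ν Y ω₀) W) := by
  rw [Ent_Hc_eq hν, ← Ex_post hν Y]
  refine Ex_congr fun ω₀ => Ent_Ex_congr fun ω hω => ?_
  have h1 := (post_ne_zero hω).2
  have h2 : pm (post ν Y ω₀) W ω = pm ν (fun ω => (W ω, Y ω)) ω / pm ν Y ω := by
    rw [Ent_pm_pair]
    unfold post pm Pr Ex
    rw [sum_div, h1]
    refine sum_congr rfl fun ω' _ => ?_
    dsimp only
    rw [ind_and]
    ring
  rw [h2]

/-- conditional entropies are averages over posteriors. -/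
lemma Hc_eq_Ex_post (hν : IsProb ν) (X : Ω → α) (Z : Ω → γ) (Y : Ω → β) :
    Hc ν X (fun ω => (Z ω, Y ω)) = Ex ν (fun ω₀ => Hc (post ν Y ω₀) X Z) := by
  have h1 := Hc_chain (ν := ν) X Z Y
  rw [Ent_Hc_eq_post hν (fun ω => (X ω, Z ω)) Y, Ent_Hc_eq_post hν Z Y] at h1
  unfold Hc at h1 ⊢
  rw [Ex_sub]
  linarith

/-- weak Pinsker inequality. -/
lemma pinsker {A : Type*} [Fintype A] {P Q : A → ℝ} (hP : IsProb P) (hQ : IsProb Q)
    (h : ∀ a, P a ≠ 0 → 0 < Q a) :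
    (∑ a, |P a - Q a|) ^ 2 ≤ 4 * ∑ a, P a * Real.log (P a / Q a) := by
  have h1 : ∀ a, 2 * P a - 2 * (√(P a) * √(Q a)) ≤ P a * Real.log (P a / Q a) := by
    intro a
    by_cases ha : P a = 0
    · simp [ha]
    · have p1 : 0 < P a := lt_of_le_of_ne (hP.1 a) (Ne.symm ha)
      have p2 := h a ha
      have s1 := Real.sqrt_pos.2 p1
      have s2 := Real.sqrt_pos.2 p2
      have h2 := Real.log_le_sub_one_of_pos (div_pos s2 s1)
      rw [Real.log_div s2.ne' s1.ne', Real.log_sqrt p1.le, Real.log_sqrt p2.le] at h2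
      rw [Real.log_div p1.ne' p2.ne']
      have h3 : P a * (√(Q a) / √(P a)) = √(P a) * √(Q a) := by
        have := Real.mul_self_sqrt p1.le
        field_simp
        rw [Real.sq_sqrt p1.le]
      have h4 := mul_le_mul_of_nonneg_left h2 p1.le
      rw [mul_sub (P a) _ 1, h3] at h4
      linarith
  have h2 : ∑ a, (√(P a) - √(Q a)) ^ 2 ≤ ∑ a, P a * Real.log (P a / Q a) := by
    refine le_trans (le_of_eq ?_) (sum_le_sum fun a _ => h1 a)
    have h3 : ∀ a, (√(P a) - √(Q a)) ^ 2 = 2 * P a - 2 * (√(P a) * √(Q a)) + (Q a - P a) := by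
      intro a
      have e1 := Real.sq_sqrt (hP.1 a)
      have e2 := Real.sq_sqrt (hQ.1 a)
      linear_combination e1 + e2
    simp only [h3]
    rw [sum_add_distrib, sum_sub_distrib Q, hP.2, hQ.2, sub_self, add_zero]
  have h3 : ∑ a, (√(P a) + √(Q a)) ^ 2 ≤ 4 := by
    have h4 : ∀ a, (√(P a) + √(Q a)) ^ 2 ≤ 2 * P a + 2 * Q a := by
      intro a
      have e1 := Real.sq_sqrt (hP.1 a)
      have e2 := Real.sq_sqrt (hQ.1 a)
      nlinarith [sq_nonneg (√(P a) - √(Q a))]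
    refine (sum_le_sum fun a _ => h4 a).trans (le_of_eq ?_)
    rw [sum_add_distrib, ← mul_sum, ← mul_sum, hP.2, hQ.2]
    norm_num
  have h4 := sum_mul_sq_le_sq_mul_sq univ (fun a => |√(P a) - √(Q a)|) fun a => √(P a) + √(Q a)
  have h5 : ∀ a, |√(P a) - √(Q a)| * (√(P a) + √(Q a)) = |P a - Q a| := by
    intro a
    have e1 := Real.sq_sqrt (hP.1 a)
    have e2 := Real.sq_sqrt (hQ.1 a)
    rw [← abs_of_nonneg (add_nonneg (Real.sqrt_nonneg (P a)) (Real.sqrt_nonneg (Q a))), ← abs_mul]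
    exact congrArg _ (by linear_combination e1 - e2)
  simp only [h5, sq_abs] at h4
  have h6 : 0 ≤ ∑ a, (√(P a) - √(Q a)) ^ 2 := sum_nonneg fun a _ => sq_nonneg _
  nlinarith

lemma Ent_abs_le [Fintype α] (hν : IsProb ν) (W : Ω → α) {Q : α → ℝ} (hQ : IsProb Q)
    (hpos : ∀ ω, ν ω ≠ 0 → 0 < Q (W ω)) (φ : α → ℝ) (hφ : ∀ a, |φ a| ≤ 1) :
    |Ex ν (fun ω => φ (W ω)) - ∑ a, Q a * φ a| ≤
      2 * Real.sqrt (Ex ν (fun ω => - Real.log (Q (W ω))) - Hent ν W) := by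
  have hP : IsProb fun a => Pr ν (fun ω => W ω = a) :=
    ⟨fun a => Pr_nonneg hν.1 _, Ent_sum_Pr' hν W univ fun _ _ => mem_univ _⟩
  have h1 := pinsker hP hQ fun a ha => by
    obtain ⟨ω, h2, rfl⟩ := exists_of_Pr_pos (lt_of_le_of_ne (hP.1 a) (Ne.symm ha))
    exact hpos ω h2
  have h2 : ∑ a, Pr ν (fun ω => W ω = a) * Real.log (Pr ν (fun ω => W ω = a) / Q a) =
      Ex ν (fun ω => - Real.log (Q (W ω))) - Hent ν W := by
    rw [← Ent_Ex_fib' W univ (fun _ _ => mem_univ _)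
      fun a => Real.log (Pr ν (fun ω => W ω = a) / Q a)]
    unfold Hent
    rw [← Ex_sub]
    refine Ent_Ex_congr fun ω hω => ?_
    have h3 := Real.log_div (Ent_pm_pos hν W hω).ne' (hpos ω hω).ne'
    unfold pm at h3 ⊢
    rw [h3]
    ring
  rw [h2] at h1
  rw [Ent_Ex_fib' W univ (fun _ _ => mem_univ _) φ, ← sum_sub_distrib]
  refine (abs_sum_le_sum_abs _ _).trans ((sum_le_sum fun a _ => ?_).trans
    ((Real.le_sqrt_of_sq_le h1).trans (le_of_eq ?_)))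
  · rw [← sub_mul, abs_mul]
    exact mul_le_of_le_one_right (abs_nonneg _) (hφ a)
  · rw [Real.sqrt_mul (by norm_num), show (4 : ℝ) = 2 ^ 2 by norm_num,
      Real.sqrt_sq (by norm_num)]

/-- closeness to the uniform law. -/
lemma abs_Ex_sub_av_le [Fintype α] [Nonempty α] (hν : IsProb ν) (X : Ω → α) (φ : α → ℝ)
    (hφ : ∀ a, |φ a| ≤ 1) :
    |Ex ν (fun ω => φ (X ω)) - av φ| ≤
      2 * Real.sqrt (Real.log (Fintype.card α) - Hent ν X) := by
  have hc : (0 : ℝ) < Fintype.card α := by exact_mod_cast Fintype.card_pos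
  have h1 := Ent_abs_le hν X isProb_unif (fun _ _ => by positivity) φ hφ
  rw [Ex_const hν, one_div, Real.log_inv, neg_neg, ← one_div] at h1
  rw [av_eq_Ex]
  exact h1

/-- closeness to the product of the marginals. -/
lemma abs_Ex_sub_prod_le {ι : Type*} [Fintype ι] [Fintype α] (hν : IsProb ν) (X : ι → Ω → α)
    (φ : (ι → α) → ℝ) (hφ : ∀ a, |φ a| ≤ 1) :
    |Ex ν (fun ω => φ (fun i => X i ω)) -
        ∑ a : ι → α, (∏ i, Pr ν (fun ω => X i ω = a i)) * φ a| ≤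
      2 * Real.sqrt (∑ i, Hent ν (X i) - Hent ν (fun ω i => X i ω)) := by
  have hQ : IsProb fun a : ι → α => ∏ i, Pr ν (fun ω => X i ω = a i) := by
    refine ⟨fun a => prod_nonneg fun i _ => Pr_nonneg hν.1 _, ?_⟩
    rw [← Fintype.piFinset_univ,
      ← prod_univ_sum (fun _ : ι => (univ : Finset α)) fun i a => Pr ν (fun ω => X i ω = a)]
    exact prod_eq_one fun i _ => Ent_sum_Pr' hν (X i) univ fun _ _ => mem_univ _
  have h1 := Ent_abs_le hν (fun ω i => X i ω) hQ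
    (fun ω hω => prod_pos fun i _ => Ent_pm_pos hν (X i) hω) φ hφ
  have h2 : Ex ν (fun ω => - Real.log (∏ i, Pr ν (fun ω' => X i ω' = X i ω))) =
      ∑ i, Hent ν (X i) := by
    unfold Hent
    rw [← Ex_sum]
    refine Ent_Ex_congr fun ω hω => ?_
    refine (congrArg Neg.neg (Real.log_prod fun i _ => (Ent_pm_pos hν (X i) hω).ne')).trans ?_
    rw [← sum_neg_distrib]
  rw [h2] at h1
  exact h1

end

end Vale.Agent.P060
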