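import Vale.Agent.P060.InstA

/-! P060: the hypotheses of the entropy lemmas hold for the construction. -/

namespace Vale.Agent.P060

open Finset Polynomial Vale.Agent.P056.Sharp

noncomputable section

open scoped Classical

variable {F : Type} [Field F] [Fintype F] [Algebra (ZMod 2) F] {p : Par}
  {ν : Om F p → ℝ} {M K B : ℝ}

lemma inst_card_Ei (p : Par) : Fintype.card (Ei p) ≤ (p.S + 1) ^ 2 := by
  rw [Fintype.card_option, Sym2.card, Fintype.card_fin, Nat.choose_two_right]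
  have h := Nat.div_le_self ((p.S + 1) * (p.S + 1 - 1)) 2
  rw [Nat.add_sub_cancel] at h ⊢
  nlinarith

lemma inst_pm_le (hν : Adm ν M K) {α : Type} (X : Om F p → α) (ω : Om F p) {c : ℝ}
    (h : av (fun ω' => ind (X ω' = X ω)) = c) : pm ν X ω ≤ K * c := by
  rw [← h]
  exact hν.Ex_le _ fun _ => ind_nonneg _

theorem mhyp (hp : p.Ok) (hν : Adm ν M K) {Lc : ℕ} (hLc : p.k = 2 * Lc)
    (hc : (p.k : ℝ) ^ 3 * ((p.N + 3 * ((p.S : ℝ) + 1) ^ 2) * Real.log (Fintype.card F)) ≤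
      Fintype.card F) :
    MHyp ν (fun i ω => cv ω i) (fun i ω => rr ω i) raw Lc K M := by
  have hk := hp.hk
  refine ⟨hν.prob, hν.one_le_K, hν.one_le, by omega, ?_, ?_, ?_, ?_, ?_, ?_⟩
  · intro i s ω ω' h
    exact congrArg (fun L => ptv L s) h
  · intro ι _ hι σ hσ ω
    rw [div_eq_mul_one_div]
    exact inst_pm_le hν _ ω (inst_d1 hp (hLc ▸ hι) σ hσ _)
  · intro ι _ hι i s hs ω
    rw [div_eq_mul_one_div, ← inst_d2 hp (hLc ▸ hι) hs (fun n => (raw ω i (s n)).1)]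
    exact hν.Ex_vertex_le i (fun a => ind ((fun n => ((ptv a.1 (s n), (mv a.2.1 (s n),
      vals a.2.2 a.1 (s n))) : (Fin p.N → F) × Vo F p)) = fun n => (raw ω i (s n)).1))
      fun _ => ind_nonneg _
  · intro ι _ hι i s hs ω
    rw [div_eq_mul_one_div]
    exact inst_pm_le hν _ ω (inst_d3 (hLc ▸ hι) i hs _)
  · intro i ω
    exact hν.marg i (ω i)
  · refine le_trans ?_ hc
    have h1 : (2 * Lc : ℝ) = p.k := by rw [hLc]; push_cast; ring
    have h2 : (Fintype.card (Ei p) : ℝ) ≤ ((p.S : ℝ) + 1) ^ 2 := by exact_mod_cast inst_card_Ei p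
    have h3 : 0 ≤ Real.log (Fintype.card F) := Real.log_nonneg count_one_le
    have h4 : (0 : ℝ) ≤ p.S := Nat.cast_nonneg _
    rw [h1, inst_card_raw, Nat.cast_pow, Real.log_pow]
    refine mul_le_mul_of_nonneg_left (mul_le_mul_of_nonneg_right ?_ h3) (by positivity)
    push_cast
    nlinarith

lemma inst_G1 (hp : p.Ok) (hν : Adm ν M K) (hB : 1 < B) {G : ℕ} (hG : 0 < G)
    (hGk : 4 * p.j * G ≤ p.k) (hGq : (G * 4) ^ 2 ≤ Fintype.card F) (i : Bool) :
    av (fun τ : Bool × Bool → F => ind (Function.Injective τ) *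
      Pr ν (fun ω => ¬ G1 ν B (cv ω) τ i)) ≤ (2 * Real.log K / G + 1) / Real.log B := by
  have hj := (Cont_J hp).2.2.2
  have h := inst_group hν.prob (fun ω => cv ω i) (fun ω => cv ω (!i))
    (inst_lam hν.prob _ _ hν.one_le_K fun ω => inst_pm_le hν _ ω (inst_l1 i _))
    (inst_K1 p i) G hG (by simpa using hGq) (fun τ hτ v => by
      obtain ⟨x, hx⟩ := inst_cv (p := p) (ι := Fin G × (Bool × Bool))
        (by simp only [Fintype.card_prod, Fintype.card_fin, Fintype.card_bool]; nlinarith) hτ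
        (fun a => ptv (v a.1) (τ a))
      exact ⟨x, fun g k => by rw [inst_ptv_sub, hx, sub_self]⟩) hB
  refine le_trans (le_of_eq (av_congr fun τ => ?_)) h
  by_cases hτ : Function.Injective τ
  · congr 1
    refine Ent_Pr_congr fun ω => ?_
    rw [inst_card_K1 hp i hτ, G1, not_le, mul_one_div]
    refine iff_of_eq (congrArg _ (Ent_Pr_congr fun ω' => and_congr Iff.rfl ?_))
    rw [inst_mem_K1]
    refine forall_congr' fun k => ?_
    rw [inst_ptv_sub, sub_eq_zero]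
    rfl
  · rw [ind_neg hτ, zero_mul, zero_mul]

lemma inst_G2 (hν : Adm ν M K) (hB : 1 < B) {G : ℕ} (hG : 0 < G)
    (hGk : 4 * p.j * G ≤ p.k) (hGq : (G * 4) ^ 2 ≤ Fintype.card F) :
    av (fun τ : Bool × Bool → F => ind (Function.Injective τ) *
      Pr ν (fun ω => ¬ G2 ν B ω τ)) ≤ (2 * Real.log K / G + 1) / Real.log B := by
  have h := inst_group hν.prob (fun ω => (cv ω, mx ω)) gs
    (inst_lam hν.prob _ _ hν.one_le_K fun ω => inst_pm_le hν _ ω (inst_l2 _))
    (Kj p) G hG (by simpa using hGq) (fun τ hτ v => by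
      choose x hx using fun i e => Kg_crt hGk τ hτ (fun g => v g i e)
      exact ⟨x, fun g i e => hx i e g⟩) hB
  refine le_trans (le_of_eq (av_congr fun τ => ?_)) h
  congr 1
  refine Ent_Pr_congr fun ω => ?_
  rw [G2, not_le]

theorem good_prob (hp : p.Ok) (hν : Adm ν M K) (hB : 1 < B) {G : ℕ} (hG : 0 < G)
    (hGk : 4 * p.j * G ≤ p.k) (hGq : (G * 4) ^ 2 ≤ Fintype.card F) :
    av (fun τ : Bool × Bool → F => Pr ν (fun ω => ¬ Good ν B ω τ)) ≤
      (8 + 4 * (p.r : ℝ)) / Fintype.card F + 3 * ((2 * Real.log K / G + 1) / Real.log B) := by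
  have h1 : ∀ τ : Bool × Bool → F, Pr ν (fun ω => ¬ Good ν B ω τ) ≤
      ind (¬ Function.Injective τ) + Ex ν (fun ω => ind (¬ Avoid (cv ω) τ)) +
        ind (Function.Injective τ) * Pr ν (fun ω => ¬ G1 ν B (cv ω) τ false) +
        ind (Function.Injective τ) * Pr ν (fun ω => ¬ G1 ν B (cv ω) τ true) +
        ind (Function.Injective τ) * Pr ν (fun ω => ¬ G2 ν B ω τ) := fun τ => by
    have h0 := hν.prob.1
    have ha : 0 ≤ Ex ν (fun ω => ind (¬ Avoid (cv ω) τ)) := Ex_nonneg h0 fun _ => ind_nonneg _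
    by_cases hτ : Function.Injective τ
    · rw [ind_pos hτ, ind_neg (not_not.2 hτ), one_mul, one_mul, one_mul, zero_add]
      have a1 := Pr_or_le h0 (fun ω => ¬ Avoid (cv ω) τ) (fun ω => ¬ G1 ν B (cv ω) τ false)
      have a2 := Pr_or_le h0 (fun ω => ¬ Avoid (cv ω) τ ∨ ¬ G1 ν B (cv ω) τ false)
        (fun ω => ¬ G1 ν B (cv ω) τ true)
      have a3 := Pr_or_le h0 (fun ω => (¬ Avoid (cv ω) τ ∨ ¬ G1 ν B (cv ω) τ false) ∨
        ¬ G1 ν B (cv ω) τ true) (fun ω => ¬ G2 ν B ω τ)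
      have a4 : Pr ν (fun ω => ¬ Good ν B ω τ) ≤ Pr ν (fun ω => ((¬ Avoid (cv ω) τ ∨
          ¬ G1 ν B (cv ω) τ false) ∨ ¬ G1 ν B (cv ω) τ true) ∨ ¬ G2 ν B ω τ) :=
        Pr_mono h0 fun ω hω => by
          by_contra hc
          push Not at hc
          exact hω ⟨hτ, hc.1.1.1, fun i => by cases i; exacts [hc.1.1.2, hc.1.2], hc.2⟩
      have a5 : Pr ν (fun ω => ¬ Avoid (cv ω) τ) = Ex ν (fun ω => ind (¬ Avoid (cv ω) τ)) := rfl
      linarith
    · rw [ind_neg hτ, ind_pos hτ, zero_mul, zero_mul, zero_mul]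
      have := Pr_le_one hν.prob (fun ω => ¬ Good ν B ω τ)
      linarith
  have h2 := av_mono h1
  rw [av_add, av_add, av_add, av_add, av_Ex] at h2
  have h3 := av_not_injective (ι := Bool × Bool) (T := F)
  have h4 : Ex ν (fun ω => av (fun τ : Bool × Bool → F => ind (¬ Avoid (cv ω) τ))) ≤
      4 * (p.r : ℝ) / Fintype.card F :=
    (Ex_mono' hν.prob.1 fun ω hω => inst_avoid (hν.reg ω hω).ok).trans (Ex_const hν.prob _).le
  have h5 := inst_G1 hp hν hB hG hGk hGq false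
  have h6 := inst_G1 hp hν hB hG hGk hGq true
  have h7 := inst_G2 hν hB hG hGk hGq
  have h8 : ((Fintype.card (Bool × Bool) : ℝ)) ^ 2 / (2 * Fintype.card F) =
      8 / Fintype.card F := by
    simp only [Fintype.card_prod, Fintype.card_bool]
    push_cast
    ring
  rw [h8] at h3
  have h9 : av (fun τ : Bool × Bool → F => ind (¬ Function.Injective τ)) ≤ 8 / Fintype.card F := by
    refine le_of_eq_of_le ?_ h3
    exact congrArg (fun i : Fintype (Bool × Bool → F) =>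
      @av _ i fun τ => ind (¬ Function.Injective τ)) (Subsingleton.elim _ _)
  rw [add_div]
  linarith

lemma card_Ei_le (p : Par) : Fintype.card (Ei p) ≤ (p.S + 1) ^ 2 := by
  exact inst_card_Ei p

omit [Algebra (ZMod 2) F] in
lemma log_card_VoCr :
    Real.log (Fintype.card (Vo F p × Cr F p)) ≤
      3 * ((p.S : ℝ) + 1) ^ 2 * Real.log (Fintype.card F) := by
  have h1 : Fintype.card (Vo F p × Cr F p) = Fintype.card F ^ (p.S + 2 * Fintype.card (Ei p)) := by
    simp only [Fintype.card_prod, Fintype.card_fun, Fintype.card_fin]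
    ring
  have h2 : (Fintype.card (Ei p) : ℝ) ≤ ((p.S : ℝ) + 1) ^ 2 := by exact_mod_cast inst_card_Ei p
  have h3 : 0 ≤ Real.log (Fintype.card F) := Real.log_nonneg count_one_le
  have h4 : (0 : ℝ) ≤ p.S := Nat.cast_nonneg _
  rw [h1, Nat.cast_pow, Real.log_pow]
  refine mul_le_mul_of_nonneg_right ?_ h3
  push_cast
  nlinarith

omit [Field F] [Algebra (ZMod 2) F] in
lemma inst_card_Rt (hq : 4 ≤ Fintype.card F) :
    Fintype.card (Rt F p) + 1 ≤ Fintype.card F ^ (5 * (p.S + 1) ^ 2) := by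
  simp only [Fintype.card_prod, Fintype.card_fun, Fintype.card_fin, Fintype.card_option,
    Fintype.card_bool, ZMod.card]
  set q := Fintype.card F
  have h1 : 1 ≤ (q ^ (p.S + 1)) ^ 2 := Nat.one_le_pow _ _ (by positivity)
  have h2 : 1 ≤ (q ^ (p.S + 1)) ^ p.S := Nat.one_le_pow _ _ (by positivity)
  have h3 : (q ^ (p.S + 1)) ^ 2 * (q ^ (p.S + 1)) ^ p.S * q ^ 2 ≤ q ^ (5 * (p.S + 1) ^ 2) := by
    rw [← pow_mul, ← pow_mul, ← pow_add, ← pow_add]
    exact Nat.pow_le_pow_right (by omega) (by nlinarith)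
  have h4 : 16 ≤ q ^ 2 := by nlinarith
  refine le_trans ?_ h3
  set a := (q ^ (p.S + 1)) ^ 2
  set b := (q ^ (p.S + 1)) ^ p.S
  have h5 : a ≤ a * b := Nat.le_mul_of_pos_right _ h2
  have h6 : a * b * 16 ≤ a * b * q ^ 2 := Nat.mul_le_mul_left _ h4
  nlinarith

theorem hent_W0 (hp : p.Ok) (hν : Adm ν M K) (hq : 4 ≤ Fintype.card F) :
    Hent ν W0 ≤ 5 * 2 ^ p.r * (5 * ((p.S : ℝ) + 1) ^ 2 * Real.log (Fintype.card F)) := by
  have h1 := Hent_le_log_card_of_mem hν.prob W0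
    ((univ : Finset (Finset (Rt F p))).filter fun s => s.card ≤ 5 * 2 ^ p.r)
    fun ω hω => mem_filter.2 ⟨mem_univ _, card_W0_le hp (hν.reg ω hω)⟩
  have h2 := (inst_card_small (Rt F p) (5 * 2 ^ p.r)).trans
    (Nat.pow_le_pow_left (inst_card_Rt hq) _)
  refine h1.trans ?_
  have h3 : (0 : ℝ) < ((univ : Finset (Finset (Rt F p))).filter
      fun s => s.card ≤ 5 * 2 ^ p.r).card := by
    exact_mod_cast card_pos.2 ⟨∅, mem_filter.2 ⟨mem_univ _, by simp⟩⟩
  refine (Real.log_le_log h3 (Nat.cast_le.2 h2)).trans (le_of_eq ?_)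
  push_cast
  rw [Real.log_pow, Real.log_pow]
  push_cast
  ring

end

end Vale.Agent.P060
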