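import Vale.Agent.P060.MainTA

/-! P060: the main term. -/

namespace Vale.Agent.P060

open Finset Polynomial Vale.Agent.P056.Sharp

noncomputable section

open scoped Classical

variable {F : Type} [Field F] [Fintype F] [Algebra (ZMod 2) F] {p : Par}

/-- the density of points and side vectors on the good event. -/
def mainT_f (ν : Om F p → ℝ) (B : ℝ) : mainT_X F p → ℝ :=
  mainT_den ν (fun ω τ => Good ν B ω τ ∧ Z4 (Mt ω) (b4 ω τ)) (fun ω τ => mainT_pb (b4 ω τ))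

omit [Field F] [Algebra (ZMod 2) F] in
lemma mainT_card :
    (Fintype.card (mainT_X F p) : ℝ) / Fintype.card (Bool × Bool → F) =
      (Fintype.card F : ℝ) ^ (4 * p.N) * (8 * (Fintype.card F : ℝ)) ^ 4 ∨ Fintype.card F = 0 := by
  by_cases h : Fintype.card F = 0
  · exact Or.inr h
  · left
    have h1 : (Fintype.card F : ℝ) ≠ 0 := by exact_mod_cast h
    simp only [Fintype.card_prod, Fintype.card_fun, Fintype.card_fin, ZMod.card,
      Fintype.card_bool]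
    push_cast
    field_simp
    ring

lemma mainT_le {ν : Om F p → ℝ} (hν : ∀ ω, 0 ≤ ν ω) (B : ℝ) :
    av (fun x => mainT_f ν B x * mainT_f ν B (mainT_e F p x)) ≤
      (Fintype.card F : ℝ) ^ (4 * p.N) * (8 * (Fintype.card F : ℝ)) ^ 4 * mainP ν B := by
  have h1 := mainT_den_test ν (fun ω τ => Good ν B ω τ ∧ Z4 (Mt ω) (b4 ω τ))
    (fun ω τ => mainT_pb (b4 ω τ)) (fun x => mainT_f ν B (mainT_e F p x))
  have h2 : av (fun x => mainT_f ν B x * mainT_f ν B (mainT_e F p x)) =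
      av (fun x => mainT_f ν B (mainT_e F p x) * mainT_f ν B x) := av_congr fun x => mul_comm _ _
  have h3 := (mainT_card (F := F) (p := p)).resolve_right Fintype.card_ne_zero
  rw [h2]
  refine h1.le.trans ?_
  unfold mainP
  rw [← av_const_mul]
  refine av_mono fun τ => ?_
  rw [← Ex_const_mul]
  refine Ex_mono hν fun ω => ?_
  have h4 := mainT_den_at ν (fun ω τ => Good ν B ω τ ∧ Z4 (Mt ω) (b4 ω τ))
    (fun ω τ => mainT_pb (b4 ω τ)) (mainT_e F p (mainT_pb (b4 ω τ))) (tp τ)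
    fun ω' τ' h => funext fun z => congrArg (fun x : mainT_X F p => (x.1 z).1) h
  rw [h3] at h4
  have h5 : 0 ≤ (Fintype.card F : ℝ) ^ (4 * p.N) * (8 * (Fintype.card F : ℝ)) ^ 4 := by positivity
  by_cases hA : Good ν B ω τ ∧ Z4 (Mt ω) (b4 ω τ)
  · rw [ind_pos hA, one_mul]
    refine h4.le.trans (mul_le_mul_of_nonneg_left (Pr_mono hν fun ω' h => ?_) h5)
    refine ⟨hA.1, h.1.1, fun z => ?_, fun z => ?_, hA.2, h.1.2⟩
    · exact (congrArg (fun x : mainT_X F p => (x.1 z.swap).2) h.2).symm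
    · exact congrArg (fun x : mainT_X F p => x.2 z.swap) h.2
  · rw [ind_neg hA, zero_mul]
    exact mul_nonneg h5 (Pr_nonneg hν _)

lemma mainT_good (hp : p.Ok) {ρ : Om F p → ℝ} {k : Bool → Pt F p × Vo F p → Cr F p → ℝ}
    {e η δ β θ Tc : ℝ} (h : GP0 ρ k δ Tc θ) (hs : Sup ρ) (hS : Small F p e η δ β θ)
    {l S' : ℕ} (hl : 0 < l) (hS' : 2 * S' ≤ p.S) {η1 : ℝ} (hη1 : 0 ≤ η1)
    (hb : (Fintype.card F : ℝ) ^ l / (Fintype.card F : ℝ) ^ S' +
      Tc / (Fintype.card F : ℝ) ^ (S' * l) ≤ η1 ^ l)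
    (hη1' : (8 * (Fintype.card F : ℝ)) ^ 8 * η1 ≤ δ ^ 4) {ω₀ : Om F p} (h0 : ρ ω₀ ≠ 0)
    (g : mainT_X F p → ℝ) (hg : ∀ x, |g x| ≤ 1) :
    Ex ρ (fun ω => av (fun τ : Bool × Bool → F =>
      ind (Z4 (Mt ω) (b4 ω τ)) * g (mainT_pb (b4 ω τ)))) ≤
      av (fun x => g x * fw k (Mt ω₀) x) + (δ + e) := by
  have h1 := h.tv (fun b => ind (Z4 (Mt ω₀) b) * g (mainT_pb b)) fun b =>
    MTools_mul_abs (by rw [abs_of_nonneg (ind_nonneg _)]; exact ind_le_one _) (hg _)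
  rw [← mainT_Fw_test] at h1
  have h2 : Ex ρ (fun ω => av (fun τ : Bool × Bool → F =>
      ind (Z4 (Mt ω) (b4 ω τ)) * g (mainT_pb (b4 ω τ)))) = Ex ρ (fun ω =>
      av (fun τ : Bool × Bool → F => ind (Z4 (Mt ω₀) (b4 ω τ)) * g (mainT_pb (b4 ω τ)))) :=
    Ent_Ex_congr fun ω hω => by rw [Mt_eq_of_W0 (hs.w0 ω ω₀ hω h0)]
  have h3 := fw_close hp h hs hS hl hS' hη1 hb hη1' ω₀
  have h4 : av (fun x => g x * Fw k (Mt ω₀) x) ≤ av (fun x => g x * fw k (Mt ω₀) x) +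
      av (fun x => |Fw k (Mt ω₀) x - fw k (Mt ω₀) x|) := by
    rw [← av_add]
    refine av_mono fun x => ?_
    have := (abs_le.1 (MTools_mul_abs (hg x) (le_refl |Fw k (Mt ω₀) x - fw k (Mt ω₀) x|))).2
    linarith
  have h5 : Ex ρ (fun ω => av (fun τ : Bool × Bool → F =>
      ind (Z4 (Mt ω₀) (b4 ω τ)) * g (mainT_pb (b4 ω τ)))) -
      av (fun x => g x * Fw k (Mt ω₀) x) ≤ δ := (abs_le.1 h1).2
  linarith

omit [Field F] [Algebra (ZMod 2) F] in
lemma mainT_small {e η δ β θ : ℝ} (hS : Small F p e η δ β θ) :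
    8 * δ ≤ e := by
  have h0 := hS.he0
  have h1 := hS.he
  have h2 := hS.hδ
  have h3 : (e / 4) ^ 4 ≤ e / 4 := pow_le_of_le_one (by positivity) (by linarith) (by norm_num)
  have h4 : 0 ≤ η := by rw [hS.hη]; positivity
  have h5 : η ≤ e := by rw [hS.hη]; linarith
  have h6 : η ^ 2 ≤ η := pow_le_of_le_one h4 (by linarith) (by norm_num)
  linarith

theorem main_ge (hp : p.Ok) {ν : Om F p → ℝ} {M K B : ℝ} (hν : Adm ν M K) {e η δ β θ Tc : ℝ}
    (hS : Small F p e η δ β θ) (he : e ≤ (1 / 2 ^ p.r) ^ 4 / 2 ^ 13)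
    (hg : av (fun τ : Bool × Bool → F => Pr ν (fun ω => ¬ Good ν B ω τ)) ≤ e)
    {l S' : ℕ} (hl : 0 < l) (hS' : 2 * S' ≤ p.S) {η1 : ℝ} (hη1 : 0 ≤ η1)
    (hb : (Fintype.card F : ℝ) ^ l / (Fintype.card F : ℝ) ^ S' +
      Tc / (Fintype.card F : ℝ) ^ (S' * l) ≤ η1 ^ l)
    (hη1' : (8 * (Fintype.card F : ℝ)) ^ 8 * η1 ≤ δ ^ 4)
    {ι : Type} [Fintype ι] {P : ι → ℝ} {ρ : ι → Om F p → ℝ}
    {k : ι → Bool → Pt F p × Vo F p → Cr F p → ℝ} (hP : IsProb P)
    (hmix : ∀ f, Ex P (fun w => Ex (ρ w) f) = Ex ν f) (hρ : ∀ w, P w ≠ 0 → IsProb (ρ w))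
    (hsupp : ∀ w ω, ρ w ω ≠ 0 → ν ω ≠ 0)
    (hW : ∀ w ω ω', ρ w ω ≠ 0 → ρ w ω' ≠ 0 → W0 ω = W0 ω')
    (hbad : Pr P (fun w => ¬ GP0 (ρ w) (k w) δ Tc θ) ≤ 7 * δ) :
    (1 / 2 ^ p.r) ^ 4 / 64 /
      ((Fintype.card F : ℝ) ^ (4 * p.N) * (8 * (Fintype.card F : ℝ)) ^ 4) ≤ mainP ν B := by
  have hΩ : Nonempty (Om F p) := ⟨0⟩
  have hδe := mainT_small hS
  have hδ0 := hS.hδ0
  have he0 := hS.he0
  have he1 := hS.he
  choose! w0 hw0 using fun w (h : IsProb (ρ w)) => Ent_exists_ne h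
  have hs : ∀ w, Sup (ρ w) := fun w => ⟨fun ω hω => hν.reg ω (hsupp w ω hω), hW w⟩
  let Gd : ι → Prop := fun w => GP0 (ρ w) (k w) δ Tc θ
  let φ : mainT_X F p → ℝ := fun x => Ex P (fun w => ind (Gd w) * fw (k w) (Mt (w0 w)) x)
  have hφ0 : ∀ w x, 0 ≤ ind (Gd w) * fw (k w) (Mt (w0 w)) x ∧
      ind (Gd w) * fw (k w) (Mt (w0 w)) x ≤ 16 := fun w x => by
    by_cases h : Gd w
    · rw [ind_pos h, one_mul]
      exact ⟨mainT_fw_nonneg h.ker _ _, mainT_fw_le h.ker _ _⟩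
    · rw [ind_neg h, zero_mul]
      exact ⟨le_rfl, by norm_num⟩
  have h1 : av (fun x => |mainT_f ν B x - φ x|) ≤ 3 * e := by
    refine mainT_sign _ _ fun g hg1 => ?_
    have a1 := mainT_den_test ν (fun ω τ => Good ν B ω τ ∧ Z4 (Mt ω) (b4 ω τ))
      (fun ω τ => mainT_pb (b4 ω τ)) g
    have a2 : av (fun τ : Bool × Bool → F => Ex ν (fun ω =>
        ind (Good ν B ω τ ∧ Z4 (Mt ω) (b4 ω τ)) * g (mainT_pb (b4 ω τ)))) ≤
        av (fun τ : Bool × Bool → F => Ex ν (fun ω =>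
          ind (Z4 (Mt ω) (b4 ω τ)) * g (mainT_pb (b4 ω τ)))) +
        av (fun τ : Bool × Bool → F => Pr ν (fun ω => ¬ Good ν B ω τ)) := by
      rw [← av_add]
      refine av_mono fun τ => ?_
      rw [Pr, ← Ex_add]
      refine Ex_mono hν.prob.1 fun ω => ?_
      by_cases hG : Good ν B ω τ
      · rw [ind_neg (not_not.2 hG), ind_congr (and_iff_right hG), add_zero]
      · rw [ind_pos hG, ind_neg fun h => hG h.1, zero_mul]
        have := (abs_le.1 (MTools_mul_abs (x := ind (Z4 (Mt ω) (b4 ω τ)))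
          (by rw [abs_of_nonneg (ind_nonneg _)]; exact ind_le_one _) (hg1 (mainT_pb (b4 ω τ))))).1
        linarith
    rw [av_Ex ν (fun (τ : Bool × Bool → F) ω =>
      ind (Z4 (Mt ω) (b4 ω τ)) * g (mainT_pb (b4 ω τ))), ← hmix] at a2
    have a3 : Ex P (fun w => Ex (ρ w) (fun ω => av (fun τ : Bool × Bool → F =>
        ind (Z4 (Mt ω) (b4 ω τ)) * g (mainT_pb (b4 ω τ))))) ≤
        Ex P (fun w => av (fun x => g x * (ind (Gd w) * fw (k w) (Mt (w0 w)) x)) +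
          ind (¬ Gd w) + (δ + e)) := by
      refine Ex_mono' hP.1 fun w hw => ?_
      by_cases h : Gd w
      · simp only [ind_pos h, ind_neg (not_not.2 h), one_mul, add_zero]
        exact mainT_good hp h (hs w) hS hl hS' hη1 hb hη1' (hw0 w h.prob) g hg1
      · simp only [ind_neg h, ind_pos h, zero_mul, mul_zero, av_zero, zero_add]
        refine (Ex_le_const (hρ w hw) fun ω => av_le_const zero_le_one fun τ => ?_).trans
          (by linarith)
        exact (abs_le.1 (MTools_mul_abs (x := ind (Z4 (Mt ω) (b4 ω τ)))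
          (by rw [abs_of_nonneg (ind_nonneg _)]; exact ind_le_one _) (hg1 _))).2
    rw [Ex_add, Ex_add, Ex_const hP, ← av_Ex] at a3
    simp only [Ex_const_mul] at a3
    have a4 : Ex P (fun w => ind (¬ Gd w)) ≤ 7 * δ := hbad
    have a5 : av (fun x => g x * mainT_f ν B x) = _ := a1
    have a6 : av (fun x => g x * φ x) =
        av (fun x => g x * Ex P (fun w => ind (Gd w) * fw (k w) (Mt (w0 w)) x)) := rfl
    linarith
  have h2 := overlap (mainT_e F p) (mainT_f ν B) φ (mainT_den_nonneg hν.prob.1 _ _)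
    (fun x => Ex_nonneg hP.1 fun w => (hφ0 w x).1) (fun x => Ex_le_const hP fun w => (hφ0 w x).2)
  have h3 := mainT_le (p := p) hν.prob.1 B
  have hGd : 3 / 4 ≤ Pr P Gd := by
    have := Pr_not hP Gd
    have a4 : Pr P (fun w => ¬ Gd w) ≤ 7 * δ := hbad
    linarith
  have hc0 : (0 : ℝ) < 1 / 2 ^ p.r := by positivity
  have hc1 : (1 : ℝ) / 2 ^ p.r ≤ 1 := by
    rw [div_le_one (by positivity)]
    exact one_le_pow₀ (by norm_num)
  have h4 := four_cycle hP Gd hGd (fun w x y => ind (Gd w) * zw (k w) (Mt (w0 w)) x y)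
    (fun w x y => by
      by_cases h : Gd w
      · exact mul_nonneg (ind_nonneg _) (mainT_zw_nonneg h.ker _ _ _)
      · rw [ind_neg h, zero_mul]) hc0.le hc1 he0.le (by linarith) fun w h => by
      simp only [ind_pos h, one_mul]
      exact zlemma hp h (hs w) hS (hw0 w h.prob)
  have h5 : av (fun x => φ x * φ (mainT_e F p x)) = Ex P (fun w => Ex P (fun w' =>
      ind (Gd w) * ind (Gd w') * av (fun x => fw (k w) (Mt (w0 w)) x *
        fw (k w') (Mt (w0 w')) (mainT_e F p x)))) := by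
    have b1 : ∀ x, φ x * φ (mainT_e F p x) = Ex P (fun w => Ex P (fun w' =>
        ind (Gd w) * ind (Gd w') * (fw (k w) (Mt (w0 w)) x *
          fw (k w') (Mt (w0 w')) (mainT_e F p x)))) := fun x => by
      rw [← Ex_mul_const]
      refine Ex_congr fun w => ?_
      rw [← Ex_const_mul]
      refine Ex_congr fun w' => ?_
      ring
    simp only [b1]
    rw [av_Ex]
    refine Ex_congr fun w => ?_
    rw [av_Ex]
    exact Ex_congr fun w' => av_const_mul _ _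
  have h6 : 3 * (1 / 2 ^ p.r : ℝ) ^ 4 / 64 - 33 * e ≤ av (fun x => φ x * φ (mainT_e F p x)) := by
    rw [h5]
    refine h4.trans (le_of_eq (Ex_congr fun w => Ex_congr fun w' => ?_))
    rw [mainT_fw_pair]
    by_cases h : Gd w
    · by_cases h' : Gd w'
      · simp only [ind_pos h, ind_pos h', one_mul]
      · simp only [ind_neg h', mul_zero, zero_mul]
    · simp only [ind_neg h, zero_mul]
  have hq : (0 : ℝ) < Fintype.card F := by exact_mod_cast Fintype.card_pos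
  rw [div_le_iff₀ (by positivity), mul_comm]
  linarith

end

end Vale.Agent.P060
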