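import Vale.Agent.P060.SS

/-! P060: the random sample (union bound over fingerprints). -/

namespace Vale.Agent.P060

open Finset Vale.Agent.P056.Sharp

noncomputable section

open scoped Classical

variable {V : Type} [Fintype V] [Nonempty V]

lemma samp_invol {A B : Type} [Fintype A] [Fintype B] [Nonempty B] (f : A × B → A × B)
    (hf : Function.Involutive f) (h : A × B → ℝ) :
    av (fun a => av fun b => h (f (a, b))) = av (fun a => av fun b => h (a, b)) := by
  rw [← av_prod h, ← av_prod (fun p => h (f p))]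
  exact av_equiv hf.toPerm h

/-- conditioning on the coordinates in `S` -/
lemma samp_cond {ι σ : Type} [Fintype ι] [DecidableEq ι] (S : Finset ι) (F : (ι → V) → σ)
    (hF : ∀ X X', (∀ i ∈ S, X i = X' i) → F X = F X') (g : σ → (ι → V) → ℝ)
    (hg : ∀ s X X', (∀ i, i ∉ S → X i = X' i) → g s X = g s X') {c : ℝ} (hb : ∀ s, av (g s) ≤ c) :
    av (fun X => g (F X) X) ≤ c := by
  have h := samp_invol (fun p : (ι → V) × (ι → V) => (S.piecewise p.1 p.2, S.piecewise p.2 p.1))
    (fun p => by ext i <;> by_cases hi : i ∈ S <;> simp [hi]) (fun p => g (F p.1) p.1)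
  simp only [av_const] at h
  rw [← h]
  refine av_le_of_forall fun X => le_trans (le_of_eq (av_congr fun X' => ?_)) (hb (F X))
  rw [hF _ X fun i hi => piecewise_eq_of_mem _ _ _ hi]
  exact hg _ _ _ fun i hi => piecewise_eq_of_notMem _ _ _ hi

lemma samp_pull {ι κ : Type} [Fintype ι] [DecidableEq ι] [Fintype κ] [DecidableEq κ]
    {e : κ → ι} (he : Function.Injective e)
    (h : (κ → V) → ℝ) : av (fun X : ι → V => h (X ∘ e)) = av h := by
  have h1 := samp_invol (fun p : (ι → V) × (κ → V) => (Function.extend e p.2 p.1, p.1 ∘ e))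
    (fun p => by
      refine Prod.ext (funext fun i => ?_) (Function.extend_comp he _ _)
      by_cases hi : ∃ k, e k = i
      · obtain ⟨k, rfl⟩ := hi
        exact he.extend_apply _ _ _
      · exact (Function.extend_apply' _ _ _ hi).trans (Function.extend_apply' _ _ _ hi))
    (fun p => h p.2)
  simpa only [av_const] using h1

omit [Nonempty V] in
lemma samp_prod {ι : Type} [Fintype ι] [DecidableEq ι] (f : ι → V → ℝ) :
    av (fun X : ι → V => ∏ i, f i (X i)) = ∏ i, av (f i) := by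
  unfold av
  rw [prod_div_distrib, prod_univ_sum, Fintype.piFinset_univ, Fintype.card_fun, prod_const,
    card_univ, Nat.cast_pow]

lemma samp_prod_on {ι : Type} [Fintype ι] [DecidableEq ι] (S : Finset ι) (f : V → ℝ) :
    av (fun X : ι → V => ∏ i ∈ S, f (X i)) = av f ^ S.card := by
  have h := samp_prod (fun (i : ι) (a : V) => if i ∈ S then f a else 1)
  simp only [prod_ite_mem, univ_inter] at h
  rw [h, ← prod_const, ← prod_subset (subset_univ S) fun i _ hi => by simp [hi, av_const]]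
  exact prod_congr rfl fun i hi => by simp [hi]

lemma samp_pairs {ι κ : Type} [Fintype ι] [DecidableEq ι] [Fintype κ] [DecidableEq κ]
    {e : κ × Bool → ι}
    (he : Function.Injective e) (S : Finset κ) (f : V × V → ℝ) :
    av (fun X : ι → V => ∏ k ∈ S, f (X (e (k, false)), X (e (k, true)))) = av f ^ S.card := by
  rw [← samp_prod_on S f]
  have h1 := samp_pull he (fun Y : κ × Bool → V => ∏ k ∈ S, f (Y (k, false), Y (k, true)))
  let E : (κ × Bool → V) ≃ (κ → V × V) :=
    ⟨fun Y k => (Y (k, false), Y (k, true)), fun Z p => if p.2 then (Z p.1).2 else (Z p.1).1,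
      fun Y => by ext ⟨k, b⟩; cases b <;> simp, fun Z => by ext k <;> simp⟩
  exact h1.trans (av_equiv E fun Z => ∏ k ∈ S, f (Z k))

lemma samp_chernoff {ι : Type} [Fintype ι] [DecidableEq ι] (S : Finset ι) (y : V → ℝ) {B θ : ℝ}
    (hy : ∀ a, 0 ≤ y a ∧ y a ≤ B) (hθ : 0 ≤ θ) (hB : θ * B ≤ 1) :
    av (fun X : ι → V => Real.exp (θ * ∑ i ∈ S, y (X i))) ≤
      Real.exp (Fintype.card ι * (θ * av y + (θ * B) ^ 2)) := by
  simp only [mul_sum, Real.exp_sum]
  rw [samp_prod_on S fun a => Real.exp (θ * y a)]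
  have h0 : 0 ≤ θ * av y + (θ * B) ^ 2 :=
    add_nonneg (mul_nonneg hθ (av_nonneg fun a => (hy a).1)) (sq_nonneg _)
  have h1 : av (fun a => Real.exp (θ * y a)) ≤ Real.exp (θ * av y + (θ * B) ^ 2) := by
    refine le_trans ?_ (Real.add_one_le_exp _)
    rw [← av_const_mul, ← av_const (X := V) ((θ * B) ^ 2), ← av_const (X := V) 1, ← av_add,
      ← av_add]
    refine av_mono fun a => ?_
    have a0 : 0 ≤ θ * y a := mul_nonneg hθ (hy a).1
    have a1 : θ * y a ≤ θ * B := mul_le_mul_of_nonneg_left (hy a).2 hθ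
    have a2 := Real.abs_exp_sub_one_sub_id_le (x := θ * y a) (by rw [abs_of_nonneg a0]; linarith)
    have a3 : (θ * y a) ^ 2 ≤ (θ * B) ^ 2 := pow_le_pow_left₀ a0 a1 2
    linarith [le_abs_self (Real.exp (θ * y a) - 1 - θ * y a)]
  refine (pow_le_pow_left₀ (av_nonneg fun a => (Real.exp_pos _).le) h1 _).trans ?_
  rw [← Real.exp_nat_mul]
  exact Real.exp_le_exp.2 (mul_le_mul_of_nonneg_right (by exact_mod_cast card_le_univ S) h0)

/-- the pairs of `e` that avoid `S` -/
def sampFree {ι κ : Type} [Fintype κ] (e : κ × Bool → ι) (S : Finset ι) : Finset κ :=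
  univ.filter fun k => e (k, false) ∉ S ∧ e (k, true) ∉ S

lemma samp_mem_free {ι κ : Type} [Fintype κ] {e : κ × Bool → ι} {S : Finset ι} {k : κ} :
    k ∈ sampFree e S ↔ e (k, false) ∉ S ∧ e (k, true) ∉ S := by simp [sampFree]

lemma samp_free_card {ι κ : Type} [Fintype κ] {e : κ × Bool → ι} (he : Function.Injective e)
    (S : Finset ι) : Fintype.card κ ≤ (sampFree e S).card + S.card := by
  have h1 : (univ.filter fun p => e p ∈ S).card ≤ S.card :=
    card_le_card_of_injOn e (fun p hp => by simpa using hp) he.injOn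
  have h2 : (univ : Finset κ) ⊆ sampFree e S ∪ (univ.filter fun p => e p ∈ S).image Prod.fst := by
    intro k _
    simp only [sampFree, mem_union, mem_filter, mem_univ, true_and, mem_image]
    by_cases a : e (k, false) ∈ S
    · exact Or.inr ⟨_, a, rfl⟩
    · by_cases b : e (k, true) ∈ S
      · exact Or.inr ⟨_, b, rfl⟩
      · exact Or.inl ⟨a, b⟩
  exact (card_le_card h2).trans ((card_union_le _ _).trans
    (Nat.add_le_add_left (card_image_le.trans h1) _))

lemma samp_free_sum {ι κ : Type} [Fintype ι] [DecidableEq ι] [Fintype κ] {e : κ × Bool → ι}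
    (he : Function.Injective e) (S : Finset ι) (u : ι → ℝ) (hu : ∀ i, 0 ≤ u i) :
    ∑ k ∈ sampFree e S, (u (e (k, false)) + u (e (k, true))) ≤ ∑ i ∈ Sᶜ, u i := by
  have h1 : ∑ k ∈ sampFree e S, (u (e (k, false)) + u (e (k, true))) =
      ∑ p ∈ sampFree e S ×ˢ univ, u (e p) := by
    rw [sum_product]
    exact sum_congr rfl fun k _ => by simp [add_comm]
  rw [h1, ← sum_image (f := u) he.injOn]
  refine sum_le_sum_of_subset_of_nonneg (fun i hi => ?_) fun i _ _ => hu i
  obtain ⟨⟨k, b⟩, hp, rfl⟩ := mem_image.1 hi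
  have := samp_mem_free.1 (mem_product.1 hp).1
  cases b
  · exact mem_compl.2 this.1
  · exact mem_compl.2 this.2

theorem sample (H : V → V → Prop) (hs : ∀ a b, H a b → H b a) (n T : ℕ) (hn : 1 ≤ n)
    (hT : 10 ^ 6 * ((T : ℝ) + 1) * Real.log (100 * n) ^ 3 ≤ n)
    (C : List (V × V) → Finset (V × V)) (y : List (V × V) → V → ℝ)
    (hy : ∀ l a, 0 ≤ y l a ∧ y l a ≤ 15 * Real.log (100 * n))
    (hC : ∀ l, av (fun p : V × V => ind (p ∈ C l) * Real.exp (-(y l p.1) - y l p.2)) *
        Real.exp (102 * av (y l)) ≤ 1 / (100 * (n : ℝ)) ^ 3)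
    (hI : ∀ I : Finset (V × V), (∀ p ∈ I, p.swap ∈ I) → (∀ p ∈ I, ¬ H p.1 p.2) →
        (∀ p ∈ I, ∀ q ∈ I, ¬ Conf H p q) →
        ∃ l : List (V × V), l.length ≤ T ∧ (∀ p ∈ l, p ∈ I) ∧ I ⊆ C l) :
    ∃ X : Fin (100 * n) → V, ∀ e : Fin n × Bool → Fin (100 * n), Function.Injective e →
      (∀ i, ¬ H (X (e (i, false))) (X (e (i, true)))) →
      ∃ i j, Conf H (X (e (i, false)), X (e (i, true))) (X (e (j, false)), X (e (j, true))) := by
  have hn' : (1 : ℝ) ≤ n := by exact_mod_cast hn
  obtain ⟨L, hL⟩ : ∃ L, L = Real.log (100 * n) := ⟨_, rfl⟩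
  have hm : (100 * n : ℝ) = Real.exp L := by rw [hL, Real.exp_log (by positivity)]
  rw [← hL] at hT hy
  have hL2 : 2 ≤ L := by
    rw [← Real.exp_le_exp, ← hm, show (2 : ℝ) = 1 + 1 by norm_num, Real.exp_add]
    nlinarith [Real.exp_one_lt_d9, Real.exp_pos 1]
  have hT0 : (0 : ℝ) ≤ T := Nat.cast_nonneg _
  have hL3 : L ≤ L ^ 3 := by nlinarith [sq_nonneg L, mul_nonneg (sub_nonneg.2 hL2) (sq_nonneg L)]
  have hT1 : 10 ^ 6 * ((T : ℝ) + 1) ≤ n := by nlinarith
  obtain ⟨θ, hθ⟩ : ∃ θ : ℝ, θ = 1 / (200 * (15 * L) ^ 2) := ⟨_, rfl⟩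
  have hθ0 : 0 < θ := by rw [hθ]; positivity
  have hθ1 : θ * (200 * (15 * L) ^ 2) = 1 := by rw [hθ]; field_simp
  let S : (Fin T → Fin (100 * n) × Fin (100 * n)) → Finset (Fin (100 * n)) :=
    fun ψ => univ.image (fun t => (ψ t).1) ∪ univ.image fun t => (ψ t).2
  have hS : ∀ ψ, (S ψ).card ≤ 2 * T := fun ψ => (card_union_le _ _).trans <| by
    have a := card_image_le (s := univ) (f := fun t => (ψ t).1)
    have b := card_image_le (s := univ) (f := fun t => (ψ t).2)
    rw [card_univ, Fintype.card_fin] at a b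
    omega
  let F : Fin (T + 1) × (Fin T → Fin (100 * n) × Fin (100 * n)) → (Fin (100 * n) → V) →
      List (V × V) := fun φ X => (List.ofFn fun t => (X (φ.2 t).1, X (φ.2 t).2)).take φ.1
  have hF : ∀ φ X X', (∀ i ∈ S φ.2, X i = X' i) → F φ X = F φ X' := by
    intro φ X X' h
    simp only [F]
    congr 2
    funext t
    rw [h _ (mem_union_left _ (mem_image_of_mem _ (mem_univ t))),
      h _ (mem_union_right _ (mem_image_of_mem _ (mem_univ t)))]
  let g1 : Finset (Fin (100 * n)) → List (V × V) → (Fin (100 * n) → V) → ℝ := fun S l X =>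
    Real.exp (θ * ∑ i ∈ Sᶜ, y l (X i)) * Real.exp (-(θ * (100 * n * av (y l) + n)))
  let g2 : (Fin n × Bool → Fin (100 * n)) → Finset (Fin (100 * n)) → List (V × V) →
      (Fin (100 * n) → V) → ℝ := fun e S l X => ind (Function.Injective e) *
    (Real.exp (100 * n * av (y l) + n) * ∏ k ∈ sampFree e S,
      ind ((X (e (k, false)), X (e (k, true))) ∈ C l) *
        Real.exp (-(y l (X (e (k, false)))) - y l (X (e (k, true)))))
  have g1n : ∀ S l X, 0 ≤ g1 S l X := fun S l X => by positivity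
  have g2n : ∀ e S l X, 0 ≤ g2 e S l X := fun e S l X => mul_nonneg (ind_nonneg _)
    (mul_nonneg (Real.exp_pos _).le (prod_nonneg fun k _ =>
      mul_nonneg (ind_nonneg _) (Real.exp_pos _).le))
  have b1 : ∀ φ, av (fun X => g1 (S φ.2) (F φ X) X) ≤ Real.exp (-(θ * n / 2)) := by
    intro φ
    refine samp_cond (S φ.2) (F φ) (hF φ) (g1 (S φ.2)) (fun l X X' h => ?_) fun l => ?_
    · simp only [g1]
      rw [sum_congr rfl fun i hi => by rw [h i (mem_compl.1 hi)]]
    · simp only [g1]
      rw [av_mul_const]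
      refine (mul_le_mul_of_nonneg_right (samp_chernoff _ (y l) (hy l) hθ0.le (by nlinarith))
        (Real.exp_pos _).le).trans ?_
      rw [← Real.exp_add, Real.exp_le_exp, Fintype.card_fin]
      push_cast
      have : 100 * n * (θ * (15 * L)) ^ 2 = θ * n / 2 := by
        linear_combination (θ * n / 2) * hθ1
      linarith
  have b2 : ∀ φ e, av (fun X => g2 e (S φ.2) (F φ X) X) ≤
      Real.exp (n - 3 * L * (n - 2 * T)) := by
    intro φ e
    refine samp_cond (S φ.2) (F φ) (hF φ) (g2 e (S φ.2)) (fun l X X' h => ?_) fun l => ?_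
    · simp only [g2]
      rw [prod_congr rfl fun k hk => by
        rw [h _ (samp_mem_free.1 hk).1, h _ (samp_mem_free.1 hk).2]]
    · by_cases he : Function.Injective e
      swap
      · simp only [g2, ind_neg he, zero_mul, av_zero]
        positivity
      simp only [g2, ind_pos he, one_mul]
      rw [av_const_mul, samp_pairs he _
        (fun p : V × V => ind (p ∈ C l) * Real.exp (-(y l p.1) - y l p.2))]
      have c0 := av_nonneg (f := y l) fun a => (hy l a).1
      have c1 : av (fun p : V × V => ind (p ∈ C l) * Real.exp (-(y l p.1) - y l p.2)) ≤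
          Real.exp (-(3 * L) - 102 * av (y l)) := by
        have := hC l
        rw [hm, ← Real.exp_nat_mul, one_div, ← Real.exp_neg, ← le_div_iff₀ (Real.exp_pos _),
          ← Real.exp_sub] at this
        exact_mod_cast this
      have c2 : (n : ℝ) ≤ (sampFree e (S φ.2)).card + 2 * T := by
        have := (samp_free_card he (S φ.2)).trans (Nat.add_le_add_left (hS φ.2) _)
        rw [Fintype.card_fin] at this
        exact_mod_cast this
      refine (mul_le_mul_of_nonneg_left (pow_le_pow_left₀ (av_nonneg fun p =>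
        mul_nonneg (ind_nonneg _) (Real.exp_pos _).le) c1 _) (Real.exp_pos _).le).trans ?_
      rw [← Real.exp_nat_mul, ← Real.exp_add, Real.exp_le_exp]
      generalize ((sampFree e (S φ.2)).card : ℝ) = k at c2
      nlinarith [mul_nonneg c0 (show 0 ≤ 102 * k - 100 * n by linarith),
        mul_nonneg (show 0 ≤ L by linarith) (show 0 ≤ k + 2 * T - n by linarith)]
  have c1 : (Fintype.card (Fin (T + 1) × (Fin T → Fin (100 * n) × Fin (100 * n))) : ℝ) ≤
      Real.exp (3 * L * T) := by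
    simp only [Fintype.card_prod, Fintype.card_fin, Fintype.card_fun]
    push_cast
    rw [hm, ← Real.exp_add, ← Real.exp_nat_mul,
      show 3 * L * T = L * T + T * (L + L) by ring, Real.exp_add]
    refine mul_le_mul_of_nonneg_right ((Real.add_one_le_exp _).trans (Real.exp_le_exp.2 ?_))
      (Real.exp_pos _).le
    nlinarith
  have c2 : (Fintype.card (Fin n × Bool → Fin (100 * n)) : ℝ) = Real.exp (2 * n * L) := by
    simp only [Fintype.card_prod, Fintype.card_fin, Fintype.card_fun, Fintype.card_bool]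
    push_cast
    rw [hm, ← Real.exp_nat_mul]
    push_cast
    ring_nf
  have tot : av (fun X => ∑ φ, (g1 (S φ.2) (F φ X) X + ∑ e, g2 e (S φ.2) (F φ X) X)) < 1 := by
    rw [av_sum]
    have : ∀ φ, av (fun X => g1 (S φ.2) (F φ X) X + ∑ e, g2 e (S φ.2) (F φ X) X) ≤
        Real.exp (-(θ * n / 2)) + Real.exp (2 * n * L) * Real.exp (n - 3 * L * (n - 2 * T)) := by
      intro φ
      rw [av_add, av_sum]
      refine add_le_add (b1 φ) ((sum_le_sum fun e _ => b2 φ e).trans ?_)
      rw [sum_const, card_univ, nsmul_eq_mul, c2]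
    refine ((sum_le_sum fun φ _ => this φ).trans ?_).trans_lt
      (show Real.exp (-1) + Real.exp (-1) < 1 by linarith [Real.exp_neg_one_lt_d9])
    rw [sum_const, card_univ, nsmul_eq_mul]
    refine (mul_le_mul_of_nonneg_right c1 (by positivity)).trans ?_
    rw [mul_add, ← Real.exp_add, ← Real.exp_add, ← Real.exp_add]
    refine add_le_add (Real.exp_le_exp.2 ?_) (Real.exp_le_exp.2 ?_)
    · have d1 : θ * (10 ^ 6 * ((T : ℝ) + 1) * L ^ 3) ≤ θ * n :=
        mul_le_mul_of_nonneg_left hT hθ0.le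
      have d2 : θ * (10 ^ 6 * ((T : ℝ) + 1) * L ^ 3) = 200 / 9 * ((T + 1) * L) := by
        linear_combination (200 / 9 * ((T + 1) * L)) * hθ1
      nlinarith
    · nlinarith [mul_nonneg (show 0 ≤ L - 2 by linarith) (show (0 : ℝ) ≤ n by linarith),
        mul_le_mul_of_nonneg_left hT1 (show 0 ≤ L by linarith)]
  obtain ⟨X, hX⟩ : ∃ X, ∑ φ, (g1 (S φ.2) (F φ X) X + ∑ e, g2 e (S φ.2) (F φ X) X) < 1 := by
    by_contra hc
    push Not at hc
    exact absurd (le_av_of_forall hc) (not_le.2 tot)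
  refine ⟨X, fun e he hH => ?_⟩
  by_contra hc
  push Not at hc
  obtain ⟨l, hl, hlI, hIl⟩ := hI (univ.image fun p : Fin n × Bool => (X (e p), X (e (p.1, !p.2))))
    (by
      simp only [mem_image, mem_univ, true_and]
      rintro _ ⟨⟨k, b⟩, rfl⟩
      exact ⟨(k, !b), by simp⟩)
    (by
      simp only [mem_image, mem_univ, true_and]
      rintro _ ⟨⟨k, b⟩, rfl⟩
      cases b
      · exact hH k
      · exact fun h => hH k (hs _ _ h))
    (by
      simp only [mem_image, mem_univ, true_and]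
      rintro _ ⟨⟨k, b⟩, rfl⟩ _ ⟨⟨k', b'⟩, rfl⟩ h
      refine hc k k' ?_
      obtain ⟨h1, h2, h3, h4⟩ := h
      cases b <;> cases b'
      exacts [⟨h1, h2, h3, h4⟩, ⟨h2, h1, h4, h3⟩, ⟨h3, h4, h1, h2⟩, ⟨h4, h3, h2, h1⟩])
  have hψ : ∀ t : Fin T, ∃ q : Fin (100 * n) × Fin (100 * n), ∀ h : t.1 < l.length,
      (X q.1, X q.2) = l[t.1] := by
    intro t
    by_cases h : t.1 < l.length
    · obtain ⟨p, -, hp⟩ := mem_image.1 (hlI _ (List.getElem_mem h))
      exact ⟨(_, _), fun _ => hp⟩
    · exact ⟨(⟨0, by omega⟩, ⟨0, by omega⟩), fun h' => absurd h' h⟩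
  choose ψ hψ using hψ
  have hFl : F (⟨l.length, by omega⟩, ψ) X = l := by
    refine List.ext_getElem (by simp [F, hl]) fun t h1 h2 => ?_
    simp only [F, List.getElem_take, List.getElem_ofFn]
    exact hψ _ h2
  have d1 := (single_le_sum (f := fun φ => g1 (S φ.2) (F φ X) X + ∑ e, g2 e (S φ.2) (F φ X) X)
    (fun φ _ => add_nonneg (g1n _ _ _) (sum_nonneg fun e _ => g2n _ _ _ _))
    (mem_univ (⟨l.length, by omega⟩, ψ))).trans_lt hX
  simp only [hFl] at d1
  have d2 := single_le_sum (f := fun e => g2 e (S ψ) l X) (fun e _ => g2n _ _ _ _) (mem_univ e)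
  have d3 : g1 (S ψ) l X < 1 := by linarith [g2n e (S ψ) l X]
  have d4 : g2 e (S ψ) l X < 1 := by linarith [g1n (S ψ) l X]
  simp only [g1] at d3
  rw [← Real.exp_add, Real.exp_lt_one_iff, ← sub_eq_add_neg, ← mul_sub] at d3
  have d5 := neg_of_mul_neg_right d3 hθ0.le
  have hm2 : ∀ k, ind ((X (e (k, false)), X (e (k, true))) ∈ C l) = 1 := fun k =>
    ind_pos (hIl (mem_image.2 ⟨(k, false), mem_univ _, rfl⟩))
  simp only [g2, ind_pos he, hm2, one_mul] at d4
  rw [← Real.exp_sum, ← Real.exp_add, Real.exp_lt_one_iff] at d4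
  have d6 := samp_free_sum he (S ψ) (fun i => y l (X i)) fun i => (hy l _).1
  simp only [sum_sub_distrib, sum_neg_distrib] at d4
  rw [sum_add_distrib] at d6
  linarith

end

end Vale.Agent.P060
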