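import Vale.Agent.P060.Stmt
import Vale.Agent.P060.Contain
import Vale.Agent.P060.Sample

/-! P060: from supersaturation to the graph. -/

namespace Vale.Agent.P060

open Finset Vale.Agent.P056.Sharp

noncomputable section

open scoped Classical

lemma minor_conn_of {V : Type} (G : SimpleGraph V) {ι : Type} [Fintype ι] {n : ℕ}
    (hn : n ≤ Fintype.card ι) (e : ι × Bool → V) (he : Function.Injective e)
    (h1 : ∀ i, G.Adj (e (i, false)) (e (i, true)))
    (h2 : ∀ i j, i ≠ j → ∃ a b, G.Adj (e (i, a)) (e (j, b))) : HasConnMatching G n := by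
  obtain ⟨f⟩ : Nonempty (Fin n ↪ ι) := Function.Embedding.nonempty_of_card_le (by simpa using hn)
  refine ⟨fun p => e (f p.1, p.2), ?_, fun i => h1 _, fun i j hij => h2 _ _ (f.injective.ne hij)⟩
  intro p q hpq
  have := he hpq
  simp only [Prod.mk.injEq] at this
  exact Prod.ext (f.injective this.1) this.2

lemma minor_conn_of_branch {V : Type} (G : SimpleGraph V) {t : ℕ} (B : Fin t → Set V)
    (hd : ∀ i j, i ≠ j → Disjoint (B i) (B j))
    (hadj : ∀ i j, i ≠ j → ∃ u ∈ B i, ∃ v ∈ B j, G.Adj u v)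
    {ι : Type} [Fintype ι] {n : ℕ} (hn : n ≤ Fintype.card ι) (e : ι × Bool → V)
    (β : ι × Bool → Fin t) (hβ : ∀ p, e p ∈ B (β p))
    (hne : ∀ k k' b b', k ≠ k' → β (k, b) ≠ β (k', b'))
    (hall : ∀ k, ∀ u ∈ B (β (k, false)), ∃ b, u = e (k, b))
    (h1 : ∀ i, G.Adj (e (i, false)) (e (i, true))) : HasConnMatching G n := by
  refine minor_conn_of G hn e ?_ h1 ?_
  · rintro ⟨k, b⟩ ⟨k', b'⟩ h
    by_cases hk : k = k'
    · subst hk
      cases b <;> cases b'
      · rfl
      · exact absurd h (h1 k).ne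
      · exact absurd h.symm (h1 k).ne
      · rfl
    · exact absurd h (Set.disjoint_iff_forall_ne.1 (hd _ _ (hne k k' b b' hk)) (hβ _) (hβ _))
  · intro i j hij
    obtain ⟨u, hu, v, hv, huv⟩ := hadj _ _ (hne i j false false hij)
    obtain ⟨a, rfl⟩ := hall i u hu
    obtain ⟨b, rfl⟩ := hall j v hv
    exact ⟨a, b, huv⟩

lemma minor_pair_adj {V : Type} (G : SimpleGraph V) {x y : V} (hxy : x ≠ y)
    (h : (G.induce ({x, y} : Set V)).Connected) : G.Adj x y := by
  obtain ⟨w⟩ := h.preconnected ⟨x, by simp⟩ ⟨y, by simp⟩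
  cases w with
  | nil => exact absurd rfl hxy
  | @cons _ z _ hz _ =>
    obtain ⟨z, hz'⟩ := z
    have hz2 : G.Adj x z := hz
    rcases hz' with rfl | rfl
    · exact absurd rfl hz2.ne
    · exact hz2

/-- minors and connected matchings. -/
theorem minor_bound {m n t : ℕ} (G : SimpleGraph (Fin m)) (h : ¬ HasConnMatching G n)
    (ht : HasKMinor G t) : 3 * t + 2 ≤ m + 4 * n := by
  obtain ⟨B, hne, hconn, hd, hadj⟩ := ht
  set S : Fin t → Finset (Fin m) := fun i => univ.filter (fun v => v ∈ B i) with hS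
  have hSB : ∀ i v, v ∈ S i ↔ v ∈ B i := fun i v => by simp [hS]
  have hsum : ∑ i, (S i).card ≤ m := by
    rw [← card_biUnion]
    · simpa using card_le_univ (univ.biUnion S)
    · intro i _ j _ hij
      rw [Function.onFun, Finset.disjoint_left]
      intro v hi hj
      exact Set.disjoint_left.1 (hd i j hij) ((hSB _ _).1 hi) ((hSB _ _).1 hj)
  set A : Finset (Fin t) := univ.filter (fun i => (S i).card = 1) with hA
  set P : Finset (Fin t) := univ.filter (fun i => (S i).card = 2) with hP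
  have h3 : 3 * t ≤ m + 2 * A.card + P.card := by
    have e1 : 3 * t = ∑ _i : Fin t, 3 := by simp [mul_comm]
    have e2 : A.card = ∑ i, if (S i).card = 1 then 1 else 0 := by rw [hA, card_filter]
    have e3 : P.card = ∑ i, if (S i).card = 2 then 1 else 0 := by rw [hP, card_filter]
    have e4 : ∑ _i : Fin t, 3 ≤ ∑ i, ((S i).card + 2 * (if (S i).card = 1 then 1 else 0) +
        (if (S i).card = 2 then 1 else 0)) := by
      refine sum_le_sum fun i _ => ?_
      have : 0 < (S i).card := by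
        obtain ⟨v, hv⟩ := hne i
        exact card_pos.2 ⟨v, (hSB _ _).2 hv⟩
      split_ifs <;> omega
    rw [sum_add_distrib, sum_add_distrib, ← mul_sum, ← e2, ← e3] at e4
    omega
  suffices hlt : A.card / 2 + P.card < n by omega
  by_contra hge
  push Not at hge
  apply h
  -- data for singletons
  have hs1 : ∀ i : A, ∃ v, B i = {v} := fun i => by
    obtain ⟨v, hv⟩ := card_eq_one.1 (mem_filter.1 i.2).2
    refine ⟨v, Set.ext fun u => ?_⟩
    rw [← hSB, hv]; simp
  choose s hs using hs1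
  have hp1 : ∀ i : P, ∃ x y, G.Adj x y ∧ B i = {x, y} := fun i => by
    obtain ⟨x, y, hxy, hv⟩ := card_eq_two.1 (mem_filter.1 i.2).2
    have hB : B i = {x, y} := Set.ext fun u => by rw [← hSB, hv]; simp
    exact ⟨x, y, minor_pair_adj G hxy (hB ▸ hconn i), hB⟩
  choose px py hpxy hp using hp1
  have hcard : Fintype.card (Fin (A.card / 2) × Bool) ≤ Fintype.card A := by
    simp only [Fintype.card_prod, Fintype.card_fin, Fintype.card_bool, Fintype.card_coe]; omega
  obtain ⟨f⟩ := Function.Embedding.nonempty_of_card_le hcard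
  have hAP : ∀ (i : A) (j : P), (i : Fin t) ≠ j := fun i j hij => by
    have h1 := (mem_filter.1 i.2).2
    have h2 := (mem_filter.1 j.2).2
    rw [hij] at h1; omega
  refine minor_conn_of_branch G B hd hadj (ι := Fin (A.card / 2) ⊕ P) (by simpa using hge)
    (fun p => Sum.elim (fun k => s (f (k, p.2))) (fun j => bif p.2 then py j else px j) p.1)
    (fun p => Sum.elim (fun k => (f (k, p.2)).1) (fun j : P => j.1) p.1) ?_ ?_ ?_ ?_
  · rintro ⟨k | j, b⟩
    · simp [hs]
    · cases b <;> simp [hp]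
  · rintro (k | j) (k' | j') b b' hk
    · intro h0
      have := f.injective (Subtype.ext h0)
      exact hk (congrArg Sum.inl (Prod.ext_iff.1 this).1)
    · exact hAP _ _
    · exact (hAP _ _).symm
    · intro h0
      exact hk (congrArg Sum.inr (Subtype.ext h0))
  · rintro (k | j) u hu
    · refine ⟨false, ?_⟩
      simpa [hs] using hu
    · simp only [Sum.elim_inr, hp] at hu
      rcases hu with rfl | rfl
      · exact ⟨false, rfl⟩
      · exact ⟨true, rfl⟩
  · rintro (k | j)
    · have hne' : (f (k, false) : Fin t) ≠ f (k, true) := fun h0 => by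
        have := f.injective (Subtype.ext h0)
        simp at this
      obtain ⟨u, hu, v, hv, huv⟩ := hadj _ _ hne'
      rw [hs] at hu hv
      rw [Set.mem_singleton_iff.1 hu, Set.mem_singleton_iff.1 hv] at huv
      exact huv
    · exact hpxy j

theorem color_bound {m t : ℕ} (G : SimpleGraph (Fin m)) (h : G.IndepSetFree 3)
    (ht : G.Colorable t) : m ≤ 2 * t := by
  obtain ⟨c⟩ := ht
  have h1 : ∀ b ∈ (univ : Finset (Fin t)), (univ.filter (fun a => c a = b)).card ≤ 2 := by
    intro b _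
    by_contra hlt
    push Not at hlt
    obtain ⟨u, hu, hcu⟩ := exists_subset_card_eq (show 3 ≤ _ from hlt)
    refine h u ⟨?_, hcu⟩
    intro x hx y hy _ hxy
    have e1 := (mem_filter.1 (hu hx)).2
    have e2 := (mem_filter.1 (hu hy)).2
    exact c.valid hxy (e1.trans e2.symm)
  have := card_le_mul_card_image_of_maps_to (s := (univ : Finset (Fin m))) (t := univ)
    (f := fun a => c a) (fun _ _ => mem_univ _) 2 h1
  simpa using this

theorem graph_of_SS {V : Type} [Fintype V] [Nonempty V] (H : V → V → Prop)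
    (hs : ∀ a b, H a b → H b a) (hi : ∀ a, ¬ H a a)
    (htri : ∀ a b c, H a b → H a c → H b c → False) {K ε : ℝ} (hSS : SS H 64 K ε) (hε : 0 < ε)
    (hε1 : ε ≤ 1) (n : ℕ) (hn : 1 ≤ n) (hK : 2 * (100 * (n : ℝ)) ^ 33 ≤ K)
    (hεn : 10 ^ 7 * Real.log (100 * n) ^ 4 ≤ ε * n) :
    ∃ G : SimpleGraph (Fin (100 * n)), G.IndepSetFree 3 ∧ ¬ HasConnMatching G n := by
  have hn' : (1 : ℝ) ≤ n := by exact_mod_cast hn
  set L := Real.log (100 * n) with hL
  have hL1 : 1 ≤ L := by
    rw [hL, Real.le_log_iff_exp_le (by positivity)]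
    have := Real.exp_one_lt_d9
    linarith
  have hlog : Real.log ((100 * (n : ℝ)) ^ 3) = 3 * L := by rw [Real.log_pow]; norm_num [hL]
  set T := ⌈6 * L / ε⌉₊ with hT
  have hT1 : 6 * L / ε ≤ T := Nat.le_ceil _
  have hT2 : (T : ℝ) < 6 * L / ε + 1 := Nat.ceil_lt_add_one (by positivity)
  obtain ⟨C, y, hy, hC, hI⟩ := containers H hs hi (K0 := (100 * (n : ℝ)) ^ 3) hSS hε hε1
    (by nlinarith [one_le_pow₀ (show (1 : ℝ) ≤ n from hn') (n := 3), mul_pow (100 : ℝ) n 3])
    (by rw [← pow_mul]; exact hK) T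
    (by rw [hlog]; rw [div_le_iff₀ hε] at hT1; linarith)
  have hT3 : 10 ^ 6 * ((T : ℝ) + 1) * L ^ 3 ≤ n := by
    have h1 : ((T : ℝ) + 1) * ε ≤ 10 * L := by
      have : (6 * L / ε) * ε = 6 * L := by field_simp
      nlinarith
    have h2 : 10 ^ 6 * ((T : ℝ) + 1) * L ^ 3 * ε ≤ n * ε := by
      have h3 : 0 ≤ L ^ 3 := by positivity
      calc 10 ^ 6 * ((T : ℝ) + 1) * L ^ 3 * ε = 10 ^ 6 * L ^ 3 * (((T : ℝ) + 1) * ε) := by ring
        _ ≤ 10 ^ 6 * L ^ 3 * (10 * L) := by gcongr
        _ = 10 ^ 7 * L ^ 4 := by ring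
        _ ≤ n * ε := by linarith
    exact le_of_mul_le_mul_right h2 hε
  obtain ⟨X, hX⟩ := sample H hs n T hn hT3 C y
    (fun l a => ⟨(hy l a).1, by have := (hy l a).2; rw [hlog] at this; linarith⟩) hC hI
  let G : SimpleGraph (Fin (100 * n)) :=
    { Adj := fun i j => i ≠ j ∧ ¬ H (X i) (X j)
      symm := ⟨fun i j hij => ⟨hij.1.symm, fun h0 => hij.2 (hs _ _ h0)⟩⟩
      loopless := ⟨fun i hii => hii.1 rfl⟩ }
  refine ⟨G, ?_, ?_⟩
  · intro u hu
    obtain ⟨a, b, c, hab, hac, hbc, rfl⟩ := card_eq_three.1 hu.2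
    have key : ∀ x ∈ ({a, b, c} : Finset _), ∀ z ∈ ({a, b, c} : Finset _), x ≠ z →
        H (X x) (X z) := fun x hx z hz hxz => by
      by_contra h0
      exact hu.1 hx hz hxz ⟨hxz, h0⟩
    exact htri (X a) (X b) (X c) (key _ (by simp) _ (by simp) hab) (key _ (by simp) _ (by simp) hac)
      (key _ (by simp) _ (by simp) hbc)
  · rintro ⟨e, he, h1, h2⟩
    obtain ⟨i, j, hij⟩ := hX e he (fun i => (h1 i).2)
    have hne : i ≠ j := by
      rintro rfl
      exact hi _ hij.1
    obtain ⟨a, b, hab⟩ := h2 i j hne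
    cases a <;> cases b
    · exact hab.2 hij.1
    · exact hab.2 hij.2.1
    · exact hab.2 hij.2.2.1
    · exact hab.2 hij.2.2.2

end

end Vale.Agent.P060
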