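import Mathlib

/-! P060: real arithmetic for the choice of parameters. -/

namespace Vale.Agent.P060

lemma Num_cube (m : ℕ) (hm : 10 ≤ m) : m ^ 3 ≤ 2 ^ m := by
  induction m, hm using Nat.le_induction with
  | base => norm_num
  | succ n hn ih =>
    have h1 : 10 * (n * n) ≤ n * (n * n) := Nat.mul_le_mul_right _ hn
    have h2 : 10 * n ≤ n * n := Nat.mul_le_mul_right _ hn
    rw [pow_succ 2]
    nlinarith

lemma Num_div_le {q C : ℝ} {a b : ℕ} (hq : 1 ≤ q) (hC : C ≤ q) (h : a + 1 ≤ b) :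
    C * q ^ a ≤ q ^ b := by
  have h0 : 0 ≤ q := by linarith
  calc C * q ^ a ≤ q * q ^ a := mul_le_mul_of_nonneg_right hC (pow_nonneg h0 a)
    _ = q ^ (a + 1) := by ring
    _ ≤ _ := pow_le_pow_right₀ hq h

lemma Num_mass {q k r : ℝ} (hq : 100000 ≤ q) (hr : r = 341) (hk : (k + 2) ^ 2 ≤ q)
    {a b c : ℕ} (h : a + b + 2 ≤ c) :
    128 * ((r + 5) / q) + q ^ a * ((k + 2) ^ 2 * q ^ b / q ^ c) ≤ 1 / 2 := by
  have h0 : 0 < q := by linarith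
  have h1 : q ^ a * ((k + 2) ^ 2 * q ^ b / q ^ c) ≤ 1 / q := by
    rw [← mul_div_assoc, div_le_div_iff₀ (by positivity) h0, one_mul]
    have h2 := Num_div_le (a := a + b + 1) (b := c) (by linarith) hk (by omega)
    refine le_trans (le_of_eq ?_) h2
    ring
  have h2 : 128 * ((r + 5) / q) + 1 / q ≤ 1 / 2 := by
    rw [hr, ← mul_div_assoc, ← add_div, div_le_iff₀ h0]
    linarith
  linarith

lemma Num_hI (n : ℕ) (hn : 1 ≤ n) {s q x : ℝ} (hq : 1 ≤ q) (hx : 0 < x) :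
    2 * x ^ (24 * n) * s ^ (4 * n) * (4 * q ^ 2 / x ^ 120) ^ n ≤ (4 * s * q / x ^ 24) ^ (4 * n) := by
  have h0 : 0 ≤ q := by linarith
  have h1 : (2 : ℝ) ≤ 2 ^ n := le_self_pow₀ one_le_two (by omega)
  rw [pow_mul, pow_mul, pow_mul]
  calc 2 * (x ^ 24) ^ n * (s ^ 4) ^ n * (4 * q ^ 2 / x ^ 120) ^ n
      ≤ 2 ^ n * (x ^ 24) ^ n * (s ^ 4) ^ n * (4 * q ^ 2 / x ^ 120) ^ n := by gcongr
    _ = (2 * x ^ 24 * s ^ 4 * (4 * q ^ 2 / x ^ 120)) ^ n := by rw [mul_pow, mul_pow, mul_pow]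
    _ ≤ _ := by
      refine pow_le_pow_left₀ (by positivity) ?_ n
      have e1 : 2 * x ^ 24 * s ^ 4 * (4 * q ^ 2 / x ^ 120) = 8 * q ^ 2 * (s ^ 4 / x ^ 96) := by
        field_simp
        ring
      have e2 : (4 * s * q / x ^ 24) ^ 4 = 256 * q ^ 4 * (s ^ 4 / x ^ 96) := by
        field_simp
        ring
      have h2 : q ^ 2 ≤ q ^ 4 := pow_le_pow_right₀ hq (by norm_num)
      rw [e1, e2]
      exact mul_le_mul_of_nonneg_right (by nlinarith [sq_nonneg q]) (by positivity)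

lemma Num_hII {s q x : ℝ} (hs : 1 ≤ s) (hx : 1 ≤ x) :
    x ^ 3 * (4 * q ^ 2 / x ^ 120) ≤ (4 * s * q / x ^ 24) ^ 2 := by
  have h0 : 0 < x := by linarith
  have e1 : x ^ 3 * (4 * q ^ 2 / x ^ 120) = 4 * (q ^ 2 / x ^ 117) := by
    field_simp
  have e2 : (4 * s * q / x ^ 24) ^ 2 = 16 * s ^ 2 * x ^ 69 * (q ^ 2 / x ^ 117) := by
    field_simp
    ring
  have h1 : 1 ≤ s ^ 2 := one_le_pow₀ hs
  have h2 : 1 ≤ x ^ 69 := one_le_pow₀ hx
  rw [e1, e2]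
  exact mul_le_mul_of_nonneg_right (by nlinarith) (by positivity)

lemma Num_hb {q : ℝ} (hq : 2 ≤ q) {l a b c : ℕ} (h1 : 21 * l + 1 ≤ a) (h2 : b + 20 * l + 1 ≤ c) :
    q ^ l / q ^ a + q ^ b / q ^ c ≤ (1 / q ^ 20) ^ l := by
  have h0 : 0 < q := by linarith
  have key : ∀ u v : ℕ, u + 20 * l + 1 ≤ v → q ^ u / q ^ v ≤ (1 / q ^ 20) ^ l / 2 := by
    intro u v h
    rw [one_div_pow, ← pow_mul, div_div, div_le_div_iff₀ (by positivity) (by positivity), one_mul]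
    refine le_trans (le_of_eq ?_) (Num_div_le (a := u + 20 * l) (by linarith) hq h)
    ring
  linarith [key l a (by omega), key b c h2]

lemma Num_eps {c4 q x y z s n : ℝ} (hc : 0 < c4) (hq : 1 ≤ q) (hx : q ≤ x) (hy : 0 < y)
    (hz : z ≤ x ^ 4) (hs : 0 ≤ s) (hn : 0 ≤ n)
    (h1 : 2 ^ 35 * s * n / c4 ≤ q) (h2 : 2 ^ 21 / c4 ≤ q) :
    4 * (1 / (y * x ^ 120)) ≤ c4 / 64 / (y * (8 * q) ^ 4) / x ^ 8 -
      z * y * s * (4 * n * q / x ^ 24 * (128 * x ^ 3 / y) ^ 2) := by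
  have q0 : 0 < q := by linarith
  have x1 : 1 ≤ x := hq.trans hx
  have x0 : 0 < x := by linarith
  rw [div_le_iff₀ hc] at h1 h2
  have e1 : c4 / 64 / (y * (8 * q) ^ 4) / x ^ 8 = 2 * (c4 / (2 ^ 19 * q ^ 4 * x ^ 8 * y)) := by
    field_simp
    ring
  have a1 : 4 * (1 / (y * x ^ 120)) ≤ c4 / (2 ^ 19 * q ^ 4 * x ^ 8 * y) := by
    rw [mul_one_div, div_le_div_iff₀ (by positivity) (by positivity)]
    have b1 : q ^ 5 ≤ x ^ 112 := (pow_le_pow_left₀ q0.le hx 5).trans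
      (pow_le_pow_right₀ x1 (by norm_num))
    have b2 := mul_le_mul_of_nonneg_right h2 (show 0 ≤ q ^ 4 * x ^ 8 * y by positivity)
    have b3 := mul_le_mul_of_nonneg_right b1 (show 0 ≤ c4 * x ^ 8 * y by positivity)
    nlinarith
  have a2 : z * y * s * (4 * n * q / x ^ 24 * (128 * x ^ 3 / y) ^ 2) ≤
      c4 / (2 ^ 19 * q ^ 4 * x ^ 8 * y) := by
    have b0 : z * y * s * (4 * n * q / x ^ 24 * (128 * x ^ 3 / y) ^ 2) ≤
        x ^ 4 * y * s * (4 * n * q / x ^ 24 * (128 * x ^ 3 / y) ^ 2) := by gcongr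
    have e2 : x ^ 4 * y * s * (4 * n * q / x ^ 24 * (128 * x ^ 3 / y) ^ 2) =
        2 ^ 16 * s * n * q / (x ^ 14 * y) := by
      field_simp
      ring
    refine b0.trans ?_
    rw [e2, div_le_div_iff₀ (by positivity) (by positivity)]
    have b1 : q ^ 6 ≤ x ^ 6 := pow_le_pow_left₀ q0.le hx 6
    have b2 := mul_le_mul_of_nonneg_right h1 (show 0 ≤ q ^ 5 * x ^ 8 * y by positivity)
    have b3 := mul_le_mul_of_nonneg_right b1 (show 0 ≤ c4 * x ^ 8 * y by positivity)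
    nlinarith
  linarith

section

variable {m g L s t δ LK : ℝ}

/-- the standing size relations. -/
structure Num_Sz (m g L s t δ LK : ℝ) : Prop where
  m1 : 1 ≤ m
  mg : m ^ 3 ≤ g
  L1 : 1 ≤ L
  Lm : L ≤ 16 * m
  s1 : 1 ≤ s
  t1 : 1 ≤ t
  d0 : 0 < δ
  d1 : δ ≤ 1
  K0 : 0 ≤ LK
  K1 : LK ≤ 556593840 * s * g ^ 2 * L
  hA : 66560 * (16 * 556593840 * s + 400 * t * s ^ 2 + 1) ≤ δ ^ 3 * m

lemma Num_Sz.ex (h : Num_Sz m g L s t δ LK) : ∃ A : ℝ, 1 ≤ A ∧ 66560 * A ≤ δ ^ 3 * m ∧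
    16 * (556593840 * s + 1) ≤ A + 15 ∧ 400 * t * s ^ 2 ≤ A ∧ m ≤ g ∧ m ^ 2 ≤ g ∧ 1 ≤ g ∧
    δ ^ 3 ≤ δ ^ 2 ∧ δ ^ 2 ≤ 1 ∧ s ^ 2 ≤ t * s ^ 2 ∧ A ≤ m := by
  have a1 := h.s1
  have a2 := h.t1
  have a3 : m ^ 2 ≤ m ^ 3 := pow_le_pow_right₀ h.m1 (by norm_num)
  have a4 : m ≤ m ^ 2 := le_self_pow₀ h.m1 (by norm_num)
  have a5 : 0 ≤ t * s ^ 2 := by positivity
  have a6 : δ ^ 3 ≤ 1 := pow_le_one₀ h.d0.le h.d1
  have a7 := mul_le_mul_of_nonneg_right a6 (zero_le_one.trans h.m1)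
  refine ⟨_, by linarith, h.hA, by linarith, by linarith, by linarith [h.mg], by linarith [h.mg],
    by linarith [h.mg, h.m1], pow_le_pow_of_le_one h.d0.le h.d1 (by norm_num),
    pow_le_one₀ h.d0.le h.d1, le_mul_of_one_le_left (sq_nonneg s) a2, by linarith [h.hA]⟩

lemma Num_log128 : Real.log 128 ≤ 127 := by
  linarith [Real.log_le_sub_one_of_pos (show (0 : ℝ) < 128 by norm_num)]

lemma Num_log2 : Real.log 2 ≤ 1 := by
  linarith [Real.log_le_sub_one_of_pos (show (0 : ℝ) < 2 by norm_num)]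

lemma Num_Sz.div (h : Num_Sz m g L s t δ LK) : (LK + 1) / g ≤ (556593840 * s + 1) * g * L := by
  obtain ⟨A, -, -, -, -, -, -, g1, -⟩ := h.ex
  have h1 : 1 ≤ g ^ 2 * L := one_le_mul_of_one_le_of_one_le (one_le_pow₀ g1) h.L1
  rw [div_le_iff₀ (by linarith)]
  nlinarith [h.K1]

lemma Num_Sz.c1 (h : Num_Sz m g L s t δ LK) {Lc : ℝ} (hL : g ^ 2 = 2 * Lc) :
    1024 * (LK + 5 * t * (5 * s ^ 2 * L) + 1) ≤ δ ^ 3 * (Lc * m ^ 2) := by
  obtain ⟨A, -, -, -, -, -, -, g1, -, -, st, -⟩ := h.ex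
  have m0 : 0 ≤ m := zero_le_one.trans h.m1
  have s0 : 0 ≤ s := zero_le_one.trans h.s1
  have ts : 0 ≤ t * s ^ 2 := (sq_nonneg s).trans st
  have g2 : 1 ≤ g ^ 2 := one_le_pow₀ g1
  have b1 := mul_le_mul_of_nonneg_left h.Lm (show 0 ≤ 556593840 * s * g ^ 2 by positivity)
  have b2 := mul_le_mul_of_nonneg_left h.Lm ts
  have b3 := mul_le_mul_of_nonneg_left g2 (mul_nonneg ts m0)
  have b4 : 1 ≤ g ^ 2 * m := one_le_mul_of_one_le_of_one_le g2 h.m1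
  have b5 := mul_le_mul_of_nonneg_right h.hA (show 0 ≤ g ^ 2 * m by positivity)
  have b6 : 0 ≤ s * (g ^ 2 * m) := by positivity
  have b7 : 0 ≤ t * s ^ 2 * (g ^ 2 * m) := by positivity
  have e : Lc = g ^ 2 / 2 := by linarith
  rw [e]
  nlinarith [h.K1]

lemma Num_Sz.c2 (h : Num_Sz m g L s t δ LK) {Lc : ℝ} (hL : g ^ 2 = 2 * Lc) :
    256 * (5 * t * (5 * s ^ 2 * L) + Real.log 128 + (LK + 1) / g + 1) ≤ δ ^ 3 * Lc := by
  obtain ⟨A, A1, hA, A2, A3, -, mg2, g1, -, -, st, -⟩ := h.ex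
  have m0 : 0 ≤ m := zero_le_one.trans h.m1
  have s0 : 0 ≤ s := zero_le_one.trans h.s1
  have ts : 0 ≤ t * s ^ 2 := (sq_nonneg s).trans st
  have b0 : 1 ≤ g * m := one_le_mul_of_one_le_of_one_le g1 h.m1
  have b1 := mul_le_mul_of_nonneg_left h.Lm (show 0 ≤ (556593840 * s + 1) * g by positivity)
  have b2 := mul_le_mul_of_nonneg_left h.Lm ts
  have b3 := mul_le_mul_of_nonneg_right A2 (zero_le_one.trans b0)
  have b4 := mul_le_mul_of_nonneg_right A3 m0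
  have b5 := mul_le_mul_of_nonneg_left g1 (show 0 ≤ A * m by positivity)
  have b6 := mul_le_mul_of_nonneg_right (show 1000 ≤ A by linarith [h.s1]) (zero_le_one.trans b0)
  have b7 := mul_le_mul_of_nonneg_right hA (zero_le_one.trans b0)
  have b8 := mul_le_mul_of_nonneg_left mg2 (show 0 ≤ δ ^ 3 * g by have := h.d0; positivity)
  have e : Lc = g ^ 2 / 2 := by linarith
  rw [e]
  nlinarith [h.div, Num_log128]

lemma Num_Sz.c3 (h : Num_Sz m g L s t δ LK) {Lc c : ℝ} (hL : g ^ 2 = 2 * Lc)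
    (hc : 10 ^ 10 ≤ δ ^ 2 * c) :
    2 * (LK + 5 * t * (5 * s ^ 2 * L) + 1) / Lc + 1 ≤ δ ^ 2 * (c * s * L) := by
  obtain ⟨A, A1, -, -, A3, mg, -, g1, -, -, st, Am⟩ := h.ex
  have L0 : 0 ≤ L := zero_le_one.trans h.L1
  have s0 : 0 ≤ s := zero_le_one.trans h.s1
  have g2 : g ≤ g ^ 2 := le_self_pow₀ g1 (by norm_num)
  have b0 : 1 ≤ g ^ 2 * L := one_le_mul_of_one_le_of_one_le (g1.trans g2) h.L1
  have b1 := mul_le_mul_of_nonneg_right (A3.trans (Am.trans (mg.trans g2))) L0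
  have b2 : 2 * (LK + 5 * t * (5 * s ^ 2 * L) + 1) / Lc ≤ 4 * (556593840 * s + 2) * L := by
    rw [div_le_iff₀ (by linarith), show Lc = g ^ 2 / 2 by linarith]
    nlinarith [h.K1]
  have b3 := mul_le_mul_of_nonneg_right hc (mul_nonneg s0 L0)
  have b4 := mul_le_mul_of_nonneg_right h.s1 L0
  nlinarith [h.L1]

lemma Num_Sz.c4 (h : Num_Sz m g L s t δ LK) :
    5 * t * (5 * s ^ 2 * L) + (4 * m ^ 2 + 1) * (3 * s ^ 2 * L) + Real.log 128 + (LK + 1) / g +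
      Real.log 2 ≤ δ ^ 2 * (g ^ 2 * L) := by
  obtain ⟨A, A1, hA, A2, A3, mg, mg2, g1, d32, -, st, -⟩ := h.ex
  have L0 : 0 ≤ L := zero_le_one.trans h.L1
  have m0 : 0 ≤ m := zero_le_one.trans h.m1
  have s0 : 0 ≤ s := zero_le_one.trans h.s1
  have b0 : 1 ≤ g * L := one_le_mul_of_one_le_of_one_le g1 h.L1
  have b1 := mul_le_mul_of_nonneg_right A3 L0
  have b2 := mul_le_mul_of_nonneg_left g1 (show 0 ≤ A * L by positivity)
  have b3 := mul_le_mul_of_nonneg_right (show 4 * m ^ 2 + 1 ≤ 5 * g by linarith)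
    (show 0 ≤ 3 * s ^ 2 * L by positivity)
  have b4 := mul_le_mul_of_nonneg_right (show 15 * s ^ 2 ≤ A by nlinarith [sq_nonneg s])
    (zero_le_one.trans b0)
  have b5 := mul_le_mul_of_nonneg_right (show 556593840 * s + 1 ≤ A by linarith)
    (zero_le_one.trans b0)
  have b6 := mul_le_mul_of_nonneg_right A1 (zero_le_one.trans b0)
  have b7 : 66560 * A ≤ δ ^ 2 * g := hA.trans (mul_le_mul d32 mg m0 (sq_nonneg δ))
  have b8 := mul_le_mul_of_nonneg_right b7 (zero_le_one.trans b0)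
  nlinarith [h.div, Num_log128, Num_log2]

lemma Num_Sz.c5 (h : Num_Sz m g L s t δ LK) {N : ℝ} (hN : N ≤ 1632240 * s * g ^ 2) :
    (g ^ 2) ^ 3 * ((N + 3 * s ^ 2) * L) ≤ g ^ 16 := by
  obtain ⟨A, A1, -, A2, A3, mg, -, g1, -, -, st, Am⟩ := h.ex
  have L0 : 0 ≤ L := zero_le_one.trans h.L1
  have s0 : 0 ≤ s := zero_le_one.trans h.s1
  have g0 : 0 ≤ g := zero_le_one.trans g1
  have g2 : 1 ≤ g ^ 2 := one_le_pow₀ g1
  have b1 := mul_le_mul_of_nonneg_left g2 (show 0 ≤ 3 * s ^ 2 by positivity)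
  have b2 : 16 * (1632240 * s + 3 * s ^ 2) ≤ g := by nlinarith [sq_nonneg s]
  have b3 := mul_le_mul_of_nonneg_right b2 (sq_nonneg g)
  have b4 : (N + 3 * s ^ 2) * L ≤ (g * g ^ 2 / 16) * (16 * g) :=
    mul_le_mul (by linarith) (by linarith [h.Lm]) L0 (by positivity)
  calc _ ≤ (g ^ 2) ^ 3 * ((g * g ^ 2 / 16) * (16 * g)) := by gcongr
    _ = g ^ 10 := by ring
    _ ≤ _ := pow_le_pow_right₀ g1 (by norm_num)

end

lemma Num_good {r q g U L LK e : ℝ} (hr : r = 341) (g1 : 1 ≤ g) (hq : g ≤ q) (hU : g ≤ U)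
    (L1 : 1 ≤ L) (hK : LK ≤ 341 * (120 * U) * L) (he : 83213 ≤ e * g) :
    (8 + 4 * r) / q + 3 * ((2 * LK / g + 1) / (3 * U * L)) ≤ e := by
  have g0 : 0 < g := by linarith
  have U0 : 0 < U := by linarith
  have L0 : 0 < L := by linarith
  have a1 : (8 + 4 * r) / q ≤ 1372 / g := by
    rw [hr]
    exact div_le_div₀ (by norm_num) (by norm_num) g0 hq
  have a2 : g ≤ U * L := hU.trans (le_mul_of_one_le_right U0.le L1)
  have a3 : 3 * ((2 * LK / g + 1) / (3 * U * L)) ≤ 81841 / g := by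
    rw [show 3 * ((2 * LK / g + 1) / (3 * U * L)) = (2 * LK + g) / (U * L) / g by field_simp]
    refine div_le_div_of_nonneg_right ?_ g0.le
    rw [div_le_iff₀ (by positivity)]
    linarith
  have a4 : 1372 / g + 81841 / g ≤ e := by
    rw [← add_div, div_le_iff₀ g0]
    linarith
  linarith

lemma Num_last {y : ℝ} (hy : 10 ^ 12 ≤ y) : 10 ^ 7 * Real.log (100 * y ^ 10) ^ 4 ≤ 1 / y ^ 5 * y ^ 10 := by
  have y0 : 0 < y := by linarith
  have h1 := Real.log_le_sub_one_of_pos y0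
  have h2 := Real.log_le_sub_one_of_pos (show (0 : ℝ) < 100 by norm_num)
  have h3 : Real.log (100 * y ^ 10) ≤ 11 * y := by
    rw [Real.log_mul (by norm_num) (by positivity), Real.log_pow]
    push_cast
    linarith
  have h4 : 0 ≤ Real.log (100 * y ^ 10) :=
    Real.log_nonneg (by linarith [one_le_pow₀ (n := 10) (show 1 ≤ y by linarith)])
  have h5 := pow_le_pow_left₀ h4 h3 4
  have h6 := mul_le_mul_of_nonneg_right hy (pow_pos y0 4).le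
  rw [show 1 / y ^ 5 * y ^ 10 = y * y ^ 4 by field_simp]
  nlinarith [pow_pos y0 4]

end Vale.Agent.P060
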