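import Vale.Agent.P060.Defs
import Vale.Agent.P060.NumA

/-! P060: the numerical conditions and their solution. -/

namespace Vale.Agent.P060

open Finset Polynomial Vale.Agent.P056.Sharp

noncomputable section

open scoped Classical

/-- all numerical conditions; `q = 2 ^ (2 a)` is the field size. -/
structure Num (a : ℕ) (q : ℝ) (p : Par) (n4 Lc l S' I G : ℕ) (K0 B Bd e η δ β θ Tc η1 ε : ℝ) :
    Prop where
  hqa : q = 2 ^ (2 * a)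
  ha : 0 < a
  ok : p.Ok
  h4 : p.ns = 4 * n4
  hLc : p.k = 2 * Lc
  hS : 2 * p.r + 5 ≤ p.S
  hSk : p.S + 1 ≤ 2 * p.k
  hN : 4 * q ^ 2 ≤ q ^ p.N
  hK0 : 1 ≤ K0
  hmass : 128 * (((p.r : ℝ) + 5) / q) +
    K0 * (((p.k : ℝ) + 2) ^ 2 * q ^ (p.r + 1) / q ^ ((p.r + 1) * p.N)) ≤ 1 / 2
  hB : 1 < B
  hBd : 0 ≤ Bd
  hI : 2 * K0 * (p.ns : ℝ) ^ p.ns * (4 * q ^ 2 / q ^ p.N) ^ n4 ≤ Bd ^ p.ns
  hII : B * (4 * q ^ 2 / q ^ p.N) ≤ Bd ^ 2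
  he0 : 0 < e
  he : e ≤ (1 / 2 ^ p.r) ^ 4 / 2 ^ 13
  hη : η = (e / 4) ^ 4 / 2
  hδ0 : 0 < δ
  hδ : δ ≤ η ^ 2 / 8
  hβa : 2 * (((3 * p.J : ℕ) : ℝ) + 3) / 2 ^ a ≤ β
  hβ : β ≤ η ^ 2 / 8
  hq : 10 * ((p.J : ℝ) + 1) ≤ η ^ 5 * q
  hθ0 : 0 < θ
  hθ1 : θ < 1
  hθ : (2 / η ^ 2) ^ 2 ≤ θ * q ^ (2 * p.k)
  hTc : 1 < Tc
  hl : 0 < l
  hS' : 2 * S' ≤ p.S
  hη1 : 0 ≤ η1
  hb : q ^ l / q ^ S' + Tc / q ^ (S' * l) ≤ η1 ^ l
  hη1' : (8 * q) ^ 8 * η1 ≤ δ ^ 4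
  hI0 : 0 < I
  hG0 : 0 < G
  hGI : G * (4 * I + 1) ≤ Lc
  hc : (p.k : ℝ) ^ 3 * ((p.N + 3 * ((p.S : ℝ) + 1) ^ 2) * Real.log q) ≤ q
  m1 : 1024 * (Real.log (2 * K0) + 5 * 2 ^ p.r * (5 * ((p.S : ℝ) + 1) ^ 2 * Real.log q) + 1) ≤
    δ ^ 3 * (Lc * I)
  m2 : 256 * (5 * 2 ^ p.r * (5 * ((p.S : ℝ) + 1) ^ 2 * Real.log q) + Real.log 128 +
    (Real.log (2 * K0) + 1) / G + 1) ≤ δ ^ 3 * Lc
  m3 : 2 * (Real.log (2 * K0) + 5 * 2 ^ p.r * (5 * ((p.S : ℝ) + 1) ^ 2 * Real.log q) + 1) / Lc + 1 ≤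
    δ ^ 2 * Real.log Tc
  m4 : 5 * 2 ^ p.r * (5 * ((p.S : ℝ) + 1) ^ 2 * Real.log q) +
    (4 * I + 1) * (3 * ((p.S : ℝ) + 1) ^ 2 * Real.log q) + Real.log 128 +
    (Real.log (2 * K0) + 1) / G + Real.log 2 ≤ δ ^ 2 * Real.log (1 / θ)
  hGk : 4 * p.j * G ≤ p.k
  hGq : ((G * 4 : ℕ) : ℝ) ^ 2 ≤ q
  hgood : (8 + 4 * (p.r : ℝ)) / q + 3 * ((2 * Real.log (2 * K0) / G + 1) / Real.log B) ≤ e
  hε : 4 * ε ≤ (1 / 2 ^ p.r) ^ 4 / 64 / (q ^ (4 * p.N) * (8 * q) ^ 4) /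
      q ^ (8 * (p.S + 1) * (p.J + 1)) -
    q ^ (4 * p.S * (p.J1 + 1)) * q ^ (4 * p.N) * (2 * (2 * ((p.S : ℝ) + 1) ^ 2 + 1)) *
      (Bd * (128 * B / q ^ (4 * p.N)) ^ 2)

/-- the chosen parameters, for a large `m`. -/
structure Num_Ctx (r ns n4 c l S' S m G k Lc U : ℕ) (q e η δ : ℝ) : Prop where
  hr : r = 341
  hn4 : n4 = 1700
  hns : ns = 4 * n4
  he0 : 0 < e
  he : e ≤ (1 / 2 ^ r) ^ 4 / 2 ^ 13
  hη : η = (e / 4) ^ 4 / 2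
  hδ : δ = η ^ 2 / 8
  hδ1 : δ ≤ 1
  hc : 10 ^ 10 ≤ δ ^ 2 * c
  hl : l = 3 * c + 1
  hS' : S' = 21 * l + 400
  hS : S = 2 * S'
  hG : G = 2 ^ m
  hk : k = G ^ 2
  hLc : Lc = G * 2 ^ (m - 1)
  hU : U = (S + 1) * ((2 * ns + 1) * k + 1)
  hq : q = (G : ℝ) ^ 16
  h1 : (10 : ℝ) ^ 67 ≤ m
  h2 : S + 1 ≤ m
  h3 : 66560 * (16 * 556593840 * ((S : ℝ) + 1) + 400 * 2 ^ r * ((S : ℝ) + 1) ^ 2 + 1) ≤ δ ^ 3 * m
  h4 : 136020 ≤ η ^ 5 * m
  h5 : (2 / η ^ 2) ^ 2 ≤ m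
  h6 : 8 ^ 8 ≤ δ ^ 4 * m
  h7 : 83213 ≤ e * m
  h8 : 2 ^ 35 * (2 * (2 * ((S : ℝ) + 1) ^ 2 + 1)) * ns / (1 / 2 ^ r) ^ 4 ≤ m
  h9 : 2 ^ 21 / (1 / 2 ^ r : ℝ) ^ 4 ≤ m

namespace Num_Ctx

variable {r ns n4 c l S' S m G k Lc U : ℕ} {q e η δ : ℝ}
  (h : Num_Ctx r ns n4 c l S' S m G k Lc U q e η δ)
include h

lemma η0 : 0 < η := by have := h.he0; rw [h.hη]; positivity
lemma δ0 : 0 < δ := by have := h.η0; rw [h.hδ]; positivity
lemma m6 : (10 : ℝ) ^ 6 ≤ m := le_trans (by norm_num) h.h1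
lemma m6' : 10 ^ 6 ≤ m := by exact_mod_cast h.m6
lemma mG : m ^ 3 ≤ G := h.hG ▸ Num_cube m (by have := h.m6'; omega)

lemma nat : 10 ^ 6 * m ^ 2 ≤ G ∧ m ≤ m ^ 2 ∧ G ≤ k ∧ G = 2 * 2 ^ (m - 1) ∧ k = 2 * Lc ∧ k ≤ U ∧
    S + 1 ≤ U ∧ 1 ≤ c := by
  have m6 := h.m6'
  have mm : 10 ^ 6 * m ^ 2 ≤ m ^ 3 := by
    rw [pow_succ' m 2]
    exact Nat.mul_le_mul_right _ m6
  have GH : G = 2 * 2 ^ (m - 1) := by
    rw [h.hG, ← pow_succ']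
    congr 1
    omega
  refine ⟨mm.trans h.mG, Nat.le_self_pow (by norm_num) m, h.hk ▸ Nat.le_self_pow (by norm_num) G,
    GH, ?_, ?_, ?_, ?_⟩
  · rw [h.hk, h.hLc, sq]
    nth_rewrite 2 [GH]
    ring
  · rw [h.hU]
    exact ((Nat.le_mul_of_pos_left k (by omega)).trans (Nat.le_succ _)).trans
      (Nat.le_mul_of_pos_left _ (by omega))
  · rw [h.hU]
    exact Nat.le_mul_of_pos_right _ (by omega)
  · rcases Nat.eq_zero_or_pos c with h0 | h0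
    · have := h.hc
      rw [h0] at this
      norm_num at this
    · exact h0

lemma mG1 : m ≤ G := by have := h.nat; omega
lemma U1 : 1 ≤ U := by have := h.nat; omega
lemma mg : (m : ℝ) ≤ G := by exact_mod_cast h.mG1
lemma g1 : (1 : ℝ) ≤ G := by linarith [h.mg, h.m6]
lemma gq : (G : ℝ) ≤ q := h.hq ▸ le_self_pow₀ h.g1 (by norm_num)
lemma mq : (m : ℝ) ≤ q := h.mg.trans h.gq
lemma q6 : (10 : ℝ) ^ 6 ≤ q := h.m6.trans h.mq
lemma q1 : 1 < q := by linarith [h.q6]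
lemma q0 : 0 < q := by linarith [h.q6]
lemma kg : (k : ℝ) = (G : ℝ) ^ 2 := by rw [h.hk]; push_cast; rfl
lemma kL : (G : ℝ) ^ 2 = 2 * Lc := by rw [← h.kg, h.nat.2.2.2.2.1]; push_cast; rfl
lemma rr : (r : ℝ) = 341 := by rw [h.hr]; norm_num
lemma ns1 : (1 : ℝ) ≤ ns := by rw [h.hns, h.hn4]; norm_num
lemma x1 : q ≤ q ^ U := le_self_pow₀ h.q1.le (by have := h.U1; omega)

lemma hJ : (((2 * ns + 1) * k : ℕ) : ℝ) + 1 ≤ 13602 * (G : ℝ) ^ 2 := by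
  have h1 := h.nat
  have h2 := h.m6'
  rw [← h.kg, h.hns, h.hn4]
  exact_mod_cast (show (2 * (4 * 1700) + 1) * k + 1 ≤ 13602 * k by omega)

lemma hU' : (U : ℝ) ≤ 13602 * ((S : ℝ) + 1) * (G : ℝ) ^ 2 := by
  have := mul_le_mul_of_nonneg_left h.hJ (show 0 ≤ (S : ℝ) + 1 by positivity)
  rw [h.hU]
  push_cast at this ⊢
  linarith

lemma gU : (G : ℝ) ≤ U := by exact_mod_cast h.nat.2.2.1.trans h.nat.2.2.2.2.2.1

lemma lq : Real.log q = 16 * m * Real.log 2 := by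
  rw [h.hq, h.hG]
  push_cast
  rw [Real.log_pow, Real.log_pow]
  push_cast
  ring

lemma L1 : 1 ≤ Real.log q := by
  have h1 := Real.log_two_gt_d9
  have h2 := h.m6
  rw [h.lq]
  nlinarith

lemma Lm : Real.log q ≤ 16 * m := by
  rw [h.lq]
  exact mul_le_of_le_one_right (by positivity) Num_log2

lemma LK : Real.log (2 * q ^ (340 * (120 * U))) ≤ 341 * (120 * U) * Real.log q := by
  have h1 := h.q0
  have h2 := one_le_mul_of_one_le_of_one_le (h.g1.trans h.gU) h.L1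
  rw [Real.log_mul two_ne_zero (by positivity), Real.log_pow]
  push_cast
  linarith [Num_log2]

lemma sz : Num_Sz m G (Real.log q) ((S : ℝ) + 1) (2 ^ r) δ
    (Real.log (2 * q ^ (340 * (120 * U)))) :=
  ⟨by linarith [h.m6], by exact_mod_cast h.mG, h.L1, h.Lm,
    by linarith [Nat.cast_nonneg (α := ℝ) S], one_le_pow₀ one_le_two, h.δ0, h.hδ1,
    Real.log_nonneg (by linarith [one_le_pow₀ (n := 340 * (120 * U)) h.q1.le]),
    h.LK.trans (mul_le_mul_of_nonneg_right (by linarith [h.hU']) (by linarith [h.L1])), h.h3⟩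

lemma d3 : 10 ^ 6 ≤ δ * m := by
  have a1 : δ ^ 3 ≤ δ := pow_le_of_le_one h.δ0.le h.hδ1 (by norm_num)
  have a2 := mul_le_mul_of_nonneg_right a1 (Nat.cast_nonneg (α := ℝ) m)
  have a3 : (0 : ℝ) ≤ 400 * 2 ^ r * ((S : ℝ) + 1) ^ 2 := by positivity
  linarith [h.sz.s1, h.h3]

lemma gp (a b : ℕ) (hab : a + 1 ≤ b) (C D : ℝ) (hD : 0 ≤ D) (hC : C ≤ D * m) :
    C * (G : ℝ) ^ a ≤ D * (G : ℝ) ^ b := by
  have a1 := Num_div_le (q := G) (C := m) h.g1 h.mg hab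
  have a2 := mul_le_mul_of_nonneg_right hC (show 0 ≤ (G : ℝ) ^ a by positivity)
  have a3 := mul_le_mul_of_nonneg_left a1 hD
  linarith

lemma f1 : ((k : ℝ) + 2) ^ 2 ≤ q := by
  have a1 := h.gp 4 16 (by norm_num) 9 1 zero_le_one (by linarith [h.m6])
  have a2 : 1 ≤ (G : ℝ) ^ 2 := one_le_pow₀ h.g1
  have a3 := pow_le_pow_left₀ (by positivity) (show (G : ℝ) ^ 2 + 2 ≤ 3 * G ^ 2 by linarith) 2
  rw [h.kg, h.hq]
  linarith

lemma f2 : 2 * q ^ (340 * (120 * U)) * (ns : ℝ) ^ ns * (4 * q ^ 2 / q ^ (120 * U)) ^ n4 ≤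
    (4 * ns * q / q ^ (24 * U)) ^ ns := by
  have a1 := Num_hI n4 (by have := h.hn4; omega) (s := ns) h.q1.le (pow_pos h.q0 U)
  rw [← pow_mul, ← pow_mul, ← pow_mul, ← h.hns, mul_comm U 120, mul_comm U 24,
    show U * (24 * n4) = 340 * (120 * U) by rw [h.hn4]; ring] at a1
  exact a1

lemma f3 : q ^ (3 * U) * (4 * q ^ 2 / q ^ (120 * U)) ≤ (4 * ns * q / q ^ (24 * U)) ^ 2 := by
  have a1 := Num_hII (q := q) h.ns1 (h.q1.le.trans h.x1)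
  rw [← pow_mul, ← pow_mul, ← pow_mul, mul_comm U 120, mul_comm U 24, mul_comm U 3] at a1
  exact a1

lemma f4 : 2 * (((3 * ((2 * ns + 1) * k) : ℕ) : ℝ) + 3) / 2 ^ (8 * m) ≤ δ := by
  have a1 := h.gp 2 8 (by norm_num) 81612 δ h.δ0.le (by linarith [h.d3])
  have a2 : (2 : ℝ) ^ (8 * m) = (G : ℝ) ^ 8 := by
    rw [h.hG]; push_cast; rw [← pow_mul, mul_comm]
  have a3 := h.hJ
  have a4 := h.g1
  rw [a2, div_le_iff₀ (by positivity)]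
  push_cast at a3 ⊢
  linarith

lemma f5 : 10 * ((((2 * ns + 1) * k : ℕ) : ℝ) + 1) ≤ η ^ 5 * q := by
  have a1 := h.gp 2 16 (by norm_num) 136020 (η ^ 5) (pow_pos h.η0 5).le h.h4
  rw [h.hq]
  linarith [h.hJ]

lemma f6 : (2 / η ^ 2) ^ 2 ≤ 1 / q ^ k * q ^ (2 * k) := by
  have a1 : q ≤ q ^ k := le_self_pow₀ h.q1.le (by have := h.nat; have := h.m6'; omega)
  rw [two_mul, pow_add, one_div, inv_mul_cancel_left₀ (pow_pos h.q0 _).ne']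
  exact h.h5.trans (h.mq.trans a1)

lemma f7 : c * (S + 1) + 20 * l + 1 ≤ S' * l := by
  have a0 := h.hS'
  have a1 := Nat.mul_le_mul_left c (show 1 ≤ S' by omega)
  rw [h.hS]
  nth_rewrite 2 [h.hl]
  nlinarith

lemma f8 : (8 * q) ^ 8 * (1 / q ^ 20) ≤ δ ^ 4 := by
  have a0 := h.q0
  have a1 := Num_div_le (a := 8) (b := 20) h.q1.le h.mq (by norm_num)
  have a2 := mul_le_mul_of_nonneg_right h.h6 (show 0 ≤ q ^ 8 by positivity)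
  have a3 := mul_le_mul_of_nonneg_left a1 (show 0 ≤ δ ^ 4 by positivity)
  rw [mul_one_div, div_le_iff₀ (by positivity), mul_pow]
  linarith

lemma f9 : (k : ℝ) ^ 3 * ((((120 * U : ℕ) : ℝ) + 3 * ((S : ℝ) + 1) ^ 2) * Real.log q) ≤ q := by
  have a1 := h.sz.c5 (N := (120 * U : ℕ)) (by push_cast; linarith [h.hU'])
  rw [← h.hq, ← h.kg] at a1
  exact a1

lemma f10 : ((G * 4 : ℕ) : ℝ) ^ 2 ≤ q := by
  have a1 := h.gp 2 16 (by norm_num) 16 1 zero_le_one (by linarith [h.m6])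
  rw [h.hq]
  push_cast
  linarith

lemma f11 : 4 * (1 / (q ^ (120 * U)) ^ 5) ≤
    (1 / 2 ^ r) ^ 4 / 64 / (q ^ (4 * (120 * U)) * (8 * q) ^ 4) /
      q ^ (8 * (S + 1) * ((2 * ns + 1) * k + 1)) -
    q ^ (4 * S * (2 * ns * k + 1)) * q ^ (4 * (120 * U)) * (2 * (2 * ((S : ℝ) + 1) ^ 2 + 1)) *
      (4 * ns * q / q ^ (24 * U) * (128 * q ^ (3 * U) / q ^ (4 * (120 * U))) ^ 2) := by
  have a0 : 4 * S * (2 * ns * k + 1) ≤ U * 4 := by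
    rw [h.hU, mul_assoc, mul_comm]
    exact Nat.mul_le_mul_right _ (Nat.mul_le_mul (Nat.le_succ _)
      (Nat.succ_le_succ (Nat.mul_le_mul_right _ (Nat.le_succ _))))
  have a1 := Num_eps (z := q ^ (4 * S * (2 * ns * k + 1))) (y := q ^ (4 * (120 * U)))
    (by positivity) h.q1.le h.x1 (pow_pos h.q0 _)
    (by rw [← pow_mul]; exact pow_le_pow_right₀ h.q1.le a0) (by positivity) (by positivity)
    (h.h8.trans h.mq) (h.h9.trans h.mq)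
  rw [← pow_mul, ← pow_mul, ← pow_mul, ← pow_mul, ← pow_add, mul_comm U 24, mul_comm U 3,
    show 4 * (120 * U) + U * 120 = 120 * U * 5 by ring, pow_mul q (120 * U) 5,
    show U * 8 = 8 * (S + 1) * ((2 * ns + 1) * k + 1) by rw [h.hU]; ring] at a1
  exact a1

lemma num : Num (8 * m) q ⟨120 * U, S, k, ns, r⟩ n4 Lc l S' (m ^ 2) G (q ^ (340 * (120 * U)))
    (q ^ (3 * U)) (4 * ns * q / q ^ (24 * U)) e η δ δ (1 / q ^ k) (q ^ (c * (S + 1)))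
    (1 / q ^ 20) (1 / (q ^ (120 * U)) ^ 5) := by
  obtain ⟨n1, n2, n3, n4', n5, n6, n7, n8⟩ := h.nat
  have n9 := h.m6'
  have n10 := h.hr
  have n11 := h.hn4
  have n12 := h.hns
  have n13 := h.hl
  have n14 := h.hS'
  have n15 := h.hS
  have n16 := h.h2
  have q0 := h.q0
  exact
    { hqa := by rw [h.hq, h.hG]; push_cast; rw [← pow_mul]; congr 1; omega
      ha := by omega
      ok := ⟨by dsimp only; omega, by dsimp only; omega, ⟨Lc, by dsimp only; omega⟩,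
        by dsimp only; omega⟩
      h4 := h.hns
      hLc := n5
      hS := by dsimp only; omega
      hSk := by dsimp only; omega
      hN := Num_div_le h.q1.le (by linarith [h.q6]) (by dsimp only; omega)
      hK0 := one_le_pow₀ h.q1.le
      hmass := Num_mass (by linarith [h.q6]) h.rr h.f1 (by dsimp only; rw [n10]; omega)
      hB := one_lt_pow₀ h.q1 (by omega)
      hBd := by positivity
      hI := h.f2
      hII := h.f3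
      he0 := h.he0
      he := h.he
      hη := h.hη
      hδ0 := h.δ0
      hδ := h.hδ.le
      hβa := h.f4
      hβ := h.hδ.le
      hq := h.f5
      hθ0 := by positivity
      hθ1 := (div_lt_one (by positivity)).2 (one_lt_pow₀ h.q1 (by omega))
      hθ := h.f6
      hTc := one_lt_pow₀ h.q1 (Nat.mul_pos n8 (Nat.succ_pos _)).ne'
      hl := by omega
      hS' := h.hS.ge
      hη1 := by positivity
      hb := Num_hb (by linarith [h.q6]) (by omega) h.f7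
      hη1' := h.f8
      hI0 := by omega
      hG0 := by omega
      hGI := by rw [h.hLc]; exact Nat.mul_le_mul_left _ (by omega)
      hc := h.f9
      m1 := by rw [Nat.cast_pow]; exact h.sz.c1 h.kL
      m2 := h.sz.c2 h.kL
      m3 := by rw [Real.log_pow q, Nat.cast_mul, Nat.cast_add_one]; exact h.sz.c3 h.kL h.hc
      m4 := by rw [one_div_one_div, Real.log_pow q, h.kg, Nat.cast_pow]; exact h.sz.c4
      hGk := by
        unfold Par.j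
        dsimp only
        rw [h.hk, sq]
        exact Nat.mul_le_mul_right _ (by omega)
      hGq := h.f10
      hgood := by
        rw [Real.log_pow q (3 * U), Nat.cast_mul, Nat.cast_ofNat]
        exact Num_good h.rr h.g1 h.gq h.gU h.L1 h.LK
          (h.h7.trans (mul_le_mul_of_nonneg_left h.mg h.he0.le))
      hε := h.f11 }

end Num_Ctx

theorem exists_num (n0 : ℕ) : ∃ (a : ℕ) (q : ℝ) (p : Par) (n4 Lc l S' I G : ℕ)
    (K0 B Bd e η δ β θ Tc η1 ε : ℝ) (n : ℕ),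
    Num a q p n4 Lc l S' I G K0 B Bd e η δ β θ Tc η1 ε ∧ 0 < ε ∧ ε ≤ 1 ∧ n0 ≤ n ∧ 1 ≤ n ∧
      2 * (100 * (n : ℝ)) ^ 33 ≤ K0 ∧ 10 ^ 7 * Real.log (100 * n) ^ 4 ≤ ε * n := by
  obtain ⟨r, hr⟩ : ∃ r : ℕ, r = 341 := ⟨_, rfl⟩
  obtain ⟨e, he⟩ : ∃ e : ℝ, e = (1 / 2 ^ r) ^ 4 / 2 ^ 13 := ⟨_, rfl⟩
  obtain ⟨η, hη⟩ : ∃ η : ℝ, η = (e / 4) ^ 4 / 2 := ⟨_, rfl⟩
  obtain ⟨δ, hδ⟩ : ∃ δ : ℝ, δ = η ^ 2 / 8 := ⟨_, rfl⟩
  have he0 : 0 < e := by rw [he]; positivity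
  have hη0 : 0 < η := by rw [hη]; positivity
  have hδ0 : 0 < δ := by rw [hδ]; positivity
  have he1 : e ≤ 1 := by
    have : (1 / 2 ^ r : ℝ) ^ 4 ≤ 1 :=
      pow_le_one₀ (by positivity) ((div_le_one (by positivity)).2 (one_le_pow₀ one_le_two))
    rw [he]
    linarith
  have hη1 : η ≤ 1 := by
    have : (e / 4) ^ 4 ≤ 1 := pow_le_one₀ (by positivity) (by linarith)
    rw [hη]
    linarith
  have hδ1 : δ ≤ 1 := by
    have : η ^ 2 ≤ 1 := pow_le_one₀ hη0.le hη1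
    rw [hδ]
    linarith
  obtain ⟨c, hc⟩ := exists_nat_ge (10 ^ 10 / δ ^ 2)
  rw [div_le_iff₀' (by positivity)] at hc
  obtain ⟨S, hS⟩ : ∃ S : ℕ, S = 2 * (21 * (3 * c + 1) + 400) := ⟨_, rfl⟩
  have ev : ∀ C : ℝ, ∀ᶠ m : ℕ in Filter.atTop, C ≤ m := fun C =>
    tendsto_natCast_atTop_atTop.eventually_ge_atTop C
  have ev' : ∀ C D : ℝ, 0 < D → ∀ᶠ m : ℕ in Filter.atTop, C ≤ D * m := fun C D hD =>
    (ev (C / D)).mono fun m h => (div_le_iff₀' hD).1 h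
  obtain ⟨m, h0, h1, h2, h3, h4, h5, h6, h7, h8, h9⟩ := ((Filter.eventually_ge_atTop n0).and
    ((ev (10 ^ 67)).and ((Filter.eventually_ge_atTop (S + 1)).and
    ((ev' (66560 * (16 * 556593840 * ((S : ℝ) + 1) + 400 * 2 ^ r * ((S : ℝ) + 1) ^ 2 + 1)) (δ ^ 3)
      (by positivity)).and ((ev' 136020 (η ^ 5) (by positivity)).and
    ((ev ((2 / η ^ 2) ^ 2)).and ((ev' (8 ^ 8) (δ ^ 4) (by positivity)).and
    ((ev' 83213 e he0).and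
    ((ev (2 ^ 35 * (2 * (2 * ((S : ℝ) + 1) ^ 2 + 1)) * (4 * 1700 : ℕ) / (1 / 2 ^ r) ^ 4)).and
    (ev (2 ^ 21 / (1 / 2 ^ r : ℝ) ^ 4))))))))))).exists
  obtain ⟨G, hG⟩ : ∃ G : ℕ, G = 2 ^ m := ⟨_, rfl⟩
  obtain ⟨U, hU⟩ : ∃ U : ℕ, U = (S + 1) * ((2 * (4 * 1700) + 1) * G ^ 2 + 1) := ⟨_, rfl⟩
  obtain ⟨q, hq⟩ : ∃ q : ℝ, q = (G : ℝ) ^ 16 := ⟨_, rfl⟩
  have cx : Num_Ctx r (4 * 1700) 1700 c _ _ S m G _ _ U q e η δ :=
    ⟨hr, rfl, rfl, he0, he.le, hη, hδ, hδ1, hc, rfl, rfl, hS, hG, rfl, rfl, hU, hq, h1, h2, h3, h4,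
      h5, h6, h7, h8, h9⟩
  have a1 := cx.num
  have a2 := h1.trans cx.mq
  have a3 := cx.mG1
  have a4 := cx.U1
  have q1 : 1 ≤ q := le_trans (by norm_num) a2
  have hy : q ≤ q ^ (120 * U) := le_self_pow₀ q1 (by omega)
  have hn : (((G ^ 16) ^ (120 * U)) ^ 10 : ℕ) = (q ^ (120 * U)) ^ 10 := by
    rw [hq]
    push_cast
    rfl
  have hGn : G ≤ ((G ^ 16) ^ (120 * U)) ^ 10 :=
    (Nat.le_self_pow (by norm_num) G).trans
      ((Nat.le_self_pow (by omega) _).trans (Nat.le_self_pow (by norm_num) _))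
  have G1 : 1 ≤ G := hG ▸ Nat.one_le_two_pow
  refine ⟨_, _, _, _, _, _, _, _, _, _, _, _, _, _, _, _, _, _, _, _, ((G ^ 16) ^ (120 * U)) ^ 10,
    a1, by positivity, ?_, by omega, by omega, ?_, ?_⟩
  · exact (div_le_one (by positivity)).2 (one_le_pow₀ (q1.trans hy))
  · rw [hn, mul_comm 340, pow_mul q (120 * U) 340]
    generalize q ^ (120 * U) = y at hy
    refine le_trans (le_of_eq ?_) (Num_div_le (C := 2 * 100 ^ 33) (a := 330) (q1.trans hy)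
      (le_trans (by norm_num) (a2.trans hy)) (by norm_num))
    rw [mul_pow, ← pow_mul, mul_assoc]
  · rw [hn]
    exact Num_last (le_trans (by norm_num) (a2.trans hy))

end

end Vale.Agent.P060
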