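import Vale.Agent.P060.Four
import Vale.Agent.P060.MainT
import Vale.Agent.P060.Inst
import Vale.Agent.P060.Num
import Vale.Agent.P060.Minor

/-! P060: supersaturation for the construction and the final graphs. -/

namespace Vale.Agent.P060

open Finset Polynomial Vale.Agent.P056.Sharp

noncomputable section

open scoped Classical

section

variable {F : Type} [Field F] [Fintype F] [Algebra (ZMod 2) F] {a : ℕ} {q : ℝ} {p : Par}
  {n4 Lc l S' I G : ℕ} {K0 B Bd e η δ β θ Tc η1 ε : ℝ}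

/-- the conflict bound for admissible laws. -/
theorem adm_conflict (h : Num a q p n4 Lc l S' I G K0 B Bd e η δ β θ Tc η1 ε)
    (hF : Fintype.card F = 2 ^ (2 * a)) {ν : Om F p → ℝ} (hν : Adm ν 128 (2 * K0)) :
    4 * ε ≤ Ex ν (fun ω => Pr ν (fun ω' => ∀ i k, Adj (ω i) (ω' k))) := by
  have hq : (Fintype.card F : ℝ) = q := by rw [hF, h.hqa]; push_cast; rfl
  have hq4 : 4 ≤ Fintype.card F := by
    rw [hF]
    calc 4 = 2 ^ 2 := by norm_num
      _ ≤ 2 ^ (2 * a) := Nat.pow_le_pow_right (by norm_num) (by have := h.ha; omega)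
  have hq0 : 0 < q := by rw [← hq]; exact_mod_cast (by omega : 0 < Fintype.card F)
  have he1 : e ≤ 1 / 512 := by
    have h1 : (1 / 2 ^ p.r : ℝ) ≤ 1 := by
      rw [div_le_one (by positivity)]; exact one_le_pow₀ (by norm_num)
    have h2 : (1 / 2 ^ p.r : ℝ) ^ 4 ≤ 1 := pow_le_one₀ (by positivity) h1
    have := h.he
    linarith
  have hη1 : η ≤ 1 := by
    rw [h.hη]
    have : (e / 4) ^ 4 ≤ 1 := pow_le_one₀ (by have := h.he0; positivity) (by linarith)
    linarith
  have hη0 : 0 < η := by rw [h.hη]; have := h.he0; positivity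
  have hS : Small F p e η δ β θ :=
    { he0 := h.he0, he := he1, hη := h.hη, hδ0 := h.hδ0, hδ := h.hδ
      big := ⟨a, hF, h.hβa, by have := h.hβ; nlinarith⟩
      hβ := h.hβ, hq := by rw [hq]; exact h.hq, hθ := by rw [hq]; exact h.hθ }
  have hM := mhyp h.ok hν h.hLc (by rw [hq]; exact h.hc)
  have hW := hent_W0 h.ok hν hq4
  rw [hq] at hW
  have hV := log_card_VoCr (F := F) (p := p)
  rw [hq] at hV
  obtain ⟨ι, _, P, ρ, k, hP, hmix, hρ, hsupp, hW0, hbad⟩ :=
    model hM hW I G h.hI0 h.hG0 h.hGI h.hδ0 h.hTc h.hθ0 h.hθ1 h.m1 h.m2 h.m3 (by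
      have := h.m4
      have h2 : (4 * (I : ℝ) + 1) * Real.log (Fintype.card (Vo F p × Cr F p)) ≤
          (4 * I + 1) * (3 * ((p.S : ℝ) + 1) ^ 2 * Real.log q) :=
        mul_le_mul_of_nonneg_left hV (by positivity)
      linarith)
  have hg := good_prob h.ok hν h.hB h.hG0 h.hGk (by
    have := h.hGq
    rw [← hq] at this
    exact_mod_cast this)
  rw [hq] at hg
  have hmain := main_ge h.ok hν hS h.he (hg.trans h.hgood) h.hl h.hS' h.hη1
    (by rw [hq]; exact h.hb) (by rw [hq]; exact h.hη1') hP hmix hρ hsupp hW0 hbad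
  have hc := conflict_ge h.ok hq4 hν h.hB.le h.h4 (by rw [hq]; exact h.hN) h.hBd
    (by rw [hq]; exact h.hI) (by rw [hq]; exact h.hII)
  rw [hq] at hmain hc
  refine h.hε.trans (le_trans (sub_le_sub ?_ ?_) hc)
  · exact div_le_div_of_nonneg_right hmain (by positivity)
  · have hE : (Fintype.card (Ei p) : ℝ) ≤ ((p.S : ℝ) + 1) ^ 2 := by exact_mod_cast card_Ei_le p
    have := h.hBd
    gcongr

omit [Algebra (ZMod 2) F] in
lemma Final_av_vx (f : Cv F p → ℝ) : av (fun x : Vx F p => f x.1) = av f := by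
  rw [av_prod]; exact av_congr fun L => av_const (f L)

omit [Algebra (ZMod 2) F] in
lemma Final_av_mx (f : Mx F p → ℝ) : av (fun x : Vx F p => f x.2.1) = av f := by
  rw [av_prod]
  have : ∀ L : Cv F p, av (fun y : Mx F p × Gh F p => f ((L, y) : Vx F p).2.1) = av f := fun L => by
    rw [av_prod]; exact av_congr fun ψ => av_const (f ψ)
  exact (av_congr this).trans (av_const _)

theorem ss_of_num (h : Num a q p n4 Lc l S' I G K0 B Bd e η δ β θ Tc η1 ε)
    (hF : Fintype.card F = 2 ^ (2 * a)) : SS (Adj (F := F) (p := p)) 64 K0 ε := by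
  intro ν hν hsym hadj hmarg hdens
  have hq : (Fintype.card F : ℝ) = q := by rw [hF, h.hqa]; push_cast; rfl
  have hV : (0 : ℝ) < Fintype.card (Vx F p) := by exact_mod_cast Fintype.card_pos
  set E : Om F p ≃ Vx F p × Vx F p := Equiv.boolArrowEquivProd (Vx F p) with hE
  have hEa : ∀ ω : Om F p, E ω = (ω false, ω true) := fun ω => rfl
  have hsum : ∀ f : Vx F p × Vx F p → ℝ, ∑ ω : Om F p, f (E ω) = ∑ x, f x :=
    fun f => Equiv.sum_comp E f
  set ν0 : Om F p → ℝ := fun ω => ν (E ω) with hν0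
  have h0 : IsProb ν0 := ⟨fun ω => hν.1 _, (hsum ν).trans hν.2⟩
  have hEx : ∀ f : Vx F p × Vx F p → ℝ, Ex ν0 (fun ω => f (E ω)) = Ex ν f :=
    fun f => hsum (fun x => ν x * f x)
  -- marginals
  have hm : ∀ (i : Bool) (f : Vx F p → ℝ), (∀ x, 0 ≤ f x) → Ex ν0 (fun ω => f (ω i)) ≤ 64 * av f := by
    intro i f hf
    have key : ∑ x : Vx F p, (∑ y, ν (x, y)) * f x ≤ 64 * av f := by
      unfold av
      rw [mul_div_assoc', mul_sum, sum_div]
      refine sum_le_sum fun x _ => ?_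
      calc _ ≤ 64 / (Fintype.card (Vx F p) : ℝ) * f x := mul_le_mul_of_nonneg_right (hmarg x) (hf x)
        _ = _ := by ring
    cases i
    · refine le_trans (le_of_eq ?_) key
      refine (hEx (fun x => f x.1)).trans ?_
      unfold Ex
      rw [Fintype.sum_prod_type]
      exact sum_congr rfl fun x _ => by rw [sum_mul]
    · refine le_trans (le_of_eq ?_) key
      refine (hEx (fun x => f x.2)).trans ?_
      unfold Ex
      rw [Fintype.sum_prod_type_right]
      exact sum_congr rfl fun x _ => by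
        rw [sum_mul]; exact sum_congr rfl fun y _ => by rw [hsym]
  have hd : ∀ f : Vx F p × Vx F p → ℝ, (∀ x, 0 ≤ f x) → Ex ν f ≤ K0 * av f := by
    intro f hf
    unfold av Ex
    rw [mul_div_assoc', mul_sum, sum_div]
    refine sum_le_sum fun x _ => ?_
    calc _ ≤ K0 / (Fintype.card (Vx F p) : ℝ) ^ 2 * f x := mul_le_mul_of_nonneg_right (hdens x) (hf x)
      _ = _ := by rw [Fintype.card_prod (Vx F p) (Vx F p)]; push_cast; ring
  -- the mass of regular pairs
  have hT : ∀ i, Pr ν0 (fun ω => ¬ Typ (mx ω i)) ≤ 64 * (((p.r : ℝ) + 5) / q) := fun i => by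
    have h1 := hm i (fun x => ind (¬ Typ x.2.1)) (fun _ => ind_nonneg _)
    rw [Final_av_mx (fun ψ => ind (¬ Typ ψ))] at h1
    have h2 := av_not_typ (F := F) h.ok h.hS h.hSk
    rw [hq] at h2
    exact h1.trans (by linarith)
  have hO : Pr ν0 (fun ω => ¬ okc (cv ω false) (cv ω true)) ≤
      K0 * (((p.k : ℝ) + 2) ^ 2 * q ^ (p.r + 1) / q ^ ((p.r + 1) * p.N)) := by
    have h1 := hd (fun x => ind (¬ okc x.1.1 x.2.1)) (fun _ => ind_nonneg _)
    rw [← hEx] at h1
    refine le_trans h1 (mul_le_mul_of_nonneg_left ?_ (by linarith [h.hK0]))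
    rw [av_prod, av_comm]
    refine av_le_of_forall fun y => ?_
    have h2 := av_not_okc h.ok y.1
    rw [hq] at h2
    exact (Final_av_vx (fun c => ind (¬ okc c y.1))).le.trans h2
  have hR : 1 / 2 ≤ Pr ν0 Reg := by
    have h1 : Pr ν0 (fun ω => ¬ Reg ω) ≤ Pr ν0 (fun ω => (¬ Typ (mx ω false) ∨ ¬ Typ (mx ω true)) ∨
        ¬ okc (cv ω false) (cv ω true)) := by
      refine Pr_mono' h0.1 fun ω hω hr => ?_
      by_contra hc
      push Not at hc
      exact hr ⟨fun i => by cases i; exacts [hc.1.1, hc.1.2], hc.2, fun ha => hω (hadj _ _ ha)⟩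
    have h2 := Pr_or_le h0.1 (fun ω => ¬ Typ (mx ω false) ∨ ¬ Typ (mx ω true))
      (fun ω => ¬ okc (cv ω false) (cv ω true))
    have h3 := Pr_or_le h0.1 (fun ω => ¬ Typ (mx ω false)) (fun ω => ¬ Typ (mx ω true))
    rw [Pr_not h0] at h1
    have := h.hmass
    linarith [hT false, hT true]
  set μ := Pr ν0 Reg with hμ
  have hμ0 : 0 < μ := by linarith
  set ν1 : Om F p → ℝ := fun ω => ν0 ω * ind (Reg ω) / μ with hν1
  have hle : ∀ ω, ν1 ω ≤ 2 * ν0 ω := fun ω => by
    rw [hν1]; dsimp only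
    rw [div_le_iff₀ hμ0]
    have := h0.1 ω
    nlinarith [ind_le_one (Reg ω), ind_nonneg (Reg ω)]
  have h1n : ∀ ω, 0 ≤ ν1 ω := fun ω =>
    div_nonneg (mul_nonneg (h0.1 ω) (ind_nonneg _)) hμ0.le
  have hle' : ∀ f : Om F p → ℝ, (∀ ω, 0 ≤ f ω) → Ex ν1 f ≤ 2 * Ex ν0 f := fun f hf => by
    unfold Ex
    rw [mul_sum]
    exact sum_le_sum fun ω _ => by nlinarith [hle ω, hf ω]
  have hA : Adm ν1 128 (2 * K0) := by
    refine ⟨⟨h1n, ?_⟩, fun ω hω => ?_, fun i x => ?_, fun ω => ?_⟩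
    · rw [hν1]; dsimp only
      rw [← sum_div]
      exact div_self hμ0.ne'
    · by_contra hr
      exact hω (by rw [hν1]; simp [ind_neg hr])
    · have h2 := hle' (fun ω => ind (ω i = x)) (fun _ => ind_nonneg _)
      have h3 := hm i (fun y => ind (y = x)) (fun _ => ind_nonneg _)
      rw [av_ind_eq] at h3
      calc _ ≤ 2 * (64 * (1 / (Fintype.card (Vx F p) : ℝ))) := h2.trans (by linarith)
        _ = _ := by ring
    · calc _ ≤ 2 * ν0 ω := hle ω
        _ ≤ 2 * (K0 / (Fintype.card (Vx F p) : ℝ) ^ 2) := by linarith [hdens (E ω)]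
        _ = _ := by ring
  have hfin := adm_conflict h hF hA
  have h2 : Ex ν1 (fun ω => Pr ν1 (fun ω' => ∀ i k, Adj (ω i) (ω' k))) ≤
      2 * Ex ν0 (fun ω => 2 * Pr ν0 (fun ω' => ∀ i k, Adj (ω i) (ω' k))) :=
    (hle' _ (fun _ => Pr_nonneg h1n _)).trans (mul_le_mul_of_nonneg_left
      (Ex_mono h0.1 fun ω => hle' _ (fun _ => ind_nonneg _)) (by norm_num))
  rw [Ex_const_mul] at h2
  have h3 : Ex ν0 (fun ω => Pr ν0 (fun ω' => ∀ i k, Adj (ω i) (ω' k))) ≤
      Ex ν (fun x => Pr ν (fun y => Conf Adj x y)) := by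
    rw [← hEx]
    refine Ex_mono h0.1 fun ω => ?_
    unfold Pr
    rw [← hEx (fun y => ind (Conf Adj (E ω) y))]
    exact Ex_mono h0.1 fun ω' => ind_mono fun hc =>
      ⟨hc false false, hc false true, hc true false, hc true true⟩
  linarith

end

theorem exists_graph (n0 : ℕ) : ∃ n, n0 ≤ n ∧ 1 ≤ n ∧ ∃ G : SimpleGraph (Fin (100 * n)),
    G.IndepSetFree 3 ∧ ¬ HasConnMatching G n := by
  obtain ⟨a, q, p, n4, Lc, l, S', I, G, K0, B, Bd, e, η, δ, β, θ, Tc, η1, ε, n, h, hε, hε1, hn0,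
    hn, hK, hεn⟩ := exists_num n0
  have : Fact (Nat.Prime 2) := ⟨Nat.prime_two⟩
  have : Fintype (GaloisField 2 (2 * a)) := Fintype.ofFinite _
  have hF : Fintype.card (GaloisField 2 (2 * a)) = 2 ^ (2 * a) := by
    rw [← Nat.card_eq_fintype_card]
    exact GaloisField.card 2 (2 * a) (by have := h.ha; omega)
  refine ⟨n, hn0, hn, ?_⟩
  exact graph_of_SS (Adj (F := GaloisField 2 (2 * a)) (p := p)) (fun _ _ h => h.symm) Adj.irrefl
    (fun _ _ _ h1 h2 h3 => Adj.no_triangle h1 h2 h3) (ss_of_num h hF) hε hε1 n hn hK hεn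

end

end Vale.Agent.P060
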