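import Vale.Agent.P060.Vert
import Vale.Agent.P060.Edge

/-! P060: non-fresh characters are trivial on the main event. -/

namespace Vale.Agent.P060

open Finset Polynomial Vale.Agent.P056.Sharp

noncomputable section

open scoped Classical

variable {F : Type} [Field F] [Fintype F] [Algebra (ZMod 2) F] {p : Par}

omit [Fintype F] [Algebra (ZMod 2) F] in
lemma Sec7_swap {S : ℕ} (g : Option (Sym2 (Fin S)) → F) (a b : Fin S → F) (α β : F) :
    bil g (hat a) (fun o => o.elim α (fun x => b x * β)) =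
      bil g (hat b) (fun o => o.elim α (fun x => a x * β)) := by
  unfold bil
  simp only [hat_none, hat_some, Option.elim]
  rw [sum_comm]
  congr 1
  refine sum_congr rfl fun x _ => sum_congr rfl fun y _ => ?_
  rw [Sym2.eq_swap]; ring

/-- the phase of one side in terms of the blocks. -/
lemma Sec7_phase {ω ω' : Om F p} {τ : Bool × Bool → F} (hsh : Shared ω ω' τ) {ξ : Xi F}
    {η2 η1 : Bool → F[X] →ₗ[F] F} (hη2 : ∀ i, InU (cv ω' false) (cv ω' true) (η2 i))
    (hη1 : ∀ i, InU (cv ω' false) (cv ω' true) (η1 i)) {l l' : Bool → Bool → Oi p → F}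
    (hl : ∀ (i k : Bool) (o : Oi p) (f : F[X]), f.natDegree ≤ p.J →
      BxL (ξ (i, k)) (ph (mx ω i) o) f = l i k o * f.eval (τ (i, k)) +
        l' i k o * f.eval (τ (!i, k)) +
        o.elim (η2 i f) (fun a => mv (mx ω i) (τ (i, !k)) a * η1 i f)) :
    phs ω ω' τ ξ = ∑ z : Bool × Bool,
      (bil (b4 ω τ z).1.2.2 (bh (b4 ω τ z)) (l z.1 z.2) +
        bil (b4 ω τ (opp z)).2 (bh (b4 ω τ z)) (l' z.1 z.2)) := by
  have := charP_two (F := F)
  rw [phs_eq, Fintype.sum_prod_type]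
  refine sum_congr rfl fun i _ => ?_
  set R : Bool → F := fun k => ∑ e, cof e (hat (mv (mx ω i) (τ (i, k))))
    (fun o => o.elim (η2 i ((gs ω i e).1 (cv ω' k)))
      (fun a => mv (mx ω i) (τ (i, !k)) a * η1 i ((gs ω i e).1 (cv ω' k)))) with hR
  have hRR : R true = R false := by
    refine sum_congr rfl fun e _ => ?_
    rw [← hη2 i (gs ω i e), ← hη1 i (gs ω i e)]
    exact Sec7_swap _ _ _ _ _
  have key : ∀ k, ∑ e, Afun (mx ω i) (τ (i, k)) (ξ (i, k)) e ((gs ω i e).1 (cv ω' k)) =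
      (bil (b4 ω τ (i, k)).1.2.2 (bh (b4 ω τ (i, k))) (l i k) +
        bil (b4 ω τ (opp (i, k))).2 (bh (b4 ω τ (i, k))) (l' i k)) + R k := by
    intro k
    have v1 : (b4 ω τ (i, k)).1.2.2 = vals (gs ω i) (cv ω' k) (τ (i, k)) :=
      vals_congr (gs ω i) (hsh (i, k))
    have v2 : (b4 ω τ (opp (i, k))).2 = vals (gs ω i) (cv ω' k) (τ (!i, k)) := by
      have := vals_congr (gs ω i) (hsh (!i, k))
      cases i <;> exact this
    have v3 : bh (b4 ω τ (i, k)) = hat (mv (mx ω i) (τ (i, k))) := rfl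
    rw [v1, v2, v3, bil_eq_sum_cof, bil_eq_sum_cof (vals _ _ (τ (!i, k))), hR, ← sum_add_distrib,
      ← sum_add_distrib]
    refine sum_congr rfl fun e _ => ?_
    rw [Afun_apply]
    have e1 : (fun o => BxL (ξ (i, k)) (ph (mx ω i) o) ((gs ω i e).1 (cv ω' k))) =
        vals (gs ω i) (cv ω' k) (τ (i, k)) e • l i k +
          vals (gs ω i) (cv ω' k) (τ (!i, k)) e • l' i k +
          (fun o => o.elim (η2 i ((gs ω i e).1 (cv ω' k)))
            (fun a => mv (mx ω i) (τ (i, !k)) a * η1 i ((gs ω i e).1 (cv ω' k)))) := by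
      funext o
      rw [hl i k o _ (GGs_natDegree (gs ω i e).2 _)]
      simp only [Pi.add_apply, Pi.smul_apply, smul_eq_mul, vals]
      ring
    rw [e1]
    unfold cof
    rw [bil_add_right, bil_add_right, bil_smul_right, bil_smul_right]
  unfold Th
  rw [sum_comm]
  simp only [key]
  rw [sum_add_distrib, Fintype.sum_bool R, hRR, CharTwo.add_self_eq_zero, add_zero]

/-- the extra terms have trace zero. -/
lemma Sec7_extra {ω : Om F p} {τ : Bool × Bool → F} (hZ : Z4 (Mt ω) (b4 ω τ))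
    {ζ : Bool → F[X] →ₗ[F] F} (hζ : ∀ k, InU (cv ω false) (cv ω true) (ζ k))
    (hI : ∀ k, ∃ I : Finset F, ∀ f : F[X], f.natDegree ≤ p.J → ζ k f = eI I f)
    (hJ : p.J1 ≤ p.J) :
    tr (∑ z : Bool × Bool, bil (b4 ω τ (opp z)).2 (bh (b4 ω τ z)) (uA (ζ z.2) (mx ω z.1))) = 0 := by
  rw [Fintype.sum_prod_type_right, tr_sum]
  refine sum_eq_zero fun k _ => ?_
  obtain ⟨I, hI⟩ := hI k
  have hu : ∀ i, uA (ζ k) (mx ω i) = uA (eI I) (mx ω i) := fun i =>
    funext fun o => hI _ ((natDegree_ph _ _).trans hJ)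
  have hM : (fun i => uA (eI I) (mx ω i)) ∈ Mt ω := by
    refine mem_filter.2 ⟨mem_univ _, I, fun G => ?_, rfl⟩
    rw [← hI _ (GGs_natDegree G.2 _), ← hI _ (GGs_natDegree G.2 _)]
    exact hζ k G
  have h1 := hZ k _ hM
  rw [Fintype.sum_bool, hu, hu, ← h1, add_comm]
  unfold PhiB
  rw [bil_comm _ (bh _), bil_comm _ (bh _)]
  rfl

omit [Fintype F] in
lemma Sec7_edge {b b' : Bool × Bool → Blk F p} {z z' : Bool × Bool}
    (h : sv b' z' = sharp (sv b z)) (θ : F) (b1 b2 b3 b4 : ZMod 2) :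
    tr (((θ + algebraMap (ZMod 2) F b1) * od b z + (θ + algebraMap (ZMod 2) F b2) * om b z +
      ((θ + algebraMap (ZMod 2) F b3) * cd b z + (θ + algebraMap (ZMod 2) F b4) * cm b z)) +
      ((θ + algebraMap (ZMod 2) F b1) * od b' z' + (θ + algebraMap (ZMod 2) F b3) * om b' z' +
      ((θ + algebraMap (ZMod 2) F b2) * cd b' z' + (θ + algebraMap (ZMod 2) F b4) * cm b' z'))) =
      b1 + b2 + b3 + b4 := by
  have := charP_two (F := F)
  simp only [sv, sharp, Prod.mk.injEq] at h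
  obtain ⟨⟨h1, h2, h3⟩, h4⟩ := h
  have h5 := congrArg tr h4
  simp only [tr_add, h1, h2, h3] at h5
  have e : ((θ + algebraMap (ZMod 2) F b1) * od b z + (θ + algebraMap (ZMod 2) F b2) * om b z +
      ((θ + algebraMap (ZMod 2) F b3) * cd b z + (θ + algebraMap (ZMod 2) F b4) * cm b z)) +
      ((θ + algebraMap (ZMod 2) F b1) * od b' z' + (θ + algebraMap (ZMod 2) F b3) * om b' z' +
      ((θ + algebraMap (ZMod 2) F b2) * cd b' z' + (θ + algebraMap (ZMod 2) F b4) * cm b' z')) =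
      algebraMap (ZMod 2) F b1 * (od b z + od b' z') +
      algebraMap (ZMod 2) F b2 * (om b z + cd b' z') +
      algebraMap (ZMod 2) F b3 * (cd b z + om b' z') +
      algebraMap (ZMod 2) F b4 * (cm b z + cm b' z') := by
    linear_combination θ * h4 +
      θ * CharTwo.add_self_eq_zero (od b z + om b z + cd b z + cm b z)
  rw [e]
  simp only [tr_add, tr_bit_mul, h1, h2, h3]
  generalize tr (od b z) = x1 at *
  generalize tr (om b z) = x2 at *
  generalize tr (cd b z) = x3 at *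
  generalize tr (cm b z) = x4 at *
  generalize tr (cm b' z') = x5 at *
  have two : (2 : ZMod 2) = 0 := by decide
  have h6 : x5 = x4 + 1 := by linear_combination h5 - 2 * two
  rw [h6]
  linear_combination (b1 * x1 + b2 * x2 + b3 * x3 + b4 * x4) * two

theorem sec7 (hp : p.Ok) {ω ω' : Om F p} (hω : Reg ω) (hω' : Reg ω') {τ : Bool × Bool → F}
    (hτ : Function.Injective τ) (hav : Avoid (cv ω) τ) (hav' : Avoid (cv ω') (tp τ))
    (hsh : Shared ω ω' τ) (hE : EE ω ω' τ) {ξ : Xi F} (h1 : Nn (mx ω) (cv ω') τ ξ)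
    (h2 : Nn (mx ω') (cv ω) (tp τ) (xT ξ)) :
    sg ξ * chi (phs ω ω' τ ξ + phs ω' ω (tp τ) (xT ξ)) = 1 := by
  have := charP_two (F := F)
  have hJ : p.J1 ≤ p.J := (Edge_J1_le (cv ω false) (cv ω true)).trans (Nat.sub_le _ _)
  have hτ' : Function.Injective (tp τ) := fun z z' h => Prod.swap_injective (hτ h)
  have hav1 : Avoid (cv ω') τ := fun z => hav' z.swap
  have hav2 : Avoid (cv ω) (tp τ) := fun z => hav z.swap
  have hsh' : Shared ω' ω (tp τ) := fun z => (hsh z.swap).symm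
  choose η2 η1 hη2 hη1 l l' hl using fun i => vertex_struct hp hτ i (hω.typ i) hω'.ok hav1 h1
  choose ζ2 ζ1 hζ2 hζ1 m m' hm using fun k => vertex_struct hp hτ' k (hω'.typ k) hω.ok hav2 h2
  have hne : ∀ i k, τ (i, k) ≠ τ (i, !k) := fun i k h => by
    have := hτ h; simp at this
  have hne' : ∀ i k, τ (i, k) ≠ τ (!i, k) := fun i k h => by
    have := hτ h; simp at this
  choose θ b1 b2 b3 b4 I I' hI hI' e1 e2 e3 e4 e5 using fun i k =>
    edge_struct hp (hω.typ i) (hω'.typ k) (hne i k) (hne' i k) hω.ok hω'.ok (hav _) (hav _)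
      (hav1 _) (hav1 _) (ξ (i, k)) (hη2 i) (hη1 i) (hζ2 k) (hζ1 k) (hl i k) (hm k i)
  have p1 := Sec7_phase hsh hη2 hη1 hl
  have p2 := Sec7_phase hsh' hζ2 hζ1 hm
  have x1 := Sec7_extra hE.2.1 hζ2 (fun k => ⟨I false k, hI false k⟩) hJ
  have x2 := Sec7_extra hE.2.2 hη2 (fun i => ⟨I' i false, hI' i false⟩) hJ
  set a := algebraMap (ZMod 2) F with ha
  set B := P060.b4 ω τ with hB
  set B' := P060.b4 ω' (tp τ) with hB'
  have q1 : phs ω ω' τ ξ = ∑ z : Bool × Bool,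
      ((θ z.1 z.2 + a (b1 z.1 z.2)) * od B z + (θ z.1 z.2 + a (b2 z.1 z.2)) * om B z +
        ((θ z.1 z.2 + a (b3 z.1 z.2)) * cd B z + (θ z.1 z.2 + a (b4 z.1 z.2)) * cm B z)) +
      ∑ z : Bool × Bool, bil (B (opp z)).2 (bh (B z)) (uA (ζ2 z.2) (mx ω z.1)) := by
    rw [p1, ← sum_add_distrib]
    refine sum_congr rfl fun z _ => ?_
    rw [e1, e2]
    simp only [bil_add_right, bil_smul_right]
    rw [← add_assoc]
    rfl
  have q2 : phs ω' ω (tp τ) (xT ξ) = ∑ z : Bool × Bool,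
      ((θ z.1 z.2 + a (b1 z.1 z.2)) * od B' z.swap + (θ z.1 z.2 + a (b3 z.1 z.2)) * om B' z.swap +
        ((θ z.1 z.2 + a (b2 z.1 z.2)) * cd B' z.swap +
          (θ z.1 z.2 + a (b4 z.1 z.2)) * cm B' z.swap)) +
      ∑ z : Bool × Bool, bil (B' (opp z)).2 (bh (B' z)) (uA (η2 z.2) (mx ω' z.1)) := by
    rw [p2, ← Equiv.sum_comp (Equiv.prodComm Bool Bool) (fun z : Bool × Bool =>
      (θ z.1 z.2 + a (b1 z.1 z.2)) * od B' z.swap + (θ z.1 z.2 + a (b3 z.1 z.2)) * om B' z.swap +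
        ((θ z.1 z.2 + a (b2 z.1 z.2)) * cd B' z.swap +
          (θ z.1 z.2 + a (b4 z.1 z.2)) * cm B' z.swap)), ← sum_add_distrib]
    refine sum_congr rfl fun z _ => ?_
    rw [e3, e4]
    simp only [bil_add_right, bil_smul_right]
    rw [← add_assoc]
    rfl
  have t1 : tr (phs ω ω' τ ξ + phs ω' ω (tp τ) (xT ξ)) =
      ∑ z : Bool × Bool, (b1 z.1 z.2 + b2 z.1 z.2 + b3 z.1 z.2 + b4 z.1 z.2) := by
    rw [q1, q2, add_add_add_comm, tr_add, tr_add (∑ z : Bool × Bool, bil _ _ _), x1, x2, add_zero,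
      add_zero, ← sum_add_distrib, tr_sum]
    exact sum_congr rfl fun z _ => Sec7_edge (hE.1 z) _ _ _ _ _
  have t2 : ∑ z, ∑ u, ξ z u =
      ∑ z : Bool × Bool, (b1 z.1 z.2 + b2 z.1 z.2 + b3 z.1 z.2 + b4 z.1 z.2) := by
    apply a.injective
    rw [map_sum, map_sum]
    simp only [Fintype.sum_prod_type (α₁ := Bool), Fintype.sum_bool, e5]
    linear_combination (ζ2 true 1 + ζ2 false 1 + η2 true 1 + η2 false 1) *
      (CharTwo.two_eq_zero : (2 : F) = 0)
  unfold sg chi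
  rw [t1, t2, sgn_mul_self]

end

end Vale.Agent.P060
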