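import Vale.Agent.P060.FreshI
import Vale.Agent.P060.Sec7

/-! P060: the Fourier expansion of the conflict probability. -/

namespace Vale.Agent.P060

open Finset Polynomial Vale.Agent.P056.Sharp

noncomputable section

open scoped Classical

variable {F : Type} [Field F] [Fintype F] [Algebra (ZMod 2) F] {p : Par}
  {ν : Om F p → ℝ} {M K B : ℝ}

lemma Four_sgn_nonneg {A : Type} [AddCommGroup A] [Fintype A] (h2 : ∀ a : A, a + a = 0)
    (H : A → Prop) (hH : ∀ a b, H a → H b → H (a + b)) (φ : A → ZMod 2)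
    (hφ : ∀ a b, φ (a + b) = φ a + φ b) : 0 ≤ av (fun a => ind (H a) * sgn (φ a)) := by
  by_cases h : ∃ a0, H a0 ∧ φ a0 = 1
  · obtain ⟨a0, h0, h1⟩ := h
    have e := av_equiv (Equiv.addLeft a0) (fun a => ind (H a) * sgn (φ a))
    have e2 : ∀ a, ind (H (Equiv.addLeft a0 a)) * sgn (φ (Equiv.addLeft a0 a)) =
        - (ind (H a) * sgn (φ a)) := fun a => by
      rw [Equiv.coe_addLeft, hφ, sgn_add, h1, sgn_one,
        ind_congr (Q := H a) ⟨fun h => by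
          have := hH _ _ h0 h
          rwa [← add_assoc, h2, zero_add] at this, fun h => hH _ _ h0 h⟩]
      ring
    simp only [e2, av_neg] at e
    linarith
  · push Not at h
    refine av_nonneg fun a => ?_
    by_cases ha : H a
    · rw [ind_pos ha, (zmod2_cases (φ a)).resolve_right (h a ha), sgn_zero]; norm_num
    · rw [ind_neg ha, zero_mul]

lemma Four_ker {A B : Type} [AddCommGroup A] [Fintype A] [AddCommGroup B] [Fintype B]
    (φ : A →+ B) : 1 / (Fintype.card B : ℝ) ≤ av (fun a => ind (φ a = 0)) := by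
  have h := av_comp_hom φ.rangeRestrict φ.rangeRestrict_surjective (fun b => ind (b = 0))
  have e : ∀ a, ind (φ.rangeRestrict a = 0) = ind (φ a = 0) := fun a =>
    ind_congr ⟨fun h => congrArg Subtype.val h, fun h => Subtype.ext h⟩
  simp only [e] at h
  rw [h, av_ind_eq]
  refine one_div_le_one_div_of_le (by exact_mod_cast Fintype.card_pos) ?_
  exact_mod_cast Fintype.card_subtype_le _

def Four_Psi (ω ω' : Om F p) (τ : Bool × Bool → F) (z : Bool × Bool) (u : F × F) : F :=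
  TU (ω z.1) (ω' z.2) (hat (mv (mx ω z.1) (τ z))) u.1 u.2 +
    TU (ω' z.2) (ω z.1) (hat (mv (mx ω' z.2) (τ z))) u.2 u.1

def Four_phi (ω ω' : Om F p) (τ : Bool × Bool → F) (ξ : Xi F) : ZMod 2 :=
  ∑ z, ∑ u, ξ z u * (tr (Four_Psi ω ω' τ z u) + 1)

lemma Four_ch (ω ω' : Om F p) (τ : Bool × Bool → F) (ξ : Xi F) :
    sg ξ * chi (phs ω ω' τ ξ + phs ω' ω (tp τ) (xT ξ)) = sgn (Four_phi ω ω' τ ξ) := by
  have e1 : phs ω' ω (tp τ) (xT ξ) = ∑ z, ∑ u : F × F, algebraMap (ZMod 2) F (ξ z u) *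
      TU (ω' z.2) (ω z.1) (hat (mv (mx ω' z.2) (τ z))) u.2 u.1 := by
    unfold phs
    rw [← Equiv.sum_comp (Equiv.prodComm Bool Bool)]
    refine sum_congr rfl fun z _ => ?_
    rw [← Equiv.sum_comp (Equiv.prodComm F F)]
    rfl
  have e2 : phs ω ω' τ ξ + phs ω' ω (tp τ) (xT ξ) =
      ∑ z, ∑ u : F × F, algebraMap (ZMod 2) F (ξ z u) * Four_Psi ω ω' τ z u := by
    rw [e1]
    unfold phs Four_Psi
    rw [← sum_add_distrib]
    refine sum_congr rfl fun z _ => ?_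
    rw [← sum_add_distrib]
    exact sum_congr rfl fun u _ => by ring
  rw [e2]
  unfold sg chi Four_phi
  rw [← sgn_add]
  congr 1
  simp only [tr_sum, tr_bit_mul, mul_add, mul_one, sum_add_distrib]
  ring

lemma Four_phi_add (ω ω' : Om F p) (τ : Bool × Bool → F) (ξ ξ' : Xi F) :
    Four_phi ω ω' τ (ξ + ξ') = Four_phi ω ω' τ ξ + Four_phi ω ω' τ ξ' := by
  unfold Four_phi
  simp only [Pi.add_apply, add_mul, sum_add_distrib]

omit [Field F] [Fintype F] [Algebra (ZMod 2) F] in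
lemma Four_add_self (ξ : Xi F) : ξ + ξ = 0 := by
  funext z u
  exact CharTwo.add_self_eq_zero _

lemma Four_av_le (ω ω' : Om F p) (τ : Bool × Bool → F) :
    av (fun ξ : Xi F => sgn (Four_phi ω ω' τ ξ)) ≤ ind (∀ z u, tr (Four_Psi ω ω' τ z u) = 1) := by
  by_cases h : ∀ z u, tr (Four_Psi ω ω' τ z u) = 1
  · rw [ind_pos h]
    exact av_le_of_forall fun ξ => (le_abs_self _).trans (abs_sgn _).le
  · rw [ind_neg h]
    push Not at h
    obtain ⟨z, u, hz⟩ := h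
    have h0 : tr (Four_Psi ω ω' τ z u) = 0 := (zmod2_cases _).resolve_right hz
    set ξ0 : Xi F := Pi.single z (Pi.single u 1) with hξ0
    have h1 : Four_phi ω ω' τ ξ0 = 1 := by
      unfold Four_phi
      rw [sum_eq_single z, sum_eq_single u]
      · simp [hξ0, h0]
      · intro v _ hv; simp [hξ0, hv]
      · simp
      · intro y _ hy; simp [hξ0, hy]
      · simp
    have e := av_equiv (Equiv.addLeft ξ0) (fun ξ => sgn (Four_phi ω ω' τ ξ))
    have e2 : ∀ ξ, sgn (Four_phi ω ω' τ (Equiv.addLeft ξ0 ξ)) = - sgn (Four_phi ω ω' τ ξ) :=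
      fun ξ => by rw [Equiv.coe_addLeft, Four_phi_add, sgn_add, h1, sgn_one]; ring
    simp only [e2, av_neg] at e
    linarith

lemma Four_BxL_add (x y : F × F → ZMod 2) (f g : F[X]) :
    BxL (x + y) f g = BxL x f g + BxL y f g := by
  simp only [BxL_apply, Pi.add_apply, map_add, add_mul, sum_add_distrib]

lemma Four_Th_add (ψ : Bool → Mx F p) (L : Bool → Cv F p) (τ : Bool × Bool → F) (ξ ξ' : Xi F)
    (i : Bool) (e : Ei p) (G : Cv F p → F[X]) :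
    Th ψ L τ (ξ + ξ') i e G = Th ψ L τ ξ i e G + Th ψ L τ ξ' i e G := by
  unfold Th
  rw [← sum_add_distrib]
  refine sum_congr rfl fun k _ => ?_
  rw [Afun_apply, Afun_apply, Afun_apply]
  unfold cof
  rw [← bil_add_right]
  congr 1
  funext o
  exact Four_BxL_add _ _ _ _

lemma Four_Nn_add {ψ : Bool → Mx F p} {L : Bool → Cv F p} {τ : Bool × Bool → F} {ξ ξ' : Xi F}
    (h : Nn ψ L τ ξ) (h' : Nn ψ L τ ξ') : Nn ψ L τ (ξ + ξ') := by
  intro i e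
  obtain ⟨c, hc⟩ := h i e
  obtain ⟨c', hc'⟩ := h' i e
  refine ⟨c + c', fun G => ?_⟩
  rw [Four_Th_add, hc, hc', ← sum_add_distrib]
  exact sum_congr rfl fun z _ => by rw [Pi.add_apply, add_mul]

lemma Four_Nn_of_zero {ψ : Bool → Mx F p} (L : Bool → Cv F p) (τ : Bool × Bool → F) {ξ : Xi F}
    (h : ∀ (z : Bool × Bool) (o : Oi p) (n : Fin (p.J + 1)),
      BxL (ξ z) (ph (ψ z.1) o) (X ^ (n : ℕ)) = 0) : Nn ψ L τ ξ := by
  intro i e
  refine ⟨0, fun G => ?_⟩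
  simp only [Pi.zero_apply, zero_mul, sum_const_zero]
  unfold Th
  refine sum_eq_zero fun k _ => ?_
  rw [Afun_apply]
  have h0 : (fun o => BxL (ξ (i, k)) (ph (ψ i) o) (G.1 (L k))) = 0 := by
    funext o
    rw [as_sum_range_C_mul_X_pow' (G.1 (L k)) (Nat.lt_succ_of_le (GGs_natDegree G.2 (L k))),
      map_sum]
    refine sum_eq_zero fun n hn => ?_
    rw [← smul_eq_C_mul, map_smul, h (i, k) o ⟨n, mem_range.1 hn⟩, smul_zero]
  rw [h0]
  exact bil_zero_right _ _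

lemma Four_dens (ω ω' : Om F p) (τ : Bool × Bool → F) :
    1 / (Fintype.card F : ℝ) ^ (8 * (p.S + 1) * (p.J + 1)) ≤ av (fun ξ : Xi F =>
      ind (Nn (mx ω) (cv ω') τ ξ ∧ Nn (mx ω') (cv ω) (tp τ) (xT ξ))) := by
  let φ : Xi F →+ (Bool × (Bool × Bool) × Oi p × Fin (p.J + 1) → F) := AddMonoidHom.mk'
    (fun ξ y => bif y.1 then BxL (ξ y.2.1) (ph (mx ω y.2.1.1) y.2.2.1) (X ^ (y.2.2.2 : ℕ))
      else BxL (xT ξ y.2.1) (ph (mx ω' y.2.1.1) y.2.2.1) (X ^ (y.2.2.2 : ℕ))) (by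
      intro ξ ξ'
      funext y
      obtain ⟨b, y⟩ := y
      cases b
      · exact Four_BxL_add (xT ξ y.1) (xT ξ' y.1) _ _
      · exact Four_BxL_add (ξ y.1) (ξ' y.1) _ _)
  have h := Four_ker φ
  have hc : (Fintype.card (Bool × (Bool × Bool) × Oi p × Fin (p.J + 1) → F) : ℝ) =
      (Fintype.card F : ℝ) ^ (8 * (p.S + 1) * (p.J + 1)) := by
    rw [Fintype.card_fun]
    push_cast
    congr 1
    simp only [Fintype.card_prod, Fintype.card_bool, Fintype.card_option, Fintype.card_fin]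
    ring
  rw [hc] at h
  refine h.trans (av_mono fun ξ => ind_mono fun h0 => ⟨?_, ?_⟩)
  · exact Four_Nn_of_zero _ _ fun z o n => congrFun h0 (true, z, o, n)
  · exact Four_Nn_of_zero _ _ fun z o n => congrFun h0 (false, z, o, n)

lemma Four_main (hp : p.Ok) {ω ω' : Om F p} (hω : Reg ω) (hω' : Reg ω') (τ : Bool × Bool → F) :
    ind (Good ν B ω τ ∧ Good ν B ω' (tp τ) ∧ Shared ω ω' τ ∧ EE ω ω' τ) /
      (Fintype.card F : ℝ) ^ (8 * (p.S + 1) * (p.J + 1)) ≤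
      ind (Good ν B ω τ ∧ Good ν B ω' (tp τ) ∧ Shared ω ω' τ) * av (fun ξ : Xi F =>
        ind (Nn (mx ω) (cv ω') τ ξ ∧ Nn (mx ω') (cv ω) (tp τ) (xT ξ)) *
          sgn (Four_phi ω ω' τ ξ)) := by
  by_cases h : Good ν B ω τ ∧ Good ν B ω' (tp τ) ∧ Shared ω ω' τ ∧ EE ω ω' τ
  · rw [ind_pos h, ind_pos ⟨h.1, h.2.1, h.2.2.1⟩, one_mul]
    refine (Four_dens ω ω' τ).trans (av_mono fun ξ => ?_)
    by_cases hξ : Nn (mx ω) (cv ω') τ ξ ∧ Nn (mx ω') (cv ω) (tp τ) (xT ξ)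
    · rw [← Four_ch, sec7 hp hω hω' h.1.inj h.1.avoid h.2.1.avoid h.2.2.1 h.2.2.2 hξ.1 hξ.2,
        mul_one]
    · rw [ind_neg hξ, zero_mul]
  · rw [ind_neg h, zero_div]
    exact mul_nonneg (ind_nonneg _) (Four_sgn_nonneg Four_add_self _
      (fun a b ha hb => ⟨Four_Nn_add ha.1 hb.1, Four_Nn_add ha.2 hb.2⟩) _ (Four_phi_add ω ω' τ))

lemma Four_split (τ : Bool × Bool → F) (ξ : Xi F) (A A' : (Bool → Mx F p) → Om F p → ℝ) :
    Ex ν (fun ω => Ex ν (fun ω' => ind (Good ν B ω τ ∧ Good ν B ω' (tp τ) ∧ Shared ω ω' τ) *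
      (A (mx ω') ω * A' (mx ω) ω' * chi (phs ω ω' τ ξ + phs ω' ω (tp τ) (xT ξ))))) =
      ∑ y : (Bool → Mx F p) × (Bool → Mx F p) × (Bool × Bool → Fin p.N → F),
        fr ν B τ ξ y.1 y.2.1 y.2.2 (tp y.2.2) (A y.2.1) (A' y.1) := by
  unfold fr Ex
  rw [sum_comm]
  refine sum_congr rfl fun ω _ => ?_
  rw [sum_comm, mul_sum]
  refine sum_congr rfl fun ω' _ => ?_
  rw [sum_eq_single (mx ω, mx ω', pts (cv ω) τ)]
  · unfold nuR
    have e : ind (Good ν B ω τ ∧ Good ν B ω' (tp τ) ∧ Shared ω ω' τ) =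
        ind (Good ν B ω τ ∧ mx ω = mx ω ∧ pts (cv ω) τ = pts (cv ω) τ) *
        ind (Good ν B ω' (tp τ) ∧ mx ω' = mx ω' ∧ pts (cv ω') (tp τ) = tp (pts (cv ω) τ)) := by
      rw [← ind_and]
      refine ind_congr ⟨fun h => ⟨⟨h.1, rfl, rfl⟩, h.2.1, rfl, funext fun z => (h.2.2 z.swap).symm⟩,
        fun h => ⟨h.1.1, h.2.1, fun z => (congrFun h.2.2.2 z.swap).symm⟩⟩
    beta_reduce
    rw [e]; ring
  · rintro ⟨ψ, ψ', P⟩ _ hy
    unfold nuR
    by_cases h1 : mx ω = ψ ∧ pts (cv ω) τ = P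
    · have h2 : mx ω' ≠ ψ' := fun h => hy (by rw [← h1.1, ← h1.2, ← h])
      rw [ind_neg (P := Good ν B ω' (tp τ) ∧ mx ω' = ψ' ∧ _) (fun h => h2 h.2.1)]; ring
    · rw [ind_neg (P := Good ν B ω τ ∧ mx ω = ψ ∧ _) (fun h => h1 h.2)]; ring
  · simp

lemma Four_fr_sum {ι : Type} [Fintype ι] (τ : Bool × Bool → F) (ξ : Xi F) (ψ ψ' : Bool → Mx F p)
    (P P' : Bool × Bool → Fin p.N → F) (a : Om F p → ℝ) (b : ι → Om F p → ℝ) :
    fr ν B τ ξ ψ ψ' P P' a (fun ω => ∑ j, b j ω) = ∑ j, fr ν B τ ξ ψ ψ' P P' a (b j) := by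
  unfold fr
  symm
  rw [sum_comm]
  refine sum_congr rfl fun ω _ => ?_
  rw [sum_comm]
  refine sum_congr rfl fun ω' _ => ?_
  beta_reduce
  rw [mul_sum, sum_mul, mul_sum]

lemma Four_fresh (hp : p.Ok) (hq : 4 ≤ Fintype.card F) (hν : Adm ν M K) (hB : 1 ≤ B) {n4 : ℕ}
    (h4 : p.ns = 4 * n4) (hN : 4 * (Fintype.card F : ℝ) ^ 2 ≤ (Fintype.card F : ℝ) ^ p.N)
    {Bd : ℝ} (hBd : 0 ≤ Bd)
    (hI : K * (p.ns : ℝ) ^ p.ns *
      (4 * (Fintype.card F : ℝ) ^ 2 / (Fintype.card F : ℝ) ^ p.N) ^ n4 ≤ Bd ^ p.ns)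
    (hII : B * (4 * (Fintype.card F : ℝ) ^ 2 / (Fintype.card F : ℝ) ^ p.N) ≤ Bd ^ 2)
    (τ : Bool × Bool → F) (ξ : Xi F) (ψ ψ' : Bool → Mx F p) (P P' : Bool × Bool → Fin p.N → F)
    (a : Om F p → ℝ) (ha : ∀ ω, |a ω| ≤ 1) :
    |fr ν B τ ξ ψ ψ' P P' a (fun ω' => ind (¬ Nn ψ (cv ω') τ ξ))| ≤
      (2 * Fintype.card (Ei p) + 1) *
        (Bd * (M * B / (Fintype.card F : ℝ) ^ (4 * p.N)) ^ 2) := by
  set sel : Om F p → Option (Bool × Ei p) := fun ω' =>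
    if h : ∃ y : Bool × Ei p, ¬ Loc ψ (cv ω') τ ξ y.1 y.2 then some h.choose else none with hsel
  have e : (fun ω' => ind (¬ Nn ψ (cv ω') τ ξ)) =
      fun ω' => ∑ j, ind (¬ Nn ψ (cv ω') τ ξ ∧ j = sel ω') := by
    funext ω'
    simp only [ind_and, ← mul_sum, sum_ind_eq, mul_one]
  have habs : ∀ Q : Prop, |ind Q| ≤ 1 := fun Q => by
    rw [abs_of_nonneg (ind_nonneg _)]; exact ind_le_one _
  have hne : ∀ Q : Prop, ind Q ≠ 0 → Q := fun Q h => by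
    by_contra hQ; exact h (ind_neg hQ)
  rw [e, Four_fr_sum]
  refine (abs_sum_le_sum_abs _ _).trans (le_trans (sum_le_sum (g := fun _ =>
    Bd * (M * B / (Fintype.card F : ℝ) ^ (4 * p.N)) ^ 2) fun j _ => ?_) (le_of_eq ?_))
  · cases j with
    | none =>
      refine freshII hp hq hν (by linarith) hBd hII τ ξ ψ ψ' P P' a _ ha (fun _ => habs _)
        fun ω' h => ?_
      obtain ⟨h1, h2⟩ := hne _ h
      refine ⟨fun i e => ?_, h1⟩
      by_contra hc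
      simp only [hsel] at h2
      rw [dif_pos ⟨(i, e), hc⟩] at h2
      cases h2
    | some y =>
      refine freshI hp hq hν hB h4 hN hBd hI τ ξ ψ ψ' P P' a _ ha (fun _ => habs _) y.1 y.2
        fun ω' h => ?_
      obtain ⟨_, h2⟩ := hne _ h
      simp only [hsel] at h2
      split_ifs at h2 with hc
      rw [Option.some.inj h2]
      exact hc.choose_spec
  · rw [sum_const, card_univ, nsmul_eq_mul, Fintype.card_option, Fintype.card_prod,
      Fintype.card_bool]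
    push_cast; ring

theorem conflict_ge (hp : p.Ok) (hq : 4 ≤ Fintype.card F) (hν : Adm ν M K) (hB : 1 ≤ B) {n4 : ℕ}
    (h4 : p.ns = 4 * n4) (hN : 4 * (Fintype.card F : ℝ) ^ 2 ≤ (Fintype.card F : ℝ) ^ p.N)
    {Bd : ℝ} (hBd : 0 ≤ Bd)
    (hI : K * (p.ns : ℝ) ^ p.ns *
      (4 * (Fintype.card F : ℝ) ^ 2 / (Fintype.card F : ℝ) ^ p.N) ^ n4 ≤ Bd ^ p.ns)
    (hII : B * (4 * (Fintype.card F : ℝ) ^ 2 / (Fintype.card F : ℝ) ^ p.N) ≤ Bd ^ 2) :
    mainP ν B / (Fintype.card F : ℝ) ^ (8 * (p.S + 1) * (p.J + 1)) -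
      (Fintype.card F : ℝ) ^ (4 * p.S * (p.J1 + 1)) * (Fintype.card F : ℝ) ^ (4 * p.N) *
        (2 * (2 * Fintype.card (Ei p) + 1)) *
        (Bd * (M * B / (Fintype.card F : ℝ) ^ (4 * p.N)) ^ 2) ≤
      Ex ν (fun ω => Pr ν (fun ω' => ∀ i k, Adj (ω i) (ω' k))) := by
  set D : ℝ := Bd * (M * B / (Fintype.card F : ℝ) ^ (4 * p.N)) ^ 2 with hD
  set Cn : ℝ := (Fintype.card F : ℝ) ^ (4 * p.S * (p.J1 + 1)) * (Fintype.card F : ℝ) ^ (4 * p.N)
    with hCn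
  have hcard : (Fintype.card ((Bool → Mx F p) × (Bool → Mx F p) × (Bool × Bool → Fin p.N → F)) : ℝ) =
      Cn := by
    simp only [Fintype.card_prod, Fintype.card_fun, Fintype.card_bool, Fintype.card_fin, Pol.card,
      hCn]
    push_cast
    ring
  have h0 := hν.prob.1
  have habs : ∀ Q : Prop, |ind Q| ≤ 1 := fun Q => by
    rw [abs_of_nonneg (ind_nonneg _)]; exact ind_le_one _
  unfold mainP
  rw [← av_div_const, ← av_const (X := Bool × Bool → F) (Cn * (2 * (2 * Fintype.card (Ei p) + 1)) * D),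
    ← av_sub]
  refine av_le_of_forall fun τ => ?_
  set g : Om F p → Om F p → ℝ := fun ω ω' =>
    ind (Good ν B ω τ ∧ Good ν B ω' (tp τ) ∧ Shared ω ω' τ) with hg
  set c : Om F p → Om F p → Xi F → ℝ := fun ω ω' ξ =>
    chi (phs ω ω' τ ξ + phs ω' ω (tp τ) (xT ξ)) with hc
  set T1 : Xi F → ℝ := fun ξ => Ex ν (fun ω => Ex ν (fun ω' => g ω ω' *
    (ind (¬ Nn (mx ω') (cv ω) (tp τ) (xT ξ)) * 1 * c ω ω' ξ))) with hT1
  set T2 : Xi F → ℝ := fun ξ => Ex ν (fun ω => Ex ν (fun ω' => g ω ω' *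
    (ind (Nn (mx ω') (cv ω) (tp τ) (xT ξ)) * ind (¬ Nn (mx ω) (cv ω') τ ξ) * c ω ω' ξ))) with hT2
  have b1 : ∀ ξ, |T1 ξ| ≤ Cn * ((2 * Fintype.card (Ei p) + 1) * D) := fun ξ => by
    have e := Four_split (ν := ν) (B := B) τ ξ
      (fun ψ' ω => ind (¬ Nn ψ' (cv ω) (tp τ) (xT ξ))) (fun _ _ => 1)
    refine (congrArg abs e).le.trans ((abs_sum_le_sum_abs _ _).trans (le_trans (sum_le_sum
      (g := fun _ => (2 * Fintype.card (Ei p) + 1) * D) fun y _ => ?_) (le_of_eq ?_)))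
    · rw [fr_swap]
      exact Four_fresh hp hq hν hB h4 hN hBd hI hII _ _ _ _ _ _ _ (fun _ => by simp)
    · rw [sum_const, card_univ, nsmul_eq_mul, hcard]
  have b2 : ∀ ξ, |T2 ξ| ≤ Cn * ((2 * Fintype.card (Ei p) + 1) * D) := fun ξ => by
    have e := Four_split (ν := ν) (B := B) τ ξ
      (fun ψ' ω => ind (Nn ψ' (cv ω) (tp τ) (xT ξ))) (fun ψ ω' => ind (¬ Nn ψ (cv ω') τ ξ))
    refine (congrArg abs e).le.trans ((abs_sum_le_sum_abs _ _).trans (le_trans (sum_le_sum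
      (g := fun _ => (2 * Fintype.card (Ei p) + 1) * D) fun y _ => ?_) (le_of_eq ?_)))
    · exact Four_fresh hp hq hν hB h4 hN hBd hI hII _ _ _ _ _ _ _ (fun _ => habs _)
    · rw [sum_const, card_univ, nsmul_eq_mul, hcard]
  have b3 : - (Cn * (2 * (2 * Fintype.card (Ei p) + 1)) * D) ≤
      av (fun ξ => sg ξ * (T1 ξ + T2 ξ)) := by
    refine le_av_of_forall fun ξ => ?_
    have t1 : |sg ξ * (T1 ξ + T2 ξ)| ≤ |T1 ξ| + |T2 ξ| := by
      rw [abs_mul, show |sg ξ| = 1 from abs_sgn _, one_mul]; exact abs_add_le _ _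
    linarith [neg_abs_le (sg ξ * (T1 ξ + T2 ξ)), b1 ξ, b2 ξ]
  have b4 : Ex ν (fun ω => Pr ν (fun ω' =>
      Good ν B ω τ ∧ Good ν B ω' (tp τ) ∧ Shared ω ω' τ ∧ EE ω ω' τ)) /
      (Fintype.card F : ℝ) ^ (8 * (p.S + 1) * (p.J + 1)) ≤
      Ex ν (fun ω => Ex ν (fun ω' => g ω ω' * av (fun ξ : Xi F =>
        ind (Nn (mx ω) (cv ω') τ ξ ∧ Nn (mx ω') (cv ω) (tp τ) (xT ξ)) *
          sgn (Four_phi ω ω' τ ξ)))) := by
    rw [div_eq_mul_inv, ← Ex_mul_const]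
    refine Ex_mono' h0 fun ω hω => ?_
    unfold Pr
    rw [← Ex_mul_const]
    refine Ex_mono' h0 fun ω' hω' => ?_
    rw [← div_eq_mul_inv]
    exact Four_main hp (hν.reg ω hω) (hν.reg ω' hω') τ
  have b5 : Ex ν (fun ω => Ex ν (fun ω' => g ω ω' * av (fun ξ : Xi F =>
        ind (Nn (mx ω) (cv ω') τ ξ ∧ Nn (mx ω') (cv ω) (tp τ) (xT ξ)) *
          sgn (Four_phi ω ω' τ ξ)))) + av (fun ξ => sg ξ * (T1 ξ + T2 ξ)) =
      Ex ν (fun ω => Ex ν (fun ω' => g ω ω' * av (fun ξ : Xi F => sgn (Four_phi ω ω' τ ξ)))) := by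
    simp only [hT1, hT2, ← Ex_add, ← Ex_const_mul]
    rw [av_Ex, ← Ex_add]
    refine Ex_congr fun ω => ?_
    rw [av_Ex, ← Ex_add]
    refine Ex_congr fun ω' => ?_
    rw [← av_const_mul, ← av_const_mul, ← av_add]
    refine av_congr fun ξ => ?_
    rw [← Four_ch, ind_and, ind_not, ind_not]
    simp only [hc]
    ring
  have b6 : Ex ν (fun ω => Ex ν (fun ω' => g ω ω' * av (fun ξ : Xi F => sgn (Four_phi ω ω' τ ξ)))) ≤
      Ex ν (fun ω => Pr ν (fun ω' => ∀ i k, Adj (ω i) (ω' k))) := by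
    refine Ex_mono h0 fun ω => Ex_mono h0 fun ω' => ?_
    refine (mul_le_mul_of_nonneg_left (Four_av_le ω ω' τ) (ind_nonneg _)).trans ?_
    rw [← ind_and]
    refine ind_mono fun h i k => ?_
    exact adj_of_point (t := τ (i, k)) (h.1.2.2 (i, k)) fun s s' => h.2 (i, k) (s, s')
  linarith

end

end Vale.Agent.P060
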