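import Vale.Agent.P060.Count
import Vale.Agent.P060.Claim
import Vale.Agent.P060.Box

/-! P060: restricted measures and their masses. -/

namespace Vale.Agent.P060

open Finset Polynomial Vale.Agent.P056.Sharp

noncomputable section

open scoped Classical

variable {F : Type} [Field F] [Fintype F] [Algebra (ZMod 2) F] {p : Par}
  {ν : Om F p → ℝ} {M K B : ℝ}

/-- the law restricted to good pairs with given mixers and points. -/
def nuR (ν : Om F p → ℝ) (B : ℝ) (τ : Bool × Bool → F) (ψ : Bool → Mx F p)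
    (P : Bool × Bool → Fin p.N → F) (ω : Om F p) : ℝ :=
  ν ω * ind (Good ν B ω τ ∧ mx ω = ψ ∧ pts (cv ω) τ = P)

/-- a character sum. -/
def fr (ν : Om F p → ℝ) (B : ℝ) (τ : Bool × Bool → F) (ξ : Xi F) (ψ ψ' : Bool → Mx F p)
    (P P' : Bool × Bool → Fin p.N → F) (a b : Om F p → ℝ) : ℝ :=
  ∑ ω, ∑ ω', nuR ν B τ ψ P ω * nuR ν B (tp τ) ψ' P' ω' *
    (a ω * b ω' * chi (phs ω ω' τ ξ + phs ω' ω (tp τ) (xT ξ)))

@[simp] lemma tp_tp {A : Type} (τ : Bool × Bool → A) : tp (tp τ) = τ := rfl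

omit [Field F] [Fintype F] [Algebra (ZMod 2) F] in
@[simp] lemma xT_xT (ξ : Xi F) : xT (xT ξ) = ξ := rfl

lemma fr_swap (τ : Bool × Bool → F) (ξ : Xi F) (ψ ψ' : Bool → Mx F p)
    (P P' : Bool × Bool → Fin p.N → F) (a b : Om F p → ℝ) :
    fr ν B τ ξ ψ ψ' P P' a b = fr ν B (tp τ) (xT ξ) ψ' ψ P' P b a := by
  unfold fr
  rw [sum_comm]
  refine sum_congr rfl fun ω' _ => sum_congr rfl fun ω _ => ?_
  rw [tp_tp, xT_xT, add_comm]
  ring

omit [Fintype F] [Algebra (ZMod 2) F] in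
lemma Avoid.tp {L : Bool → Cv F p} {τ : Bool × Bool → F} (h : Avoid L (tp τ)) : Avoid L τ :=
  fun z => h z.swap

/-- domination by the uniform law on vertices. -/
lemma Adm.Ex_vertex_le (hν : Adm ν M K) (i : Bool) (f : Vx F p → ℝ) (hf : ∀ a, 0 ≤ f a) :
    Ex ν (fun ω => f (ω i)) ≤ M * av f := by
  rw [Ent_Ex_fib' (fun ω : Om F p => ω i) univ (fun _ _ => mem_univ _) f]
  refine (sum_le_sum fun a _ => mul_le_mul_of_nonneg_right (hν.marg i a) (hf a)).trans (le_of_eq ?_)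
  rw [← mul_sum, av]; ring

lemma Adm.one_le (hν : Adm ν M K) : 1 ≤ M := by
  have h := hν.Ex_vertex_le false (fun _ => 1) fun _ => zero_le_one
  rwa [Ex_const hν.prob, av_const, mul_one] at h

lemma Adm.Ex_curve_le (hν : Adm ν M K) (i : Bool) (f : Cv F p → ℝ) (hf : ∀ a, 0 ≤ f a) :
    Ex ν (fun ω => f (cv ω i)) ≤ M * av f := by
  have h := hν.Ex_vertex_le i (fun a => f a.1) fun a => hf a.1
  rw [av_prod] at h
  simp only [av_const] at h
  exact h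

/-- domination by the uniform law on pairs. -/
lemma Adm.Ex_le (hν : Adm ν M K) (f : Om F p → ℝ) (hf : ∀ a, 0 ≤ f a) : Ex ν f ≤ K * av f := by
  refine (sum_le_sum fun a _ => mul_le_mul_of_nonneg_right (hν.dens a) (hf a)).trans (le_of_eq ?_)
  rw [← mul_sum, av, Fintype.card_fun, Fintype.card_bool]
  push_cast
  ring

lemma Adm.one_le_K (hν : Adm ν M K) : 1 ≤ K := by
  have h := hν.Ex_le (fun _ => 1) fun _ => zero_le_one
  rwa [Ex_const hν.prob, av_const, mul_one] at h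

/-- splitting a pair into curves, mixers and test functions. -/
lemma av_Om (f : (Bool → Cv F p) → (Bool → Mx F p) → (Bool → Gh F p) → ℝ) :
    av (fun ω : Om F p => f (cv ω) (mx ω) (gs ω)) =
      av (fun L => av (fun ψ => av (fun γ => f L ψ γ))) := by
  let e : Om F p ≃ (Bool → Cv F p) × ((Bool → Mx F p) × (Bool → Gh F p)) :=
    { toFun := fun ω => (cv ω, mx ω, gs ω)
      invFun := fun x i => (x.1 i, x.2.1 i, x.2.2 i)
      left_inv := fun _ => rfl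
      right_inv := fun _ => rfl }
  refine (av_equiv e fun x => f x.1 x.2.1 x.2.2).trans ?_
  rw [av_prod]
  exact av_congr fun L => av_prod _

omit [Fintype F] [Algebra (ZMod 2) F] in
lemma FreshA_ne {τ : Bool × Bool → F} (hτ : Function.Injective τ) (i : Bool) :
    τ (i, false) ≠ τ (i, true) := fun h => by simpa using hτ h

lemma av_pts (hp : p.Ok) {τ : Bool × Bool → F} (hτ : Function.Injective τ)
    (P : Bool × Bool → Fin p.N → F) :
    av (fun L : Bool → Cv F p => ind (pts L τ = P)) = 1 / (Fintype.card F : ℝ) ^ (4 * p.N) := by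
  rw [← av_equiv (Equiv.boolArrowEquivProd (Cv F p)).symm, av_prod]
  have e : ∀ x y : Cv F p, ind (pts ((Equiv.boolArrowEquivProd (Cv F p)).symm (x, y)) τ = P) =
      ind (ptv x (τ (false, false)) = P (false, false) ∧ ptv x (τ (false, true)) = P (false, true)) *
      ind (ptv y (τ (true, false)) = P (true, false) ∧ ptv y (τ (true, true)) = P (true, true)) := by
    intro x y
    rw [← ind_and]
    refine ind_congr ?_
    rw [funext_iff, Prod.forall, Bool.forall_bool, Bool.forall_bool, Bool.forall_bool]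
    rfl
  simp only [e]
  rw [av_mul_av, av_two_points hp (FreshA_ne hτ _), av_two_points hp (FreshA_ne hτ _),
    one_div_mul_one_div, ← pow_add]
  congr 2; ring

lemma FreshA_Pr_zero {Ω : Type} [Fintype Ω] (ν : Ω → ℝ) {A : Ω → Prop} (h : ¬ ∃ ω, A ω) :
    Pr ν A = 0 := by
  rw [Pr, Ex_congr fun ω => ind_neg fun h' => h ⟨ω, h'⟩, Ex_zero]

lemma FreshA_cond (hν : Adm ν M K) (hB : 0 ≤ B) (τ : Bool × Bool → F)
    (P : Bool × Bool → Fin p.N → F) (i : Bool) (E : Cv F p → Prop) :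
    Pr ν (fun ω => G1 ν B (cv ω) τ i ∧ pts (cv ω) τ = P ∧ E (cv ω i)) ≤
      B / (Fintype.card F : ℝ) ^ (2 * p.N) * (M * av (fun c : Cv F p =>
        ind (ptv c (τ (i, false)) = P (i, false) ∧ ptv c (τ (i, true)) = P (i, true) ∧ E c))) := by
  have hb : 0 ≤ B / (Fintype.card F : ℝ) ^ (2 * p.N) := by positivity
  refine le_trans ?_ (mul_le_mul_of_nonneg_left (hν.Ex_curve_le i _ fun _ => ind_nonneg _) hb)
  rw [← Ent_sum_Pr (fun ω : Om F p => cv ω i) univ (fun _ _ => mem_univ _),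
    Ent_Ex_fib' (fun ω : Om F p => cv ω i) univ (fun _ _ => mem_univ _) fun c : Cv F p =>
      ind (ptv c (τ (i, false)) = P (i, false) ∧ ptv c (τ (i, true)) = P (i, true) ∧ E c), mul_sum]
  refine sum_le_sum fun c _ => ?_
  by_cases h : ∃ ω, cv ω i = c ∧ G1 ν B (cv ω) τ i ∧ pts (cv ω) τ = P ∧ E (cv ω i)
  · obtain ⟨ω, rfl, h1, rfl, h3⟩ := h
    rw [ind_pos ⟨rfl, rfl, h3⟩, mul_one]
    exact (Pr_mono hν.prob.1 fun ω' h' => ⟨h'.1, fun k => congrFun h'.2.2.1 _⟩).trans h1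
  · rw [FreshA_Pr_zero ν h]
    exact mul_nonneg hb (mul_nonneg (Pr_nonneg hν.prob.1 _) (ind_nonneg _))

theorem mass_le (hp : p.Ok) (hν : Adm ν M K) (hB : 0 ≤ B) {τ : Bool × Bool → F}
    (hτ : Function.Injective τ) (P : Bool × Bool → Fin p.N → F) :
    Pr ν (fun ω => G1 ν B (cv ω) τ false ∧ pts (cv ω) τ = P) ≤
      M * B / (Fintype.card F : ℝ) ^ (4 * p.N) := by
  have h := FreshA_cond hν hB τ P false fun _ => True
  simp only [and_true] at h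
  rw [av_two_points hp (FreshA_ne hτ _)] at h
  refine h.trans (le_of_eq ?_)
  rw [show 4 * p.N = 2 * p.N + 2 * p.N by ring, pow_add]
  ring

lemma FreshA_union {Ω ι : Type} [Fintype Ω] [Fintype ι] {ν : Ω → ℝ} (hν : ∀ ω, 0 ≤ ν ω)
    (A : ι → Ω → Prop) : Pr ν (fun ω => ∃ z, A z ω) ≤ ∑ z, Pr ν (A z) := by
  unfold Pr
  rw [← Ex_sum]
  refine Ex_mono hν fun ω => ?_
  by_cases h : ∃ z, A z ω
  · obtain ⟨z, hz⟩ := id h
    rw [ind_pos h, ← ind_pos hz]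
    exact single_le_sum (f := fun z => ind (A z ω)) (fun _ _ => ind_nonneg _) (mem_univ z)
  · rw [ind_neg h]; exact sum_nonneg fun _ _ => ind_nonneg _

theorem cost_le (hp : p.Ok) (hq : 4 ≤ Fintype.card F) (hν : Adm ν M K) (hB : 0 ≤ B)
    {τ : Bool × Bool → F} (hτ : Function.Injective τ) (P : Bool × Bool → Fin p.N → F)
    (e : Bool → Cv F p) :
    Pr ν (fun ω => (∀ i, G1 ν B (cv ω) τ i) ∧ pts (cv ω) τ = P ∧
      ∃ i k', Unf (τ (i, false)) (τ (i, true)) (cv ω i) (e k')) ≤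
      M * B / (Fintype.card F : ℝ) ^ (4 * p.N) *
        (4 * (Fintype.card F : ℝ) ^ 2 / (Fintype.card F : ℝ) ^ p.N) := by
  have hM : 0 ≤ M := zero_le_one.trans hν.one_le
  have h1 := FreshA_union hν.prob.1 fun (z : Bool × Bool) (ω : Om F p) =>
    G1 ν B (cv ω) τ z.1 ∧ pts (cv ω) τ = P ∧ Unf (τ (z.1, false)) (τ (z.1, true)) (cv ω z.1) (e z.2)
  refine (Pr_mono hν.prob.1 fun ω h => ?_).trans (h1.trans ?_)
  · obtain ⟨a1, a2, i, k', a3⟩ := h
    exact ⟨(i, k'), a1 i, a2, a3⟩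
  · refine (sum_le_card_nsmul _ _ (B / (Fintype.card F : ℝ) ^ (2 * p.N) *
      (M * ((Fintype.card F : ℝ) ^ 2 / (Fintype.card F : ℝ) ^ (3 * p.N)))) fun z _ => ?_).trans
      (le_of_eq ?_)
    · refine (FreshA_cond hν hB τ P z.1 fun c =>
        Unf (τ (z.1, false)) (τ (z.1, true)) c (e z.2)).trans ?_
      gcongr
      exact av_unf hp hq (FreshA_ne hτ _) _ _ _
    · have : (Fintype.card F : ℝ) ≠ 0 := by positivity
      simp only [card_univ, Fintype.card_prod, Fintype.card_bool, nsmul_eq_mul]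
      push_cast
      field_simp
      ring

lemma nuR_nonneg (hν : Adm ν M K) (τ : Bool × Bool → F) (ψ : Bool → Mx F p)
    (P : Bool × Bool → Fin p.N → F) (ω : Om F p) : 0 ≤ nuR ν B τ ψ P ω := by
  exact mul_nonneg (hν.prob.1 ω) (ind_nonneg _)

lemma sum_nuR_le (hp : p.Ok) (hν : Adm ν M K) (hB : 0 ≤ B) (τ : Bool × Bool → F)
    (ψ : Bool → Mx F p) (P : Bool × Bool → Fin p.N → F) :
    ∑ ω, nuR ν B τ ψ P ω ≤ M * B / (Fintype.card F : ℝ) ^ (4 * p.N) := by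
  have hM : 0 ≤ M := zero_le_one.trans hν.one_le
  change Pr ν (fun ω => Good ν B ω τ ∧ mx ω = ψ ∧ pts (cv ω) τ = P) ≤ _
  by_cases hτ : Function.Injective τ
  · exact (Pr_mono hν.prob.1 fun ω h => ⟨h.1.g1 false, h.2.2⟩).trans (mass_le hp hν hB hτ P)
  · rw [FreshA_Pr_zero ν fun ⟨ω, h⟩ => hτ h.1.inj]; positivity

lemma sum_nuR_unf_le (hp : p.Ok) (hq : 4 ≤ Fintype.card F) (hν : Adm ν M K) (hB : 0 ≤ B)
    (τ : Bool × Bool → F) (ψ : Bool → Mx F p) (P : Bool × Bool → Fin p.N → F)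
    (e : Bool → Cv F p) :
    ∑ ω, nuR ν B τ ψ P ω * ind (∃ i k', Unf (τ (i, false)) (τ (i, true)) (cv ω i) (e k')) ≤
      M * B / (Fintype.card F : ℝ) ^ (4 * p.N) *
        (4 * (Fintype.card F : ℝ) ^ 2 / (Fintype.card F : ℝ) ^ p.N) := by
  have hM : 0 ≤ M := zero_le_one.trans hν.one_le
  simp only [nuR, mul_assoc, ← ind_and]
  change Pr ν (fun ω => (Good ν B ω τ ∧ mx ω = ψ ∧ pts (cv ω) τ = P) ∧
    ∃ i k', Unf (τ (i, false)) (τ (i, true)) (cv ω i) (e k')) ≤ _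
  by_cases hτ : Function.Injective τ
  · exact (Pr_mono hν.prob.1 fun ω h => ⟨h.1.1.g1, h.1.2.2, h.2⟩).trans
      (cost_le hp hq hν hB hτ P e)
  · rw [FreshA_Pr_zero ν fun ⟨ω, h⟩ => hτ h.1.1.inj]; positivity

/-- `Th` as a linear functional. -/
def FreshA_ThL (ψ : Bool → Mx F p) (L : Bool → Cv F p) (τ : Bool × Bool → F) (ξ : Xi F) (i : Bool)
    (e : Ei p) : GG F p →ₗ[F] F :=
  ∑ k, Afun (ψ i) (τ (i, k)) (ξ (i, k)) e ∘ₗ LinearMap.proj (L k) ∘ₗ (GGs F p p.J).subtype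

lemma FreshA_ThL_apply (ψ : Bool → Mx F p) (L : Bool → Cv F p) (τ : Bool × Bool → F) (ξ : Xi F)
    (i : Bool) (e : Ei p) (G : GG F p) : FreshA_ThL ψ L τ ξ i e G = Th ψ L τ ξ i e G.1 := by
  rw [FreshA_ThL, LinearMap.sum_apply]; rfl

lemma FreshA_av_chi (θ : Bool → Ei p → GG F p →ₗ[F] F) :
    av (fun γ : Bool → Gh F p => chi (∑ i, ∑ e, θ i e (γ i e))) =
      ind (∀ i e, ∀ G : GG F p, θ i e G = 0) := by
  let φ : (Bool → Gh F p) →ₗ[F] F := ∑ i, ∑ e, θ i e ∘ₗ LinearMap.proj e ∘ₗ LinearMap.proj i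
  have hφ : ∀ γ, φ γ = ∑ i, ∑ e, θ i e (γ i e) := fun γ => by
    simp only [φ, LinearMap.sum_apply]; rfl
  simp only [← hφ]
  rw [av_chi_lin φ]
  refine ind_congr ⟨fun h i e G => ?_, fun h => LinearMap.ext fun γ => by simp [hφ, h]⟩
  have h1 := hφ (Pi.single i (Pi.single e G))
  rw [h, LinearMap.zero_apply, sum_eq_single i (fun i' _ hi => by simp [Pi.single_eq_of_ne hi])
    (by simp), Pi.single_eq_same, sum_eq_single e (fun e' _ he => by simp [Pi.single_eq_of_ne he])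
    (by simp), Pi.single_eq_same] at h1
  exact h1.symm

/-- the functional on all test functions given by a family of coordinates averages to the
indicator that all coordinates vanish. -/
lemma av_chi_Th {ι : Type} [Fintype ι] (ψ : Bool → Mx F p) (L : ι → Bool → Cv F p)
    (τ : Bool × Bool → F) (ξ : Xi F) :
    av (fun γ : Bool → Gh F p => chi (∑ m, ∑ i, ∑ e, Th ψ (L m) τ ξ i e (γ i e).1)) =
      ind (∀ i e, ∀ G : GG F p, ∑ m, Th ψ (L m) τ ξ i e G.1 = 0) := by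
  have h := FreshA_av_chi fun i e => ∑ m, FreshA_ThL ψ (L m) τ ξ i e
  simp only [LinearMap.sum_apply, FreshA_ThL_apply] at h
  rw [← h]
  refine av_congr fun γ => ?_
  rw [sum_comm]
  exact congrArg chi (sum_congr rfl fun i _ => sum_comm)

/-- the inner sum of `fr`. -/
def FreshA_J (ν : Om F p → ℝ) (B : ℝ) (τ : Bool × Bool → F) (ξ : Xi F) (ψ ψ' : Bool → Mx F p)
    (P' : Bool × Bool → Fin p.N → F) (b : Om F p → ℝ) (L : Bool → Cv F p) (γ : Bool → Gh F p) : ℝ :=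
  ∑ ω', nuR ν B (tp τ) ψ' P' ω' *
    (b ω' * chi (∑ i, ∑ e, Th (mx ω') L (tp τ) (xT ξ) i e (gs ω' i e).1)) *
    chi (∑ i, ∑ e, Th ψ (cv ω') τ ξ i e (γ i e).1)

lemma FreshA_fr_eq (τ : Bool × Bool → F) (ξ : Xi F) (ψ ψ' : Bool → Mx F p)
    (P P' : Bool × Bool → Fin p.N → F) (a b : Om F p → ℝ) :
    fr ν B τ ξ ψ ψ' P P' a b = Ex (nuR ν B τ ψ P)
      (fun ω => a ω * FreshA_J ν B τ ξ ψ ψ' P' b (cv ω) (gs ω)) := by
  refine sum_congr rfl fun ω _ => ?_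
  by_cases h : mx ω = ψ
  · simp only [FreshA_J, mul_sum, phs_eq, chi_add, h]
    exact sum_congr rfl fun ω' _ => by ring
  · have : nuR ν B τ ψ P ω = 0 := by rw [nuR, ind_neg fun h' => h h'.2.1, mul_zero]
    simp [this]

lemma FreshA_of_ne (hν : Adm ν M K) {τ : Bool × Bool → F} {ψ : Bool → Mx F p}
    {P : Bool × Bool → Fin p.N → F} {ω : Om F p} (h : nuR ν B τ ψ P ω ≠ 0) :
    Reg ω ∧ Good ν B ω τ := by
  refine ⟨hν.reg ω (left_ne_zero_of_mul h), ?_⟩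
  by_contra hc
  exact right_ne_zero_of_mul h (ind_neg fun h' => hc h'.1)

omit [Field F] [Fintype F] [Algebra (ZMod 2) F] in
lemma FreshA_class {Ω α G : Type} [Fintype Ω] [Fintype α] [Fintype G] [AddCommGroup G]
    {ν : Ω → ℝ} (hν : ∀ ω, 0 ≤ ν ω) (hB : 0 ≤ B) (H : AddSubgroup G) (g : Ω → G) (W : Ω → α)
    (E : Ω → Prop) (A : α → Prop) (Φ : α → G → ℝ) (h0 : ∀ d γ, 0 ≤ Φ d γ)
    (hinv : ∀ d γ γ', γ - γ' ∈ H → Φ d γ = Φ d γ') {c : ℝ} (hc : ∀ d, av (Φ d) ≤ c)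
    (hE : ∀ ω, E ω → A (W ω) ∧ Pr ν (fun ω' => W ω' = W ω ∧ g ω' - g ω ∈ H) ≤
      B * ((Nat.card H : ℝ) / Fintype.card G) * Pr ν (fun ω' => W ω' = W ω)) :
    Ex ν (fun ω => ind (E ω) * Φ (W ω) (g ω)) ≤ B * c * Pr ν (fun ω => A (W ω)) := by
  have hH : (0 : ℝ) < Nat.card H := by exact_mod_cast Nat.card_pos
  have e1 : ∀ x : G, ∑ γ, ind (x - γ ∈ H) = (Nat.card H : ℝ) := fun x => by
    refine ((Equiv.subLeft x).sum_comp fun γ => ind (γ ∈ H)).trans ?_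
    rw [sum_ind_eq_card, Nat.card_eq_fintype_card, Fintype.card_subtype]
  have e2 : ∀ ω, (Nat.card H : ℝ) * (ind (E ω) * Φ (W ω) (g ω)) =
      ∑ γ, ind (E ω ∧ g ω - γ ∈ H) * Φ (W ω) γ := fun ω => by
    rw [← e1 (g ω), sum_mul]
    refine sum_congr rfl fun γ _ => ?_
    by_cases h : g ω - γ ∈ H
    · rw [ind_and, hinv _ _ _ h]; ring
    · rw [ind_and, ind_neg h]; ring
  refine le_of_mul_le_mul_left ?_ hH
  rw [← Ex_const_mul]
  simp only [e2]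
  rw [Ex_sum]
  simp only [fun γ => Ent_Ex_fib (ν := ν) W univ (fun _ _ => mem_univ _)
    (fun ω => E ω ∧ g ω - γ ∈ H) fun d => Φ d γ]
  rw [sum_comm, Pr, Ent_Ex_fib' W univ (fun _ _ => mem_univ _) fun d => ind (A d), mul_sum,
    mul_sum]
  refine sum_le_sum fun d _ => ?_
  have hp : 0 ≤ Pr ν (fun ω => W ω = d) * ind (A d) := mul_nonneg (Pr_nonneg hν _) (ind_nonneg _)
  have key : ∀ γ, Pr ν (fun ω => W ω = d ∧ E ω ∧ g ω - γ ∈ H) ≤
      B * ((Nat.card H : ℝ) / Fintype.card G) * (Pr ν (fun ω => W ω = d) * ind (A d)) := fun γ => by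
    by_cases h : ∃ ω, W ω = d ∧ E ω ∧ g ω - γ ∈ H
    · obtain ⟨ω, rfl, h1, h2⟩ := h
      rw [ind_pos (hE ω h1).1, mul_one]
      refine (Pr_mono hν fun ω' h' => ⟨h'.1, ?_⟩).trans (hE ω h1).2
      simpa using sub_mem h'.2.2 h2
    · rw [FreshA_Pr_zero ν h]; positivity
  refine (sum_le_sum fun γ _ => mul_le_mul_of_nonneg_right (key γ) (h0 d γ)).trans ?_
  rw [← mul_sum]
  calc _ = (Nat.card H : ℝ) * (B * av (Φ d) * (Pr ν (fun ω => W ω = d) * ind (A d))) := by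
        rw [av]; ring
    _ ≤ _ := by gcongr; exact hc d

lemma FreshA_inv {τ : Bool × Bool → F} {ξ : Xi F} {ψ ψ' : Bool → Mx F p}
    {P' : Bool × Bool → Fin p.N → F} {b : Om F p → ℝ}
    (hb' : ∀ ω', b ω' ≠ 0 → ∀ i e, Loc ψ (cv ω') τ ξ i e) (L : Bool → Cv F p)
    {γ γ' : Bool → Gh F p} (h : γ - γ' ∈ Kj p τ) :
    FreshA_J ν B τ ξ ψ ψ' P' b L γ = FreshA_J ν B τ ξ ψ ψ' P' b L γ' := by
  refine sum_congr rfl fun ω' _ => ?_
  by_cases h0 : b ω' = 0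
  · simp [h0]
  · congr 2
    refine sum_congr rfl fun i _ => sum_congr rfl fun e _ => ?_
    have h1 := hb' ω' h0 i e _ (h i e)
    rw [← FreshA_ThL_apply, Pi.sub_apply, Pi.sub_apply, map_sub, sub_eq_zero] at h1
    rw [← FreshA_ThL_apply, ← FreshA_ThL_apply, h1]

lemma FreshA_sq (hp : p.Ok) (hq : 4 ≤ Fintype.card F) (hν : Adm ν M K) (hB : 0 ≤ B)
    {τ : Bool × Bool → F} (hτ : Function.Injective τ) {ξ : Xi F} {ψ ψ' : Bool → Mx F p}
    {P' : Bool × Bool → Fin p.N → F} {b : Om F p → ℝ} (hb : ∀ ω, |b ω| ≤ 1)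
    (hb' : ∀ ω', b ω' ≠ 0 → (∀ i e, Loc ψ (cv ω') τ ξ i e) ∧ ¬ Nn ψ (cv ω') τ ξ)
    (L : Bool → Cv F p) :
    av (fun γ => FreshA_J ν B τ ξ ψ ψ' P' b L γ ^ 2) ≤
      M * B / (Fintype.card F : ℝ) ^ (4 * p.N) * (M * B / (Fintype.card F : ℝ) ^ (4 * p.N) *
        (4 * (Fintype.card F : ℝ) ^ 2 / (Fintype.card F : ℝ) ^ p.N)) := by
  have := charP_two (F := F)
  have hM : 0 ≤ M := zero_le_one.trans hν.one_le
  set β : Om F p → ℝ := fun ω' =>
    b ω' * chi (∑ i, ∑ e, Th (mx ω') L (tp τ) (xT ξ) i e (gs ω' i e).1) with hβ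
  have hβ1 : ∀ ω', |β ω'| ≤ 1 := fun ω' => by
    rw [hβ, abs_mul, abs_chi, mul_one]; exact hb ω'
  have e : ∀ γ, FreshA_J ν B τ ξ ψ ψ' P' b L γ ^ 2 = ∑ ω'', ∑ ω',
      nuR ν B (tp τ) ψ' P' ω'' * nuR ν B (tp τ) ψ' P' ω' * (β ω'' * β ω') *
        chi (∑ i, ∑ e, (FreshA_ThL ψ (cv ω') τ ξ i e + FreshA_ThL ψ (cv ω'') τ ξ i e) (γ i e)) := by
    intro γ
    rw [sq, FreshA_J, sum_mul_sum]
    refine sum_congr rfl fun ω'' _ => sum_congr rfl fun ω' _ => ?_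
    simp only [LinearMap.add_apply, FreshA_ThL_apply, sum_add_distrib, chi_add, hβ]
    ring
  simp only [e, av_sum, av_const_mul, FreshA_av_chi]
  refine le_trans (sum_le_sum fun ω'' _ => ?_) ((sum_mul _ _ _).symm.le.trans
    (mul_le_mul_of_nonneg_right (sum_nuR_le hp hν hB (tp τ) ψ' P') (by positivity)))
  refine le_trans ?_ (mul_le_mul_of_nonneg_left
    (sum_nuR_unf_le hp hq hν hB (tp τ) ψ' P' (cv ω'')) (nuR_nonneg hν _ _ _ _))
  rw [mul_sum]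
  refine sum_le_sum fun ω' _ => ?_
  rw [mul_assoc _ (β ω'' * β ω'), ← mul_assoc (nuR ν B (tp τ) ψ' P' ω'')]
  by_cases h1 : nuR ν B (tp τ) ψ' P' ω'' = 0
  · simp [h1]
  by_cases h2 : nuR ν B (tp τ) ψ' P' ω' = 0
  · simp [h2]
  refine mul_le_mul_of_nonneg_left ?_ (mul_nonneg (nuR_nonneg hν _ _ _ _) (nuR_nonneg hν _ _ _ _))
  by_cases h3 : b ω' = 0
  · simp [hβ, h3, ind_nonneg]
  refine (Box_le (hβ1 _) (hβ1 _) (ind_nonneg _)).trans (ind_mono fun h => ?_)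
  by_contra hc
  push Not at hc
  obtain ⟨r1, g1⟩ := FreshA_of_ne hν h1
  obtain ⟨r2, g2⟩ := FreshA_of_ne hν h2
  refine (hb' ω' h3).2 fun i e => claimII hp (cv ω') (cv ω'')
    (fun k => Afun (ψ i) (τ (i, k)) (ξ (i, k)) e) hτ r2.ok g2.avoid.tp g1.avoid.tp
    (fun G => ?_) hc ((hb' ω' h3).1 i e)
  have h4 := h i e G
  rw [LinearMap.add_apply, FreshA_ThL_apply, FreshA_ThL_apply, CharTwo.add_eq_zero] at h4
  exact h4

/-- type II terms. -/
theorem freshII (hp : p.Ok) (hq : 4 ≤ Fintype.card F) (hν : Adm ν M K) (hB : 0 ≤ B) {Bd : ℝ}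
    (hBd : 0 ≤ Bd) (hII : B * (4 * (Fintype.card F : ℝ) ^ 2 / (Fintype.card F : ℝ) ^ p.N) ≤ Bd ^ 2)
    (τ : Bool × Bool → F) (ξ : Xi F) (ψ ψ' : Bool → Mx F p) (P P' : Bool × Bool → Fin p.N → F)
    (a b : Om F p → ℝ) (ha : ∀ ω, |a ω| ≤ 1) (hb : ∀ ω, |b ω| ≤ 1)
    (hb' : ∀ ω', b ω' ≠ 0 → (∀ i e, Loc ψ (cv ω') τ ξ i e) ∧ ¬ Nn ψ (cv ω') τ ξ) :
    |fr ν B τ ξ ψ ψ' P P' a b| ≤ Bd * (M * B / (Fintype.card F : ℝ) ^ (4 * p.N)) ^ 2 := by
  have hM : 0 ≤ M := zero_le_one.trans hν.one_le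
  rw [FreshA_fr_eq]
  by_cases hτ : Function.Injective τ
  swap
  · have : ∀ ω, nuR ν B τ ψ P ω = 0 := fun ω => by
      rw [nuR, ind_neg fun h => hτ h.1.inj, mul_zero]
    simp only [Ex, this, zero_mul, sum_const_zero, abs_zero]
    positivity
  set m := M * B / (Fintype.card F : ℝ) ^ (4 * p.N) with hm
  set u := 4 * (Fintype.card F : ℝ) ^ 2 / (Fintype.card F : ℝ) ^ p.N with hu
  have hm0 : 0 ≤ m := by positivity
  have hu0 : 0 ≤ u := by positivity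
  refine abs_le_of_sq_le_sq ?_ (by positivity)
  refine (Ex_mul_sq_le (nuR_nonneg hν τ ψ P) _ _).trans ?_
  have a1 : Ex (nuR ν B τ ψ P) (fun ω => a ω ^ 2) ≤ m := by
    refine le_trans (sum_le_sum fun ω _ => mul_le_of_le_one_right (nuR_nonneg hν τ ψ P ω) ?_)
      (sum_nuR_le hp hν hB τ ψ P)
    exact (sq_abs _).ge.trans (pow_le_one₀ (abs_nonneg _) (ha ω))
  have a2 := FreshA_class hν.prob.1 hB (Kj p τ) gs (fun ω => (cv ω, mx ω))
    (fun ω => Good ν B ω τ ∧ mx ω = ψ ∧ pts (cv ω) τ = P)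
    (fun d => G1 ν B d.1 τ false ∧ pts d.1 τ = P)
    (fun d γ => FreshA_J ν B τ ξ ψ ψ' P' b d.1 γ ^ 2) (fun _ _ => sq_nonneg _)
    (fun d γ γ' h => by rw [FreshA_inv (fun ω' h0 => (hb' ω' h0).1) d.1 h])
    (fun d => FreshA_sq hp hq hν hB hτ hb hb' d.1)
    (fun ω h => ⟨⟨h.1.g1 false, h.2.2⟩, h.1.g2⟩)
  have a3 := mass_le hp hν hB hτ P
  have a4 : Ex (nuR ν B τ ψ P) (fun ω => FreshA_J ν B τ ξ ψ ψ' P' b (cv ω) (gs ω) ^ 2) ≤
      B * (m * (m * u)) * m := by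
    refine le_trans (le_of_eq ?_) (a2.trans (mul_le_mul_of_nonneg_left a3 (by positivity)))
    simp only [Ex, nuR, mul_assoc]
  calc _ ≤ m * (B * (m * (m * u)) * m) :=
        mul_le_mul a1 a4 (Ex_nonneg (nuR_nonneg hν τ ψ P) fun _ => sq_nonneg _) hm0
    _ = B * u * m ^ 4 := by ring
    _ ≤ Bd ^ 2 * m ^ 4 := by gcongr
    _ = _ := by ring

end

end Vale.Agent.P060
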