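import Vale.Agent.P060.FreshA

/-! P060: type I terms. -/

namespace Vale.Agent.P060

open Finset Polynomial Vale.Agent.P056.Sharp

noncomputable section

open scoped Classical

variable {F : Type} [Field F] [Fintype F] [Algebra (ZMod 2) F] {p : Par}
  {ν : Om F p → ℝ} {M K B : ℝ}

/-- a map without fixed points moves a quarter of the points off themselves. -/
theorem exists_free_set {n : ℕ} (f : Fin (4 * n) → Fin (4 * n)) (hf : ∀ i, f i ≠ i) :
    ∃ I : Finset (Fin (4 * n)), I.card = n ∧ ∀ i ∈ I, f i ∉ I := by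
  have h1 : ∀ i, av (fun J : Fin (4 * n) → ZMod 2 => ind (J i = 1 ∧ J (f i) = 0)) = 1 / 4 := by
    intro i
    let φ : (Fin (4 * n) → ZMod 2) →+ ZMod 2 × ZMod 2 :=
      { toFun := fun J => (J i, J (f i))
        map_zero' := rfl
        map_add' := fun _ _ => rfl }
    have hφ : Function.Surjective φ := fun y =>
      ⟨fun x => if x = i then y.1 else y.2, by simp [φ, hf i]⟩
    have := count_fiber φ hφ (1, 0)
    rw [Fintype.card_prod, ZMod.card] at this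
    refine Eq.trans (av_congr fun J => ind_congr ?_) (this.trans (by norm_num))
    simp [φ]
  obtain ⟨J, -, hJ⟩ := exists_ge_Ex (isProb_unif (X := Fin (4 * n) → ZMod 2))
    fun J => ∑ i, ind (J i = 1 ∧ J (f i) = 0)
  rw [← av_eq_Ex, av_sum, sum_ind_eq_card] at hJ
  simp only [h1, sum_const, card_univ, Fintype.card_fin, nsmul_eq_mul] at hJ
  have h2 : n ≤ (univ.filter fun i => J i = 1 ∧ J (f i) = 0).card := by
    have : (n : ℝ) = ((4 * n : ℕ) : ℝ) * (1 / 4) := by push_cast; ring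
    exact_mod_cast this.le.trans hJ
  obtain ⟨I, hI, hc⟩ := exists_subset_card_eq h2
  refine ⟨I, hc, fun i hi hfi => ?_⟩
  have a1 := (mem_filter.1 (hI hi)).2.2
  have a2 := (mem_filter.1 (hI hfi)).2.1
  rw [a1] at a2
  exact absurd a2 (by decide)

omit [Field F] [Fintype F] [Algebra (ZMod 2) F] in
lemma FreshI_int {Ω ι : Type} [Fintype Ω] [Fintype ι] [DecidableEq ι] {μ : Ω → ℝ}
    (hμ : ∀ x, 0 ≤ μ x) {g : Ω → Ω → ℝ} (hg : ∀ x y, 0 ≤ g x y) {m c : ℝ} (hm : ∑ x, μ x ≤ m)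
    (hc0 : 0 ≤ c) (hc : ∀ y, ∑ x, μ x * g x y ≤ c) (f : ι → ι) (I : Finset ι) (hI : ∀ i ∈ I, f i ∉ I) :
    ∑ w : ι → Ω, (∏ i, μ (w i)) * ∏ i ∈ I, g (w i) (w (f i)) ≤
      c ^ I.card * m ^ (Fintype.card ι - I.card) := by
  rw [← (Equiv.piEquivPiSubtypeProd (fun i => i ∈ I) fun _ => Ω).symm.sum_comp,
    Fintype.sum_prod_type, sum_comm]
  have e : ∀ (v : {i // i ∉ I} → Ω) (u : {i // i ∈ I} → Ω),
      (∏ i, μ ((Equiv.piEquivPiSubtypeProd (fun i => i ∈ I) fun _ => Ω).symm (u, v) i)) *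
        ∏ i ∈ I, g ((Equiv.piEquivPiSubtypeProd (fun i => i ∈ I) fun _ => Ω).symm (u, v) i)
          ((Equiv.piEquivPiSubtypeProd (fun i => i ∈ I) fun _ => Ω).symm (u, v) (f i)) =
      (∏ i, μ (v i)) * ∏ i : {i // i ∈ I}, μ (u i) * g (u i) (v ⟨f i, hI i i.2⟩) := by
    intro v u
    have hs : ∀ h : ι → ℝ, ∏ i, h i = (∏ i : {i // i ∈ I}, h i) * ∏ i : {i // i ∉ I}, h i :=
      fun h => by
        rw [prod_coe_sort I h, ← prod_mul_prod_compl I h,
          prod_subtype (p := fun i => i ∉ I) (compl I) (fun x => mem_compl) h]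
    rw [hs, ← prod_coe_sort I, prod_mul_distrib]
    have h0 : ∀ x : {i // i ∉ I}, ¬ x.1 ∈ I := fun x => x.2
    simp only [Equiv.piEquivPiSubtypeProd_symm_apply, Subtype.prop, dite_true, dite_false,
      hI _ (Subtype.prop _), Subtype.coe_eta, h0]
    ring
  simp only [e, ← mul_sum]
  have h1 : ∀ v : {i // i ∉ I} → Ω, ∑ u : {i // i ∈ I} → Ω,
      ∏ i : {i // i ∈ I}, μ (u i) * g (u i) (v ⟨f i, hI i i.2⟩) ≤ c ^ I.card := fun v => by
    rw [← Fintype.prod_sum fun (i : {i // i ∈ I}) x => μ x * g x (v ⟨f i, hI i i.2⟩)]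
    refine (prod_le_prod (g := fun _ => c)
      (fun i _ => sum_nonneg fun x _ => mul_nonneg (hμ x) (hg _ _))
      fun (i : {i // i ∈ I}) _ => hc (v ⟨f i, hI i i.2⟩)).trans (le_of_eq ?_)
    simp
  refine (sum_le_sum fun v _ => mul_le_mul_of_nonneg_left (h1 v)
    (prod_nonneg fun i _ => hμ _)).trans ?_
  rw [← sum_mul, ← Fintype.prod_sum fun (_ : {i // i ∉ I}) x => μ x, mul_comm]
  refine mul_le_mul_of_nonneg_left ?_ (pow_nonneg hc0 _)
  refine (prod_le_prod (fun i _ => sum_nonneg fun x _ => hμ x) fun i _ => hm).trans (le_of_eq ?_)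
  simp [Fintype.card_subtype_compl]

lemma FreshI_pow (hp : p.Ok) (hq : 4 ≤ Fintype.card F) (hν : Adm ν M K) (hB : 0 ≤ B) {n4 : ℕ}
    (h4 : p.ns = 4 * n4) {τ : Bool × Bool → F} {ξ : Xi F} {ψ ψ' : Bool → Mx F p}
    {P' : Bool × Bool → Fin p.N → F} {b : Om F p → ℝ} (hb : ∀ ω, |b ω| ≤ 1) {i : Bool} {e : Ei p}
    (hb' : ∀ ω', b ω' ≠ 0 → ¬ Loc ψ (cv ω') τ ξ i e) (L : Bool → Cv F p) :
    av (fun γ => FreshA_J ν B τ ξ ψ ψ' P' b L γ ^ (4 * n4)) ≤ ((4 * n4 : ℕ) : ℝ) ^ (4 * n4) *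
      ((M * B / (Fintype.card F : ℝ) ^ (4 * p.N) *
        (4 * (Fintype.card F : ℝ) ^ 2 / (Fintype.card F : ℝ) ^ p.N)) ^ n4 *
        (M * B / (Fintype.card F : ℝ) ^ (4 * p.N)) ^ (4 * n4 - n4)) := by
  have hM : 0 ≤ M := zero_le_one.trans hν.one_le
  set μ := nuR ν B (tp τ) ψ' P' with hμ
  have hμ0 : ∀ ω, 0 ≤ μ ω := nuR_nonneg hν _ _ _
  set β : Om F p → ℝ := fun ω' =>
    b ω' * chi (∑ i, ∑ e, Th (mx ω') L (tp τ) (xT ξ) i e (gs ω' i e).1) with hβ
  have hβ1 : ∀ ω', |β ω'| ≤ 1 := fun ω' => by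
    rw [hβ, abs_mul, abs_chi, mul_one]; exact hb ω'
  set g : Om F p → Om F p → ℝ := fun x y =>
    ind (∃ k k', Unf (tp τ (k, false)) (tp τ (k, true)) (cv x k) (cv y k')) with hg
  have e1 : ∀ γ, FreshA_J ν B τ ξ ψ ψ' P' b L γ ^ (4 * n4) = ∑ w : Fin (4 * n4) → Om F p,
      (∏ m, μ (w m)) * (∏ m, β (w m)) *
        chi (∑ m, ∑ i, ∑ e, Th ψ (cv (w m)) τ ξ i e (γ i e).1) := fun γ => by
    rw [FreshA_J, Fintype.sum_pow]
    exact sum_congr rfl fun w _ => by rw [prod_mul_distrib, prod_mul_distrib, chi_sum]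
  simp only [e1, av_sum, av_const_mul]
  set T := univ.filter fun f : Fin (4 * n4) → Fin (4 * n4) => ∀ m, f m ≠ m with hT
  have k1 : ∀ w : Fin (4 * n4) → Om F p, (∏ m, μ (w m)) * (∏ m, β (w m)) *
      av (fun γ : Bool → Gh F p => chi (∑ m, ∑ i, ∑ e, Th ψ (cv (w m)) τ ξ i e (γ i e).1)) ≤
      ∑ f ∈ T, (∏ m, μ (w m)) * ∏ m, g (w m) (w (f m)) := fun w => by
    have p0 : 0 ≤ ∑ f ∈ T, ∏ m, g (w m) (w (f m)) :=
      sum_nonneg fun _ _ => prod_nonneg fun _ _ => ind_nonneg _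
    rw [av_chi_Th ψ fun m => cv (w m), ← mul_sum, mul_assoc]
    by_cases h1 : ∏ m, μ (w m) = 0
    · simp [h1]
    refine mul_le_mul_of_nonneg_left ?_ (prod_nonneg fun _ _ => hμ0 _)
    by_cases h2 : ∏ m, β (w m) = 0
    · rw [h2, zero_mul]; exact p0
    by_cases h3 : ∀ i e, ∀ G : GG F p, ∑ m, Th ψ (cv (w m)) τ ξ i e G.1 = 0
    swap
    · rw [ind_neg h3, mul_zero]; exact p0
    have key : ∀ m0, ∃ m, m ≠ m0 ∧
        ∃ k k', Unf (tp τ (k, false)) (tp τ (k, true)) (cv (w m0) k) (cv (w m) k') := fun m0 => by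
      by_contra hc
      push Not at hc
      obtain ⟨r, gd⟩ := FreshA_of_ne hν (prod_ne_zero_iff.1 h1 m0 (mem_univ _))
      exact hb' _ (left_ne_zero_of_mul (prod_ne_zero_iff.1 h2 m0 (mem_univ _)))
        (claimI hp (by simp [h4]) (fun m => cv (w m))
          (fun k => Afun (ψ i) (τ (i, k)) (ξ (i, k)) e) m0 r.ok gd.avoid.tp (h3 i e) hc)
    choose f hf1 hf2 using key
    have a1 : ∏ m, β (w m) ≤ 1 := (le_abs_self _).trans (by
      rw [abs_prod]; exact prod_le_one (fun _ _ => abs_nonneg _) fun _ _ => hβ1 _)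
    have a2 : ∏ m, g (w m) (w (f m)) = 1 := prod_eq_one fun m _ => ind_pos (hf2 m)
    rw [ind_pos h3, mul_one]
    exact a1.trans (a2.ge.trans (single_le_sum (f := fun f : Fin (4 * n4) → Fin (4 * n4) =>
      ∏ m, g (w m) (w (f m))) (fun _ _ => prod_nonneg fun _ _ => ind_nonneg _)
      (mem_filter.2 ⟨mem_univ _, hf1⟩)))
  refine (sum_le_sum fun w _ => k1 w).trans ?_
  rw [sum_comm]
  refine (sum_le_card_nsmul _ _ ((M * B / (Fintype.card F : ℝ) ^ (4 * p.N) *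
        (4 * (Fintype.card F : ℝ) ^ 2 / (Fintype.card F : ℝ) ^ p.N)) ^ n4 *
        (M * B / (Fintype.card F : ℝ) ^ (4 * p.N)) ^ (4 * n4 - n4)) fun f hf => ?_).trans ?_
  · obtain ⟨I, hI, hI'⟩ := exists_free_set f (mem_filter.1 hf).2
    have h := FreshI_int hμ0 (g := g) (fun _ _ => ind_nonneg _)
      (sum_nuR_le hp hν hB (tp τ) ψ' P') (by positivity)
      (fun y => sum_nuR_unf_le hp hq hν hB (tp τ) ψ' P' (cv y)) f I hI'
    rw [hI, Fintype.card_fin] at h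
    refine le_trans (sum_le_sum fun w _ => ?_) h
    exact mul_le_mul_of_nonneg_left (prod_le_prod_of_subset_of_le_one (subset_univ I)
      (fun _ _ => ind_nonneg _) fun _ _ _ => ind_le_one _) (prod_nonneg fun _ _ => hμ0 _)
  · rw [nsmul_eq_mul]
    refine mul_le_mul_of_nonneg_right ?_ (by positivity)
    have := card_le_univ T
    rw [Fintype.card_fun, Fintype.card_fin] at this
    exact_mod_cast this

theorem freshI (hp : p.Ok) (hq : 4 ≤ Fintype.card F) (hν : Adm ν M K) (hB : 1 ≤ B) {n4 : ℕ}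
    (h4 : p.ns = 4 * n4) (hN : 4 * (Fintype.card F : ℝ) ^ 2 ≤ (Fintype.card F : ℝ) ^ p.N)
    {Bd : ℝ} (hBd : 0 ≤ Bd)
    (hI : K * (p.ns : ℝ) ^ p.ns *
      (4 * (Fintype.card F : ℝ) ^ 2 / (Fintype.card F : ℝ) ^ p.N) ^ n4 ≤ Bd ^ p.ns)
    (τ : Bool × Bool → F) (ξ : Xi F) (ψ ψ' : Bool → Mx F p) (P P' : Bool × Bool → Fin p.N → F)
    (a b : Om F p → ℝ) (ha : ∀ ω, |a ω| ≤ 1) (hb : ∀ ω, |b ω| ≤ 1) (i : Bool) (e : Ei p)
    (hb' : ∀ ω', b ω' ≠ 0 → ¬ Loc ψ (cv ω') τ ξ i e) :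
    |fr ν B τ ξ ψ ψ' P P' a b| ≤ Bd * (M * B / (Fintype.card F : ℝ) ^ (4 * p.N)) ^ 2 := by
  have hM := hν.one_le
  have hK := hν.one_le_K
  have hns := hp.hns
  have hq0 : (0 : ℝ) < (Fintype.card F : ℝ) ^ (4 * p.N) := by positivity
  rw [FreshA_fr_eq]
  by_cases hτ : Function.Injective τ
  swap
  · have : ∀ ω, nuR ν B τ ψ P ω = 0 := fun ω => by
      rw [nuR, ind_neg fun h => hτ h.1.inj, mul_zero]
    simp only [Ex, this, zero_mul, sum_const_zero, abs_zero]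
    positivity
  have hJ := FreshI_pow (B := B) (ψ' := ψ') (P' := P') hp hq hν (by linarith) h4 hb hb'
  have hmass := sum_nuR_le (B := B) hp hν (by linarith) τ ψ P
  set m := M * B / (Fintype.card F : ℝ) ^ (4 * p.N) with hm
  set u := 4 * (Fintype.card F : ℝ) ^ 2 / (Fintype.card F : ℝ) ^ p.N with hu
  have hm0 : 0 < m := by positivity
  have hu0 : 0 ≤ u := by positivity
  have hm1 : 1 / (Fintype.card F : ℝ) ^ (4 * p.N) ≤ m :=
    div_le_div_of_nonneg_right (one_le_mul_of_one_le_of_one_le hM hB) hq0.le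
  set J : Om F p → ℝ := fun ω => FreshA_J ν B τ ξ ψ ψ' P' b (cv ω) (gs ω) with hJdef
  set c := ((4 * n4 : ℕ) : ℝ) ^ (4 * n4) * ((m * u) ^ n4 * m ^ (4 * n4 - n4)) with hc
  have hc0 : 0 ≤ c := by positivity
  have hev : Even (4 * n4) := ⟨2 * n4, by ring⟩
  have h0 := nuR_nonneg (B := B) hν τ ψ P
  have a1 : |Ex (nuR ν B τ ψ P) (fun ω => a ω * J ω)| ≤
      m * Ex (fun ω => nuR ν B τ ψ P ω / m) (fun ω => |J ω|) := by
    refine (abs_Ex_le h0 _).trans ((Ex_mono h0 (g := fun ω => |J ω|) fun ω => ?_).trans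
      (le_of_eq ?_))
    · rw [abs_mul]; exact mul_le_of_le_one_left (abs_nonneg _) (ha ω)
    · simp only [Ex, mul_sum]
      exact sum_congr rfl fun ω _ => by field_simp
  have a2 := Box_pow (P := fun ω => nuR ν B τ ψ P ω / m) (fun ω => div_nonneg (h0 ω) hm0.le)
    (by rw [← sum_div, div_le_one hm0]; exact hmass) (X := fun ω => |J ω|)
    (fun _ => abs_nonneg _) (l := 4 * n4) (by omega)
  have a3 : Ex (nuR ν B τ ψ P) (fun ω => J ω ^ (4 * n4)) ≤ K * (m * c) := by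
    have b1 : Ex (nuR ν B τ ψ P) (fun ω => J ω ^ (4 * n4)) ≤
        Ex ν (fun ω => ind (pts (cv ω) τ = P) * J ω ^ (4 * n4)) := by
      refine sum_le_sum fun ω _ => ?_
      rw [nuR, mul_assoc]
      exact mul_le_mul_of_nonneg_left (mul_le_mul_of_nonneg_right (ind_mono fun h => h.2.2)
        (hev.pow_nonneg _)) (hν.prob.1 ω)
    refine b1.trans ((hν.Ex_le _ fun ω => mul_nonneg (ind_nonneg _) (hev.pow_nonneg _)).trans ?_)
    refine mul_le_mul_of_nonneg_left ?_ (by linarith)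
    rw [av_Om fun L _ γ => ind (pts L τ = P) * FreshA_J ν B τ ξ ψ ψ' P' b L γ ^ (4 * n4)]
    simp only [av_const_mul, av_const]
    refine (av_mono fun L => mul_le_mul_of_nonneg_left (hJ L) (ind_nonneg _)).trans ?_
    rw [av_mul_const, av_pts hp hτ]
    exact mul_le_mul_of_nonneg_right hm1 hc0
  have a4 : Ex (fun ω => nuR ν B τ ψ P ω / m) (fun ω => |J ω| ^ (4 * n4)) ≤ K * c := by
    have : Ex (fun ω => nuR ν B τ ψ P ω / m) (fun ω => |J ω| ^ (4 * n4)) =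
        Ex (nuR ν B τ ψ P) (fun ω => J ω ^ (4 * n4)) / m := by
      simp only [Ex, sum_div, hev.pow_abs]
      exact sum_congr rfl fun ω _ => by ring
    rw [this, div_le_iff₀ hm0]
    linarith
  have a5 : K * c ≤ (Bd * m) ^ (4 * n4) := by
    rw [h4] at hI
    have e : m ^ n4 * m ^ (4 * n4 - n4) = m ^ (4 * n4) := by
      rw [← pow_add]; congr 1; omega
    calc K * c = K * ((4 * n4 : ℕ) : ℝ) ^ (4 * n4) * u ^ n4 * (m ^ n4 * m ^ (4 * n4 - n4)) := by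
          rw [hc, mul_pow]; ring
      _ ≤ Bd ^ (4 * n4) * m ^ (4 * n4) := by rw [e]; gcongr
      _ = _ := (mul_pow _ _ _).symm
  have a6 := le_of_pow_le_pow_left₀ (by omega) (by positivity) (a2.trans (a4.trans a5))
  calc _ ≤ m * (Bd * m) := a1.trans (mul_le_mul_of_nonneg_left a6 hm0.le)
    _ = _ := by ring

end

end Vale.Agent.P060
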