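import Vale.Agent.P060.Base

/-! P060: abstract Parseval assembly. -/

namespace Vale.Agent.P060

open Finset Vale.Agent.P056.Sharp

noncomputable section

open scoped Classical

variable {X Y V : Type} [Fintype X] [Fintype Y] [Fintype V]

/-- a filtered Fourier expansion. -/
def fwlT (μ : X → Y → ℝ) (s : X → Y → V) (ch : V → V → ℝ) (W : V → ℝ) (g : X → Y → ℝ)
    (x : X × V) : ℝ :=
  Ex (μ x.1) (fun y => g x.1 y * ∑ c, W c * (ch c (s x.1 y) * ch c x.2))

variable {μ : X → Y → ℝ} {s : X → Y → V} {ch : V → V → ℝ}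

omit [Fintype X] in
lemma fwlT_eq (W : V → ℝ) (g : X → Y → ℝ) (x : X × V) : fwlT μ s ch W g x =
    ∑ c, W c * Ex (μ x.1) (fun y => g x.1 y * ch c (s x.1 y)) * ch c x.2 := by
  unfold fwlT
  simp only [mul_sum]
  rw [Ex_sum]
  refine sum_congr rfl fun c _ => ?_
  rw [← Ex_const_mul, ← Ex_mul_const]
  exact Ex_congr fun y => by ring

lemma fwlT_one (hμ : ∀ P y, 0 ≤ μ P y)
    (orth : ∀ c c', av (fun v => ch c v * ch c' v) = ind (c = c')) {o : V} (ho : ∀ v, ch o v = 1)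
    {W : V → ℝ} (hW : W o = 1) (pos : ∀ u v, 0 ≤ ∑ c, W c * (ch c u * ch c v)) {g : X → Y → ℝ}
    (hg : ∀ P y, 0 ≤ g P y) :
    av (fun x => |fwlT μ s ch W g x|) = av (fun P => Ex (μ P) (g P)) := by
  have h1 : ∀ u, av (fun v => ∑ c, W c * (ch c u * ch c v)) = 1 := fun u => by
    have h2 : ∀ c, av (fun v => W c * (ch c u * ch c v)) = W c * ch c u * ind (c = o) := fun c => by
      rw [← orth c o, ← av_const_mul]
      exact av_congr fun v => by rw [ho, mul_one, mul_assoc]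
    rw [av_sum, sum_congr rfl fun c _ => h2 c, sum_eq_single o
      (fun c _ hc => by rw [ind_neg hc, mul_zero]) (fun h => absurd (mem_univ o) h), hW, ho,
      ind_pos rfl]
    norm_num
  rw [av_prod]
  refine av_congr fun P => ?_
  rw [av_congr fun v => abs_of_nonneg (a := fwlT μ s ch W g (P, v))
    (Ex_nonneg (hμ P) fun y => mul_nonneg (hg P y) (pos _ _))]
  refine (av_Ex (μ P) fun v y => g P y * ∑ c, W c * (ch c (s P y) * ch c v)).trans ?_
  exact Ex_congr fun y => by rw [av_const_mul, h1, mul_one]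

lemma fwlT_two (orth : ∀ c c', av (fun v => ch c v * ch c' v) = ind (c = c')) (a : V → ℝ) :
    av (fun v => (∑ c, a c * ch c v) ^ 2) = ∑ c, a c ^ 2 := by
  simp only [sq, sum_mul_sum]
  rw [av_sum]
  refine sum_congr rfl fun c _ => ?_
  have h2 : ∀ c', av (fun v => a c * ch c v * (a c' * ch c' v)) = a c * a c' * ind (c = c') :=
    fun c' => by
      rw [← orth c c', ← av_const_mul]
      exact av_congr fun v => by ring
  rw [av_sum, sum_congr rfl fun c' _ => h2 c', sum_eq_single c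
    (fun c' _ hc => by rw [ind_neg hc.symm, mul_zero]) (fun h => absurd (mem_univ c) h),
    ind_pos rfl, mul_one]

theorem fwl_abs [Nonempty V] (hμ : ∀ P y, 0 ≤ μ P y) (habs : ∀ c v, |ch c v| = 1)
    (orth : ∀ c c', av (fun v => ch c v * ch c' v) = ind (c = c')) {o : V} (ho : ∀ v, ch o v = 1)
    {A0 A1 : V → Prop} (h01 : ∀ c, A1 c → A0 c) (hA0 : A0 o)
    (pos : ∀ u v, 0 ≤ ∑ c, 1 * (ch c u * ch c v))
    (pos0 : ∀ u v, 0 ≤ ∑ c, ind (A0 c) * (ch c u * ch c v)) (Z Tr : X → Y → Prop) {δ a : ℝ}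
    (hδ : 0 ≤ δ) (h1 : av (fun P => Pr (μ P) (fun y => ¬ Tr P y)) ≤ 8 * δ)
    (h2 : ∀ P c, ¬ A0 c → (Fintype.card V : ℝ) *
      Ex (μ P) (fun y => ind (Tr P y) * ind (Z P y) * ch c (s P y)) ^ 2 ≤ δ ^ 2) (ha : 0 ≤ a)
    (h3 : ∀ c, A0 c → ¬ A1 c →
      av (fun P => |Ex (μ P) (fun y => ind (Z P y) * ch c (s P y))|) ≤ a) :
    av (fun x => |fwlT μ s ch (fun _ => 1) (fun P y => ind (Z P y)) x -
      fwlT μ s ch (fun c => ind (A1 c)) (fun P y => ind (Z P y)) x|) ≤
      17 * δ + (∑ c, ind (A0 c)) * a := by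
  let gb : X → Y → ℝ := fun P y => ind (¬ Tr P y) * ind (Z P y)
  have hgb : ∀ P y, 0 ≤ gb P y := fun P y => mul_nonneg (ind_nonneg _) (ind_nonneg _)
  have hb : av (fun P => Ex (μ P) (gb P)) ≤ 8 * δ := le_trans (av_mono fun P =>
    Ex_mono (hμ P) fun y => mul_le_of_le_one_right (ind_nonneg _) (ind_le_one _)) h1
  let T1 := fwlT μ s ch (fun _ => 1) gb
  let T2 := fwlT μ s ch (fun c => ind (¬ A0 c)) (fun P y => ind (Tr P y) * ind (Z P y))
  let T3 := fwlT μ s ch (fun c => ind (A0 c)) gb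
  let T4 := fwlT μ s ch (fun c => ind (A0 c ∧ ¬ A1 c)) (fun P y => ind (Z P y))
  have e1 : av (fun x => |T1 x|) ≤ 8 * δ := (fwlT_one hμ orth ho rfl pos hgb).le.trans hb
  have e3 : av (fun x => |T3 x|) ≤ 8 * δ :=
    (fwlT_one hμ orth ho (ind_pos hA0) pos0 hgb).le.trans hb
  have e2 : av (fun x => |T2 x|) ≤ δ := by
    refine le_of_sq_le_sq ((av_sq_le _).trans ?_) hδ
    rw [av_prod]
    refine av_le_const (sq_nonneg _) fun P => ?_
    simp only [sq_abs, T2, fwlT_eq]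
    rw [fwlT_two orth]
    have hV : (0 : ℝ) < Fintype.card V := by exact_mod_cast Fintype.card_pos
    refine (sum_le_card_nsmul _ _ (δ ^ 2 / Fintype.card V) fun c _ => ?_).trans (le_of_eq ?_)
    · by_cases hc : A0 c
      · rw [ind_neg (not_not.mpr hc), zero_mul, zero_pow two_ne_zero]
        positivity
      · rw [ind_pos hc, one_mul, le_div_iff₀' hV]
        exact h2 P c hc
    · rw [card_univ, nsmul_eq_mul]
      field_simp
  have e4 : av (fun x => |T4 x|) ≤ (∑ c, ind (A0 c)) * a := by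
    have h4 : ∀ x : X × V, |T4 x| ≤ ∑ c, ind (A0 c ∧ ¬ A1 c) *
        |Ex (μ x.1) (fun y => ind (Z x.1 y) * ch c (s x.1 y))| := fun x => by
      simp only [T4, fwlT_eq]
      refine (abs_sum_le_sum_abs _ _).trans (le_of_eq (sum_congr rfl fun c _ => ?_))
      rw [abs_mul, habs, mul_one, abs_mul, abs_of_nonneg (ind_nonneg _)]
    refine (av_mono h4).trans ?_
    rw [av_sum, sum_mul]
    refine sum_le_sum fun c _ => ?_
    rw [av_const_mul, av_prod]
    simp only [av_const]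
    by_cases hc : A0 c ∧ ¬ A1 c
    · rw [ind_pos hc, ind_pos hc.1]
      exact mul_le_mul_of_nonneg_left (h3 c hc.1 hc.2) zero_le_one
    · rw [ind_neg hc, zero_mul]
      exact mul_nonneg (ind_nonneg _) ha
  have e5 : ∀ x, fwlT μ s ch (fun _ => 1) (fun P y => ind (Z P y)) x -
      fwlT μ s ch (fun c => ind (A1 c)) (fun P y => ind (Z P y)) x =
      T1 x + T2 x - T3 x + T4 x := fun x => by
    simp only [T1, T2, T3, T4, fwlT, ← Ex_sub, ← Ex_add, mul_sum, ← sum_sub_distrib,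
      ← sum_add_distrib]
    refine Ex_congr fun y => sum_congr rfl fun c _ => ?_
    have h5 : ind (A0 c ∧ ¬ A1 c) = ind (A0 c) - ind (A1 c) := by
      by_cases h6 : A1 c
      · rw [ind_pos h6, ind_pos (h01 c h6), ind_neg fun h => h.2 h6, sub_self]
      · rw [ind_neg h6, sub_zero, ind_congr (and_iff_left h6)]
    simp only [gb, h5, ind_not]
    ring
  have e6 : ∀ x, |T1 x + T2 x - T3 x + T4 x| ≤ |T1 x| + |T2 x| + |T3 x| + |T4 x| := fun x =>
    (abs_add_le _ _).trans (add_le_add ((abs_sub _ _).trans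
      (add_le_add (abs_add_le _ _) le_rfl)) le_rfl)
  refine (av_mono fun x => (congrArg abs (e5 x)).le.trans (e6 x)).trans ?_
  rw [av_add, av_add, av_add]
  linarith

end

end Vale.Agent.P060
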