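import Vale.Agent.P060.Chars
import Vale.Agent.P060.FwLA

/-! P060: the model density is close to its average. -/

namespace Vale.Agent.P060

open Finset Polynomial Vale.Agent.P056.Sharp

noncomputable section

open scoped Classical

variable {F : Type} [Field F] [Fintype F] [Algebra (ZMod 2) F] {p : Par}
  {ρ : Om F p → ℝ} {k : Bool → Pt F p × Vo F p → Cr F p → ℝ} {e η δ β θ Tc : ℝ}

/-- the characters at one site. -/
def fwlC (a u : Qv F) : ℝ :=
  sgn (a.1.1 * u.1.1 + a.1.2.1 * u.1.2.1 + a.1.2.2 * u.1.2.2) * chi (a.2 * u.2)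

lemma fwl_ind_forall {ι : Type} [Fintype ι] (P : ι → Prop) : ind (∀ z, P z) = ∏ z, ind (P z) := by
  by_cases h : ∀ z, P z
  · rw [ind_pos h, prod_eq_one fun z _ => ind_pos (h z)]
  · obtain ⟨z, hz⟩ := not_forall.mp h
    rw [ind_neg h, prod_eq_zero (mem_univ z) (ind_neg hz)]

lemma fwl_ker (w : Qv F → Prop) (v v' : Bool × Bool → Qv F) :
    ∑ c : Bool × Bool → Qv F, ind (∀ z, w (c z)) * (chQ c v * chQ c v') =
      ∏ z, ∑ a, ind (w a) * (fwlC a (v z) * fwlC a (v' z)) := by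
  rw [prod_univ_sum, Fintype.piFinset_univ]
  refine sum_congr rfl fun c _ => ?_
  rw [fwl_ind_forall, prod_mul_distrib, prod_mul_distrib]
  rfl

omit [Fintype F] in
lemma fwlC_mul (a u u' : Qv F) : fwlC a u * fwlC a u' = sgn (a.1.1 * (u.1.1 + u'.1.1)) *
    (sgn (a.1.2.1 * (u.1.2.1 + u'.1.2.1)) * sgn (a.1.2.2 * (u.1.2.2 + u'.1.2.2))) *
      chi (a.2 * (u.2 + u'.2)) := by
  simp only [fwlC, mul_add, sgn_add, chi_add]
  ring

lemma fwl_sgn (t t' : ZMod 2) : ∑ a : ZMod 2, sgn (a * (t + t')) = 2 * ind (t = t') := by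
  have h11 : (1 + 1 : ZMod 2) = 0 := by decide
  rw [show ∑ a : ZMod 2, sgn (a * (t + t')) = sgn (0 * (t + t')) + sgn (1 * (t + t')) from
    Fin.sum_univ_two _]
  rcases zmod2_cases t with rfl | rfl <;> rcases zmod2_cases t' with rfl | rfl <;>
    simp [sgn_zero, sgn_one, h11, ind] <;> norm_num

lemma fwl_chi (t t' : F) : ∑ a : F, chi (a * (t + t')) = Fintype.card F * ind (t = t') := by
  have := charP_two (F := F)
  have h := av_chi_mul (t + t')
  have hc : (Fintype.card F : ℝ) ≠ 0 := by exact_mod_cast Fintype.card_ne_zero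
  rw [av, div_eq_iff hc, ind_congr CharTwo.add_eq_zero] at h
  rw [mul_comm, ← h]
  exact sum_congr rfl fun a _ => by rw [mul_comm]

omit [Field F] [Algebra (ZMod 2) F] in
lemma fwl_sum (f1 f2 f3 : ZMod 2 → ℝ) (f4 : F → ℝ) :
    ∑ a : Qv F, f1 a.1.1 * (f2 a.1.2.1 * f3 a.1.2.2) * f4 a.2 =
      (∑ x, f1 x) * ((∑ x, f2 x) * ∑ x, f3 x) * ∑ x, f4 x := by
  simp only [Fintype.sum_prod_type, ← sum_mul, ← mul_sum]

lemma fwl_ind0 {A : Type} [Fintype A] (o : A) (f : A → ℝ) : ∑ a, ind (a = o) * f a = f o := by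
  rw [sum_eq_single o (fun b _ hb => by rw [ind_neg hb, zero_mul])
    (fun h => absurd (mem_univ o) h), ind_pos rfl, one_mul]

lemma fwl_site (u u' : Qv F) :
    ∑ a, fwlC a u * fwlC a u' = 8 * Fintype.card F * ind (u = u') := by
  simp only [fwlC_mul]
  rw [fwl_sum (fun x => sgn (x * (u.1.1 + u'.1.1))) (fun x => sgn (x * (u.1.2.1 + u'.1.2.1)))
    (fun x => sgn (x * (u.1.2.2 + u'.1.2.2))) (fun x => chi (x * (u.2 + u'.2))), fwl_sgn, fwl_sgn,
    fwl_sgn, fwl_chi]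
  simp only [Prod.ext_iff, ind_and]
  ring

lemma fwl_site0 (u u' : Qv F) :
    ∑ a : Qv F, ind (a.2 = 0) * (fwlC a u * fwlC a u') = 8 * ind (u.1 = u'.1) := by
  have h := fwl_sum (fun x => sgn (x * (u.1.1 + u'.1.1))) (fun x => sgn (x * (u.1.2.1 + u'.1.2.1)))
    (fun x => sgn (x * (u.1.2.2 + u'.1.2.2))) (fun x => ind (x = 0) * chi (x * (u.2 + u'.2)))
  rw [fwl_sgn, fwl_sgn, fwl_sgn, fwl_ind0, zero_mul, chi_zero] at h
  refine Eq.trans (sum_congr rfl fun a _ => ?_) (h.trans ?_)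
  · rw [fwlC_mul]
    ring
  · simp only [Prod.ext_iff, ind_and]
    ring

lemma fwl_site1 (u u' : Qv F) :
    ∑ a : Qv F, ind (a.2 = 0 ∧ a.1.1 = 0 ∧ a.1.2.1 = 0) * (fwlC a u * fwlC a u') =
      2 * ind (u.1.2.2 = u'.1.2.2) := by
  have h := fwl_sum (fun x => ind (x = 0) * sgn (x * (u.1.1 + u'.1.1)))
    (fun x => ind (x = 0) * sgn (x * (u.1.2.1 + u'.1.2.1)))
    (fun x => sgn (x * (u.1.2.2 + u'.1.2.2))) (fun x => ind (x = 0) * chi (x * (u.2 + u'.2)))
  rw [fwl_sgn, fwl_ind0, fwl_ind0, fwl_ind0, zero_mul, zero_mul, zero_mul, chi_zero, sgn_zero] at h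
  refine Eq.trans (sum_congr rfl fun a _ => ?_) (h.trans ?_)
  · rw [fwlC_mul, ind_and, ind_and]
    ring
  · ring

omit [Field F] [Algebra (ZMod 2) F] in
lemma fwl_card : (Fintype.card (Bool × Bool → Qv F) : ℝ) = (8 * Fintype.card F) ^ 4 := by
  simp

theorem sum_chQ (v v' : Bool × Bool → Qv F) :
    ∑ c, chQ c v * chQ c v' = Fintype.card (Bool × Bool → Qv F) * ind (v = v') := by
  have h := fwl_ker (fun _ => True) v v'
  simp only [implies_true, ind_pos trivial, one_mul, fwl_site] at h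
  rw [h, prod_mul_distrib, ← fwl_ind_forall, prod_const, fwl_card, card_univ,
    ind_congr funext_iff.symm]
  simp

omit [Fintype F] in
lemma fwl_comm (c v : Bool × Bool → Qv F) : chQ c v = chQ v c := by
  simp only [chQ, mul_comm]

omit [Fintype F] in
lemma fwl_zero (v : Bool × Bool → Qv F) : chQ 0 v = 1 := by
  simp [chQ, sgn_zero, chi_zero]

omit [Fintype F] in
lemma fwl_abs_chQ (c v : Bool × Bool → Qv F) : |chQ c v| = 1 := by
  simp only [chQ, abs_prod, abs_mul, abs_sgn, abs_chi, mul_one, prod_const_one]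

lemma fwl_orth (c c' : Bool × Bool → Qv F) : av (fun v => chQ c v * chQ c' v) = ind (c = c') := by
  have hc : (Fintype.card (Bool × Bool → Qv F) : ℝ) ≠ 0 := by exact_mod_cast Fintype.card_ne_zero
  simp only [fwl_comm c, fwl_comm c']
  rw [av, sum_chQ, mul_div_cancel_left₀ _ hc]

omit [Algebra (ZMod 2) F] in
lemma fwl_trunc (h : GP0 ρ k δ Tc θ) :
    av (fun P : Bool × Bool → Pt F p => Pr (fun y : Bool × Bool → Vo F p × Cr F p =>
      ∏ z, cP (k z.1) (P z) (y z))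
      (fun y => ¬ ∀ z, k z.1 (P z, (y z).1) (y z).2 ≤ Tc / Fintype.card (Cr F p))) ≤ 8 * δ := by
  have hp : ∀ j, IsProb (mP (k j)) := fun j => isProb_mP (h.ker j)
  refine (Ex_m4 k fun b => ind (¬ ∀ z : Bool × Bool,
    k z.1 (b z).1 (b z).2 ≤ Tc / Fintype.card (Cr F p))).ge.trans ?_
  refine (Ex_mono (g := fun b => ∑ z : Bool × Bool,
    ind (Tc / Fintype.card (Cr F p) < k z.1 (b z).1 (b z).2))
    (fun b => prod_nonneg fun z _ => (hp _).1 _) fun b => ?_).trans ?_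
  · by_cases hb : ∀ z : Bool × Bool, k z.1 (b z).1 (b z).2 ≤ Tc / Fintype.card (Cr F p)
    · rw [ind_neg (not_not.mpr hb)]
      exact sum_nonneg fun z _ => ind_nonneg _
    · obtain ⟨z, hz⟩ := not_forall.mp hb
      rw [ind_pos hb, ← ind_pos (not_le.mp hz)]
      exact single_le_sum (f := fun z : Bool × Bool =>
        ind (Tc / Fintype.card (Cr F p) < k z.1 (b z).1 (b z).2)) (fun z _ => ind_nonneg _)
        (mem_univ z)
  · rw [Ex_sum]
    refine (sum_le_card_nsmul _ _ (2 * δ) fun z _ => ?_).trans (le_of_eq ?_)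
    · refine (Ex_m4_eq k z _).le.trans ?_
      simp only [mk4_self, Ex_const (hp _)]
      exact h.trunc z.1
    · simp
      ring

theorem fw_close (hp : p.Ok) (h : GP0 ρ k δ Tc θ) (hs : Sup ρ) (hS : Small F p e η δ β θ)
    {l S' : ℕ} (hl : 0 < l) (hS' : 2 * S' ≤ p.S) {η1 : ℝ} (hη1 : 0 ≤ η1)
    (hb : (Fintype.card F : ℝ) ^ l / (Fintype.card F : ℝ) ^ S' +
      Tc / (Fintype.card F : ℝ) ^ (S' * l) ≤ η1 ^ l)
    (hη1' : (8 * (Fintype.card F : ℝ)) ^ 8 * η1 ≤ δ ^ 4) (ω₀ : Om F p) :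
    av (fun x => |Fw k (Mt ω₀) x - fw k (Mt ω₀) x|) ≤ e := by
  have hη0 : 0 < η := by
    have := hS.he0
    rw [hS.hη]
    positivity
  have hηe : η ≤ e / 512 := by
    have h1 := hS.he0
    have h2 : e ^ 4 ≤ e := pow_le_of_le_one h1.le (by linarith [hS.he]) (by norm_num)
    rw [hS.hη, div_pow]
    linarith
  have hη2 : η ≤ 1 := by linarith [hS.he]
  have hδ : δ ≤ η / 8 := by
    have := pow_le_of_le_one hη0.le hη2 two_ne_zero
    linarith [hS.hδ]
  have hsq : 2 * η = (e ^ 2 / 16) ^ 2 := by rw [hS.hη]; ring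
  have hqS : 2 / (Fintype.card F : ℝ) ^ p.S ≤ 2 * η := by
    obtain ⟨ω, -, hω⟩ := exists_ne_zero_of_sum_ne_zero (h.prob.2 ▸ one_ne_zero)
    obtain ⟨a, -⟩ := ((hs.reg ω hω).typ false).top
    have h1 : (1 : ℝ) ≤ Fintype.card F := by exact_mod_cast Fintype.card_pos
    have h2 : (Fintype.card F : ℝ) ≤ (Fintype.card F : ℝ) ^ p.S := le_self_pow₀ h1 a.pos.ne'
    have h3 := hS.hq
    have h4 : η ^ 5 ≤ η := pow_le_of_le_one hη0.le hη2 (by norm_num)
    have h5 : η ^ 5 * (Fintype.card F : ℝ) ≤ η * (Fintype.card F : ℝ) ^ p.S := by gcongr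
    have h6 := Nat.cast_nonneg (α := ℝ) p.J
    rw [div_le_iff₀ (by positivity)]
    linarith
  have hμ : ∀ (P : Bool × Bool → Pt F p) (y : Bool × Bool → Vo F p × Cr F p),
      0 ≤ ∏ z, cP (k z.1) (P z) (y z) := fun P y =>
    prod_nonneg fun z _ => (isProb_cP (h.ker _) _).1 _
  have key := fwl_abs (μ := fun (P : Bool × Bool → Pt F p) (y : Bool × Bool → Vo F p × Cr F p) =>
      ∏ z, cP (k z.1) (P z) (y z))
    (s := fun P y => sv (fun z => ((P z, (y z).1), (y z).2))) (ch := chQ (F := F)) hμ fwl_abs_chQ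
    fwl_orth fwl_zero (A0 := fun c => ∀ z, (c z).2 = 0)
    (A1 := fun c => ∀ z, (c z).2 = 0 ∧ (c z).1.1 = 0 ∧ (c z).1.2.1 = 0) (fun c hc z => (hc z).1)
    (fun _ => rfl) (fun u v => by
      simp only [one_mul, sum_chQ]
      exact mul_nonneg (Nat.cast_nonneg _) (ind_nonneg _))
    (fun u v => by
      rw [fwl_ker (fun a => a.2 = 0)]
      exact prod_nonneg fun z _ => by
        rw [fwl_site0]
        exact mul_nonneg (by norm_num) (ind_nonneg _))
    (fun P y => Z4 (Mt ω₀) (fun z => ((P z, (y z).1), (y z).2)))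
    (fun P y => ∀ z, k z.1 (P z, (y z).1) (y z).2 ≤ Tc / Fintype.card (Cr F p)) (δ := δ)
    (a := e ^ 2 / 16) hS.hδ0.le (fwl_trunc h) (fun P c hc => by
      obtain ⟨z, hz⟩ := not_forall.mp hc
      have h1 := char_I h.ker hl hS' hη1 hb (Mt ω₀) c hz P
      refine le_of_sq_le_sq ?_ (sq_nonneg _)
      rw [mul_pow, fwl_card, ← pow_mul, ← pow_mul, ← pow_mul]
      exact (mul_le_mul_of_nonneg_left h1 (by positivity)).trans hη1')
    (by positivity) (fun c hc hc1 => by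
      by_cases h1 : ∀ z, (c z).1.2.1 = 0
      · obtain ⟨z, hz⟩ := not_forall.mp hc1
        have h2 : (c z).1.1 = 1 := (zmod2_cases _).resolve_left fun h3 => hz ⟨hc z, h3, h1 z⟩
        refine (char_III hp h hs hS ω₀ c hc h1 h2).trans (Real.sqrt_le_iff.mpr ⟨by positivity, ?_⟩)
        linarith
      · obtain ⟨z, hz⟩ := not_forall.mp h1
        refine av_le_const (by positivity) fun P => abs_le_of_sq_le_sq ?_ (by positivity)
        exact (char_II h.ker (Mt ω₀) c hc ((zmod2_cases _).resolve_left hz) P).trans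
          (hqS.trans hsq.le))
  have hn : ∑ c : Bool × Bool → Qv F, ind (∀ z, (c z).2 = 0) = 4096 := by
    have h1 := fwl_ker (F := F) (fun a => a.2 = 0) 0 0
    simp only [fwl_site0, fwl_comm _ 0, fwl_zero, ind_pos trivial, mul_one] at h1
    rw [h1]
    norm_num
  rw [hn] at key
  refine le_trans (le_of_eq (av_congr fun x => ?_)) (key.trans ?_)
  · congr 2
    · unfold Fw c4 fwlT
      rw [← Ex_const_mul]
      refine Ex_congr fun y => ?_
      simp only [one_mul, sum_chQ, ind_and]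
      ring
    · unfold fw c4 fwlT
      rw [← Ex_const_mul]
      refine Ex_congr fun y => ?_
      rw [fwl_ker (fun a => a.2 = 0 ∧ a.1.1 = 0 ∧ a.1.2.1 = 0)]
      simp only [fwl_site1]
      rw [prod_mul_distrib, ← fwl_ind_forall, ind_and, prod_const]
      norm_num
      ring
  · have h1 := hS.he
    have h2 := hS.he0
    nlinarith

end

end Vale.Agent.P060
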