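import Vale.Agent.P060.Defs

/-! P060: basic facts on the test functions; the graph is triangle-free. -/

namespace Vale.Agent.P060

open Finset Polynomial Vale.Agent.P056.Sharp

noncomputable section

open scoped Classical

variable {F : Type} [Field F] {p : Par}

lemma GGs_mono {D D' : ℕ} (h : D ≤ D') : GGs F p D ≤ GGs F p D' := by
  refine Submodule.span_mono ?_
  rintro G ⟨m, f, h1, h2, rfl⟩
  exact ⟨m, f, h1, h2.trans h, rfl⟩

lemma GGL_gen_mem {D : ℕ} (m : Multiset (Fin p.N)) (f : F[X]) (h1 : Multiset.card m ≤ p.j)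
    (h2 : f.natDegree + Multiset.card m * p.k ≤ D) :
    (fun L : Cv F p => f * (m.map fun l => (L l : F[X])).prod) ∈ GGs F p D :=
  Submodule.subset_span ⟨m, f, h1, h2, rfl⟩

lemma const_mem {D : ℕ} {f : F[X]} (hf : f.natDegree ≤ D) :
    (fun _ : Cv F p => f) ∈ GGs F p D := by
  simpa using GGL_gen_mem (p := p) (D := D) 0 f (by simp) (by simpa using hf)

lemma mul_mem_GGs {D d : ℕ} {G : Cv F p → F[X]} (hG : G ∈ GGs F p D) {f : F[X]}
    (hf : f.natDegree ≤ d) : (fun L => f * G L) ∈ GGs F p (D + d) := by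
  induction hG using Submodule.span_induction with
  | mem G h =>
    obtain ⟨m, g, h1, h2, rfl⟩ := h
    have h3 : (f * g).natDegree ≤ f.natDegree + g.natDegree := natDegree_mul_le
    simpa only [mul_assoc] using GGL_gen_mem (D := D + d) m (f * g) h1 (by omega)
  | zero => simp only [Pi.zero_apply, mul_zero]; exact (GGs F p (D + d)).zero_mem
  | add G G' _ _ h h' =>
    have e : (fun L => f * (G + G') L) = (fun L => f * G L) + fun L => f * G' L := by
      funext L; simp [mul_add]
    rw [e]; exact add_mem h h'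
  | smul c G _ h =>
    have e : (fun L => f * (c • G) L) = c • fun L => f * G L := by
      funext L; simp
    rw [e]; exact Submodule.smul_mem _ c h

/-- test functions vanishing on given curves. -/
lemma test_mem {ι : Type} [Fintype ι] (hι : Fintype.card ι ≤ p.j) (e : ι → Cv F p)
    (l : ι → Fin p.N) {D : ℕ} {f : F[X]} (hf : f.natDegree + Fintype.card ι * p.k ≤ D) :
    (fun L : Cv F p => f * ∏ a, ((L (l a) : F[X]) - e a (l a))) ∈ GGs F p D := by
  have h : (fun L : Cv F p => f * ∏ a, ((L (l a) : F[X]) - e a (l a))) =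
      ∑ T ∈ (univ : Finset ι).powerset, fun L : Cv F p =>
        (f * ∏ a ∈ univ \ T, (-(e a (l a) : F[X]))) *
          ((T.val.map l).map fun l => (L l : F[X])).prod := by
    funext L
    simp only [sub_eq_add_neg, prod_add, Finset.sum_apply, mul_sum, Multiset.map_map]
    refine sum_congr rfl fun T _ => ?_
    rw [show (T.val.map ((fun l => (L l : F[X])) ∘ l)).prod = ∏ a ∈ T, (L (l a) : F[X]) from rfl]
    ring
  rw [h]
  refine Submodule.sum_mem _ fun T _ => GGL_gen_mem _ _ ?_ ?_
  · rw [Multiset.card_map]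
    exact (card_le_univ T).trans hι
  · rw [Multiset.card_map]
    have h1 : (∏ a ∈ univ \ T, (-(e a (l a) : F[X]))).natDegree ≤ (univ \ T).card * p.k := by
      refine (natDegree_prod_le _ _).trans ?_
      refine (sum_le_card_nsmul _ _ p.k fun a _ => ?_).trans (by simp)
      rw [natDegree_neg]; exact Pol.le _
    have h2 : (univ \ T).card + T.card = Fintype.card ι := by
      rw [card_sdiff_add_card_eq_card (subset_univ T), card_univ]
    have h3 := natDegree_mul_le (p := f) (q := ∏ a ∈ univ \ T, (-(e a (l a) : F[X])))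
    have h4 : T.val.card = T.card := rfl
    rw [← h2, add_mul] at hf
    rw [h4]
    omega

lemma eval_congr {D : ℕ} {G : Cv F p → F[X]} (hG : G ∈ GGs F p D) {L L' : Cv F p} {s : F}
    (h : ptv L s = ptv L' s) : (G L).eval s = (G L').eval s := by
  induction hG using Submodule.span_induction with
  | mem G hG =>
    obtain ⟨m, g, -, -, rfl⟩ := hG
    simp only [eval_mul, eval_multiset_prod, Multiset.map_map]
    congr 2
    exact Multiset.map_congr rfl fun l _ => congrFun h l
  | zero => simp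
  | add G G' _ _ h h' => simp [h, h']
  | smul c G _ h => simp [h]

lemma vals_congr (γ : Gh F p) {L L' : Cv F p} {s : F} (h : ptv L s = ptv L' s) :
    vals γ L s = vals γ L' s :=
  funext fun e => eval_congr (γ e).2 h

lemma natDegree_ph (ψ : Mx F p) (o : Oi p) : (ph ψ o).natDegree ≤ p.J1 := by
  cases o with
  | none => simp [ph]
  | some a => exact Pol.le (ψ a)

lemma cg_dvd (L L' : Cv F p) (l : Fin p.N) : cg L L' ∣ (L l : F[X]) - L' l :=
  Finset.gcd_dvd (mem_univ l)

lemma GGL_exists_ne {L L' : Cv F p} (h : L ≠ L') : ∃ l, (L l : F[X]) - L' l ≠ 0 := by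
  obtain ⟨l, hl⟩ := Function.ne_iff.1 h
  refine ⟨l, fun h0 => hl ?_⟩
  rw [sub_eq_zero] at h0
  exact Subtype.ext h0

lemma cg_monic {L L' : Cv F p} (h : L ≠ L') : (cg L L').Monic := by
  obtain ⟨l, hl⟩ := GGL_exists_ne h
  have h0 : cg L L' ≠ 0 := ne_zero_of_dvd_ne_zero hl (cg_dvd L L' l)
  have h1 : normalize (cg L L') = cg L L' := Finset.normalize_gcd
  rw [← h1]
  exact monic_normalize h0

lemma cg_comm (L L' : Cv F p) : cg L L' = cg L' L := by
  refine dvd_antisymm_of_normalize_eq Finset.normalize_gcd Finset.normalize_gcd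
    (Finset.dvd_gcd fun l _ => ?_) (Finset.dvd_gcd fun l _ => ?_)
  · exact dvd_sub_comm.1 (cg_dvd L L' l)
  · exact dvd_sub_comm.1 (cg_dvd L' L l)

lemma ce_comm (L L' : Cv F p) : ce L L' = ce L' L := by
  unfold ce
  congr 2
  funext l
  exact natDegree_sub

lemma okc.symm {L L' : Cv F p} (h : okc L L') : okc L' L :=
  ⟨h.1.symm, by rw [cg_comm, ce_comm]; exact h.2⟩

lemma ce_le (L L' : Cv F p) : ce L L' ≤ p.k := Nat.sub_le _ _

lemma GGL_sup_le (L L' : Cv F p) :
    univ.sup (fun l => ((L l : F[X]) - L' l).natDegree) ≤ p.k :=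
  Finset.sup_le fun l _ => (natDegree_sub_le _ _).trans (max_le (Pol.le _) (Pol.le _))

lemma natDegree_sub_le_ce (L L' : Cv F p) (l : Fin p.N) :
    ((L l : F[X]) - L' l).natDegree ≤ p.k - ce L L' := by
  have h1 := GGL_sup_le L L'
  have h2 := Finset.le_sup (f := fun l => ((L l : F[X]) - L' l).natDegree) (mem_univ l)
  unfold ce
  omega

lemma natDegree_cg_le {L L' : Cv F p} (h : L ≠ L') : (cg L L').natDegree + ce L L' ≤ p.k := by
  obtain ⟨l, hl⟩ := GGL_exists_ne h
  have h1 := natDegree_le_of_dvd (cg_dvd L L' l) hl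
  have h2 := natDegree_sub_le_ce L L' l
  have h3 := ce_le L L'
  omega

lemma eval_cg_eq_zero_iff (L L' : Cv F p) (s : F) :
    (cg L L').eval s = 0 ↔ ptv L s = ptv L' s := by
  constructor
  · intro h
    funext l
    have := eval_eq_zero_of_dvd_of_eval_eq_zero (cg_dvd L L' l) h
    rw [eval_sub, sub_eq_zero] at this
    exact this
  · intro h
    refine dvd_iff_isRoot.1 (Finset.dvd_gcd fun l _ => dvd_iff_isRoot.2 ?_)
    rw [IsRoot.def, eval_sub, sub_eq_zero]
    exact congrFun h l

lemma GGL_natDegree_mon (m : Multiset (Fin p.N)) (L : Cv F p) :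
    (m.map fun l => (L l : F[X])).prod.natDegree ≤ Multiset.card m * p.k := by
  induction m using Multiset.induction_on with
  | empty => simp
  | cons a m ih =>
    rw [Multiset.map_cons, Multiset.prod_cons, Multiset.card_cons, add_mul, one_mul]
    exact natDegree_mul_le.trans ((add_le_add (Pol.le _) ih).trans (add_comm _ _).le)

lemma GGL_mon_sub {D : ℕ} (L L' : Cv F p) (m : Multiset (Fin p.N)) (f : F[X])
    (h : f.natDegree + Multiset.card m * p.k ≤ D) :
    cg L L' ∣ f * (m.map fun l => (L l : F[X])).prod - f * (m.map fun l => (L' l : F[X])).prod ∧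
    (f * (m.map fun l => (L l : F[X])).prod -
      f * (m.map fun l => (L' l : F[X])).prod).natDegree ≤ D - ce L L' := by
  induction m using Multiset.induction_on generalizing f with
  | empty => simp
  | cons a m ih =>
    rw [Multiset.card_cons, add_mul, one_mul] at h
    simp only [Multiset.map_cons, Multiset.prod_cons]
    have h1 : (f * L a).natDegree ≤ f.natDegree + p.k :=
      natDegree_mul_le.trans (add_le_add le_rfl (Pol.le _))
    obtain ⟨i1, i2⟩ := ih (f * L a) (by omega)
    have e : f * ((L a : F[X]) * (m.map fun l => (L l : F[X])).prod) -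
        f * ((L' a : F[X]) * (m.map fun l => (L' l : F[X])).prod) =
        (f * L a * (m.map fun l => (L l : F[X])).prod -
          f * L a * (m.map fun l => (L' l : F[X])).prod) +
        f * ((L a : F[X]) - L' a) * (m.map fun l => (L' l : F[X])).prod := by ring
    rw [e]
    refine ⟨dvd_add i1 (((cg_dvd L L' a).mul_left _).mul_right _), ?_⟩
    refine (natDegree_add_le _ _).trans (max_le i2 ?_)
    have h2 := natDegree_mul_le (p := f * ((L a : F[X]) - (L' a : F[X])))
      (q := (m.map fun l => (L' l : F[X])).prod)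
    have h3 := natDegree_mul_le (p := f) (q := (L a : F[X]) - (L' a : F[X]))
    have h4 := natDegree_sub_le_ce L L' a
    have h5 := GGL_natDegree_mon m L'
    have h6 := ce_le L L'
    omega

/-- (G3) -/
lemma GGs_sub {D : ℕ} {G : Cv F p → F[X]} (hG : G ∈ GGs F p D) (L L' : Cv F p) :
    cg L L' ∣ G L - G L' ∧ (G L - G L').natDegree ≤ D - ce L L' := by
  induction hG using Submodule.span_induction with
  | mem G hG =>
    obtain ⟨m, g, -, h2, rfl⟩ := hG
    exact GGL_mon_sub L L' m g h2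
  | zero => simp
  | add G G' _ _ h h' =>
    have e : (G + G') L - (G + G') L' = (G L - G L') + (G' L - G' L') := by
      simp only [Pi.add_apply]; ring
    rw [e]
    exact ⟨dvd_add h.1 h'.1, (natDegree_add_le _ _).trans (max_le h.2 h'.2)⟩
  | smul c G _ h =>
    have e : (c • G) L - (c • G) L' = c • (G L - G L') := by
      simp only [Pi.smul_apply, smul_sub]
    rw [e]
    exact ⟨by rw [smul_eq_C_mul]; exact h.1.mul_left _, (natDegree_smul_le _ _).trans h.2⟩

/-- interpolation. -/
lemma exists_pol_eval {ι : Type} [Fintype ι] {n : ℕ} (hι : Fintype.card ι ≤ n + 1) {s : ι → F}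
    (hs : Function.Injective s) (v : ι → F) : ∃ f : Pol F n, ∀ a, (f : F[X]).eval (s a) = v a := by
  refine ⟨⟨Lagrange.interpolate univ s v, mem_degreeLT.2 ?_⟩, fun a => ?_⟩
  · refine (Lagrange.degree_interpolate_lt v hs.injOn).trans_le ?_
    rw [card_univ]; exact_mod_cast hι
  · exact Lagrange.eval_interpolate_at_node v hs.injOn (mem_univ a)

lemma natDegree_w4 (τ : Bool × Bool → F) : (w4 τ).natDegree = 4 := by
  rw [w4, natDegree_prod_of_monic _ _ fun z _ => monic_X_sub_C _]
  simp

lemma monic_w4 (τ : Bool × Bool → F) : (w4 τ).Monic :=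
  monic_prod_of_monic _ _ fun _ _ => monic_X_sub_C _

lemma w4_tp (τ : Bool × Bool → F) : w4 (tp τ) = w4 τ :=
  (Equiv.prodComm Bool Bool).prod_comp fun z => X - C (τ z)

/-- multiples of `w4 τ ^ j`, as a submodule of all functions. -/
def GGL_K (p : Par) (τ : Bool × Bool → F) : Submodule F (Cv F p → F[X]) where
  carrier := {G | ∃ G' ∈ GGs F p (p.J - 4 * p.j), G = fun L => w4 τ ^ p.j * G' L}
  add_mem' := by
    rintro a b ⟨G, hG, h⟩ ⟨G', hG', h'⟩
    exact ⟨G + G', add_mem hG hG', by funext L; simp [h, h', mul_add]⟩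
  zero_mem' := ⟨0, zero_mem _, by funext L; simp⟩
  smul_mem' := by
    rintro c a ⟨G, hG, h⟩
    exact ⟨c • G, Submodule.smul_mem _ c hG, by funext L; simp [h]⟩

lemma GGL_natDegree_pow (τ : Bool × Bool → F) (j : ℕ) : (w4 τ ^ j).natDegree = 4 * j := by
  rw [(monic_w4 τ).natDegree_pow, natDegree_w4, mul_comm]

lemma GGL_K_le (h : 4 * p.j ≤ p.J) (τ : Bool × Bool → F) : GGL_K p τ ≤ GGs F p p.J := by
  rintro G ⟨G', hG, rfl⟩
  have := mul_mem_GGs hG (GGL_natDegree_pow τ p.j).le
  rwa [Nat.sub_add_cancel h] at this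

lemma GGL_K_gen (τ : Bool × Bool → F) (m : Multiset (Fin p.N)) {f : F[X]}
    (h1 : Multiset.card m ≤ p.j) (h2 : f.natDegree + Multiset.card m * p.k ≤ p.J)
    (h3 : w4 τ ^ p.j ∣ f) :
    (fun L : Cv F p => f * (m.map fun l => (L l : F[X])).prod) ∈ GGL_K p τ := by
  obtain ⟨u, rfl⟩ := h3
  by_cases hu : u = 0
  · subst hu
    simp only [mul_zero, zero_mul]
    exact (GGL_K p τ).zero_mem
  · rw [((monic_w4 τ).pow _).natDegree_mul' hu, GGL_natDegree_pow] at h2
    exact ⟨_, GGL_gen_mem m u h1 (by omega), by funext L; rw [mul_assoc]⟩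

lemma GGL_split {n : ℕ} (hn : 4 * p.j * n ≤ p.k) (τ : Fin n × (Bool × Bool) → F)
    (hτ : Function.Injective τ) (g : Fin n) {G : Cv F p → F[X]} (hG : G ∈ GGs F p p.J) :
    ∃ B : Cv F p → F[X], G - B ∈ GGL_K p (fun a => τ (g, a)) ∧
      ∀ g', g' ≠ g → B ∈ GGL_K p (fun a => τ (g', a)) := by
  induction hG using Submodule.span_induction with
  | mem G hG =>
    obtain ⟨m, f, h1, h2, rfl⟩ := hG
    set a := w4 (fun a => τ (g, a)) ^ p.j with ha
    set W := ∏ g' ∈ univ.erase g, w4 (fun a => τ (g', a)) ^ p.j with hW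
    have ham : a.Monic := (monic_w4 _).pow _
    have hc : IsCoprime a W := by
      refine IsCoprime.prod_right fun g' hg' => IsCoprime.pow ?_
      refine IsCoprime.prod_left fun z _ => IsCoprime.prod_right fun z' _ => ?_
      refine isCoprime_X_sub_C_of_isUnit_sub (sub_ne_zero.2 fun h => ?_).isUnit
      exact (mem_erase.1 hg').1 (congrArg Prod.fst (hτ h)).symm
    obtain ⟨α, β, hαβ⟩ := hc
    set v := (f * β) %ₘ a with hv
    have hWd : W.natDegree ≤ (n - 1) * (4 * p.j) := by
      refine (natDegree_prod_le _ _).trans ?_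
      simp only [GGL_natDegree_pow]
      simp
    have hvd : v.natDegree ≤ 4 * p.j := by
      have := natDegree_modByMonic_le (f * β) ham
      rwa [ha, GGL_natDegree_pow] at this
    have hn1 : 1 ≤ n := g.pos
    have hWv : (W * v).natDegree ≤ p.k := by
      have h3 := natDegree_mul_le (p := W) (q := v)
      have h4 : (n - 1) * (4 * p.j) + 4 * p.j = 4 * p.j * n := by
        obtain ⟨n', rfl⟩ := Nat.exists_eq_add_of_le' hn1
        simp only [Nat.add_sub_cancel]; ring
      omega
    have hJ : p.k + Multiset.card m * p.k ≤ p.J := by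
      have := Nat.mul_le_mul_right p.k h1
      unfold Par.J Par.j at *
      nlinarith
    refine ⟨fun L => (W * v) * (m.map fun l => (L l : F[X])).prod, ?_, fun g' hg' => ?_⟩
    · have e : ((fun L : Cv F p => f * (m.map fun l => (L l : F[X])).prod) -
          fun L : Cv F p => (W * v) * (m.map fun l => (L l : F[X])).prod) =
          fun L : Cv F p => (f - W * v) * (m.map fun l => (L l : F[X])).prod := by
        funext L; simp only [Pi.sub_apply]; ring
      rw [e]
      refine GGL_K_gen _ m h1 ?_ ⟨f * α + W * ((f * β) /ₘ a), ?_⟩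
      · have := natDegree_sub_le f (W * v)
        rcases le_max_iff.1 this with h | h <;> omega
      · have h5 := modByMonic_add_div (f * β) a
        rw [← ha]
        linear_combination (-f) * hαβ - W * h5
    · refine GGL_K_gen _ m h1 (by omega) (Dvd.dvd.mul_right ?_ _)
      exact dvd_prod_of_mem (fun g' => w4 (fun a => τ (g', a)) ^ p.j)
        (mem_erase.2 ⟨hg', mem_univ _⟩)
  | zero => exact ⟨0, by simp, fun _ _ => zero_mem _⟩
  | add G G' _ _ h h' =>
    obtain ⟨B, h1, h2⟩ := h
    obtain ⟨B', h1', h2'⟩ := h'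
    refine ⟨B + B', ?_, fun g' hg' => add_mem (h2 g' hg') (h2' g' hg')⟩
    rw [show G + G' - (B + B') = (G - B) + (G' - B') by abel]
    exact add_mem h1 h1'
  | smul c G _ h =>
    obtain ⟨B, h1, h2⟩ := h
    refine ⟨c • B, ?_, fun g' hg' => Submodule.smul_mem _ c (h2 g' hg')⟩
    rw [← smul_sub]
    exact Submodule.smul_mem _ c h1

/-- jets at disjoint groups of positions are independent. -/
lemma Kg_crt {n : ℕ} (hn : 4 * p.j * n ≤ p.k) (τ : Fin n × (Bool × Bool) → F)
    (hτ : Function.Injective τ) (v : Fin n → GG F p) :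
    ∃ x : GG F p, ∀ g, x - v g ∈ Kg p (fun a => τ (g, a)) := by
  choose B h1 h2 using fun g => GGL_split hn τ hτ g (v g).2
  have hB : ∀ g, B g ∈ GGs F p p.J := fun g => by
    have hJ : 4 * p.j ≤ p.J := by
      have h3 : 4 * p.j * 1 ≤ 4 * p.j * n := Nat.mul_le_mul_left _ g.pos
      have h4 : 1 * p.k ≤ (2 * p.ns + 1) * p.k := Nat.mul_le_mul_right _ (by omega)
      unfold Par.J
      omega
    have := sub_mem (v g).2 (GGL_K_le hJ _ (h1 g))
    rwa [sub_sub_cancel] at this
  refine ⟨⟨∑ g, B g, Submodule.sum_mem _ fun g _ => hB g⟩, fun g => ?_⟩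
  have e : (∑ g, B g) - (v g).1 = (∑ g' ∈ univ.erase g, B g') - ((v g).1 - B g) := by
    rw [← add_sum_erase univ B (mem_univ g)]; abel
  have : (∑ g, B g) - (v g).1 ∈ GGL_K p (fun a => τ (g, a)) := by
    rw [e]
    exact sub_mem (Submodule.sum_mem _ fun g' hg' => h2 g' g (mem_erase.1 hg').1.symm) (h1 g)
  exact this

lemma GGL_sum_TU (x y : Vx F p) (u : Oi p → F) (I I' : Finset F) :
    ∑ s ∈ I, ∑ s' ∈ I', TU x y u s s' =
      bil (fun e => eI I' ((x.2.2 e).1 y.1)) u (uA (eI I) x.2.1) := by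
  have e1 : (fun e => eI I' ((x.2.2 e).1 y.1)) = ∑ s' ∈ I', vals x.2.2 y.1 s' := by
    funext e; simp [eI_apply, Finset.sum_apply, vals]
  have e2 : uA (eI I) x.2.1 = ∑ s ∈ I, hat (mv x.2.1 s) := by
    funext o; simp [uA, eI_apply, Finset.sum_apply, eval_ph]
  rw [e1, e2, bil_sum_right]
  exact sum_congr rfl fun s _ => (bil_sum _ _ _ _).symm

variable [Fintype F] [Algebra (ZMod 2) F]

lemma Phi_comm (x y : Vx F p) (A : F[X] →ₗ[F] F) (s s' : F) : Phi x y A s s' = Phi y x A s' s := by
  unfold Phi; rw [add_comm]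

lemma Phi_eq_PhiB (ω : Om F p) (A : F[X] →ₗ[F] F) (i : Bool) (s s' : F) :
    Phi (ω i) (ω (!i)) A s s' =
      PhiB (fun i => uA A (mx ω i)) i (blk ω i s) (blk ω (!i) s') := by
  cases i <;> rfl

theorem Adj.symm {x y : Vx F p} (h : Adj x y) : Adj y x := by
  obtain ⟨I, h1, h2, h3⟩ := h
  exact ⟨I, h1, fun G => (h2 G).symm, fun s s' => by rw [Phi_comm]; exact h3 s' s⟩

theorem Adj.irrefl (x : Vx F p) : ¬ Adj x x := by
  rintro ⟨I, -, -, h3⟩
  have := charP_two (F := F)
  have h := h3 0 0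
  rw [Phi, CharTwo.add_self_eq_zero, tr_zero] at h
  exact absurd h (by decide)

lemma GGL_sum_Phi {x y : Vx F p} {A : F[X] →ₗ[F] F} (h : ∀ s s', tr (Phi x y A s s') = 1)
    {I I' : Finset F} (hI : Odd I.card) (hI' : Odd I'.card) :
    tr (bil (fun e => eI I' ((x.2.2 e).1 y.1)) (uA A x.2.1) (uA (eI I) x.2.1)) +
      tr (bil (fun e => eI I ((y.2.2 e).1 x.1)) (uA A y.2.1) (uA (eI I') y.2.1)) = 1 := by
  rw [← GGL_sum_TU, ← GGL_sum_TU, sum_comm (s := I') (t := I), ← tr_add, ← sum_add_distrib]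
  simp only [← sum_add_distrib, tr_sum]
  simp only [Phi] at h
  simp only [h, sum_const, nsmul_eq_mul, mul_one]
  rw [(ZMod.natCast_eq_one_iff_odd).2 hI, (ZMod.natCast_eq_one_iff_odd).2 hI', mul_one]

theorem Adj.no_triangle {x y z : Vx F p} (h1 : Adj x y) (h2 : Adj x z) (h3 : Adj y z) : False := by
  obtain ⟨I1, a1, b1, c1⟩ := h1
  obtain ⟨I2, a2, b2, c2⟩ := h2
  obtain ⟨I3, a3, b3, c3⟩ := h3
  have e1 := GGL_sum_Phi c1 a2 a3
  have e2 := GGL_sum_Phi c2 a1 a3
  have e3 := GGL_sum_Phi c3 a1 a2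
  simp only [b3 _, b2 _] at e1
  simp only [b1 _] at e2
  rw [bil_comm _ (uA (eI I2) x.2.1)] at e2
  rw [bil_comm _ (uA (eI I3) y.2.1), bil_comm _ (uA (eI I3) z.2.1)] at e3
  have key : ∀ a b c : ZMod 2, a + b = 1 → a + c = 1 → b + c = 1 → False := by decide
  exact key _ _ _ e1 e2 e3

/-- a shared point with constant trace gives an edge. -/
theorem adj_of_point {x y : Vx F p} {t : F} (h : ptv x.1 t = ptv y.1 t)
    (h2 : ∀ s s', tr (TU x y (hat (mv x.2.1 t)) s s' + TU y x (hat (mv y.2.1 t)) s' s) = 1) :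
    Adj x y := by
  have e : eI ({t} : Finset F) = leval t := sum_singleton _ _
  refine ⟨{t}, by simp, fun G => ?_, fun s s' => ?_⟩
  · rw [e, leval_apply, leval_apply]
    simpa using eval_congr G.2 h
  · rw [e, Phi, uA_leval, uA_leval]
    exact h2 s s'

lemma Afun_apply (ψ : Mx F p) (t : F) (x : F × F → ZMod 2) (e : Ei p) (f : F[X]) :
    Afun ψ t x e f = cof e (hat (mv ψ t)) (fun o => BxL x (ph ψ o) f) := by
  rw [cof, bil_eq_sum_right, Afun, LinearMap.sum_apply]
  rfl

lemma BxL_apply (x : F × F → ZMod 2) (f g : F[X]) :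
    BxL x f g = ∑ u : F × F, algebraMap (ZMod 2) F (x u) * f.eval u.1 * g.eval u.2 := by
  simp [BxL, LinearMap.sum_apply, leval_apply]

/-- the phase is linear in the test functions. -/
theorem phs_eq (ω ω' : Om F p) (τ : Bool × Bool → F) (ξ : Xi F) :
    phs ω ω' τ ξ = ∑ i, ∑ e, Th (mx ω) (cv ω') τ ξ i e (gs ω i e).1 := by
  rw [phs, Fintype.sum_prod_type]
  refine sum_congr rfl fun i _ => ?_
  simp only [Th]
  rw [sum_comm (s := univ (α := Ei p))]
  refine sum_congr rfl fun k _ => ?_
  have e : ∀ g : F[X], (fun o => BxL (ξ (i, k)) (ph (mx ω i) o) g) =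
      ∑ u : F × F, (algebraMap (ZMod 2) F (ξ (i, k) u) * g.eval u.2) • hat (mv (mx ω i) u.1) := by
    intro g
    funext o
    rw [BxL_apply, Finset.sum_apply]
    exact sum_congr rfl fun u _ => by rw [eval_ph, Pi.smul_apply, smul_eq_mul]; ring
  simp only [Afun_apply, e, cof, bil_sum_right, bil_smul_right]
  rw [sum_comm (s := univ (α := Ei p))]
  refine sum_congr rfl fun u _ => ?_
  rw [TU, bil_eq_sum_cof, mul_sum]
  refine sum_congr rfl fun e' _ => ?_
  rw [cof, mul_assoc]
  rfl

lemma BxL_swap (x : F × F → ZMod 2) (f g : F[X]) :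
    BxL (fun u => x u.swap) f g = BxL x g f := by
  rw [BxL_apply, BxL_apply, ← (Equiv.prodComm F F).sum_comp]
  exact sum_congr rfl fun u _ => by simp; ring

end

end Vale.Agent.P060
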