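import Vale.Agent.P060.ModelU
import Vale.Agent.P060.MTools

/-! P060: the model lemma. -/

namespace Vale.Agent.P060

open Finset Vale.Agent.P056.Sharp

noncomputable section

open scoped Classical

section

variable {Ω O C : Type} [Fintype Ω] [Fintype O] [Fintype C] {ρ : Ω → ℝ}

/-- the conditional law of the second coordinate given the first. -/
def Model_ck (ρ : Ω → ℝ) (Z : Ω → O × C) (o : O) (c : C) : ℝ :=
  if Pr ρ (fun ω => (Z ω).1 = o) = 0 then 1 / Fintype.card C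
  else Pr ρ (fun ω => Z ω = (o, c)) / Pr ρ (fun ω => (Z ω).1 = o)

omit [Fintype O] in
lemma Model_ck_ker [Nonempty C] (hρ : IsProb ρ) (Z : Ω → O × C) : IsKer (Model_ck ρ Z) := by
  intro o
  unfold Model_ck
  by_cases h : Pr ρ (fun ω => (Z ω).1 = o) = 0
  · simp only [if_pos h]
    exact isProb_unif
  · simp only [if_neg h]
    refine ⟨fun c => div_nonneg (Pr_nonneg hρ.1 _) (Pr_nonneg hρ.1 _), ?_⟩
    rw [← sum_div, div_eq_one_iff_eq h,
      ← Ent_sum_Pr (fun ω => (Z ω).2) univ (fun _ _ => mem_univ _) (fun ω => (Z ω).1 = o)]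
    exact sum_congr rfl fun c _ => Ent_Pr_congr fun ω => by rw [Prod.ext_iff, and_comm]

omit [Fintype O] in
lemma Model_ck_mul (hρ : IsProb ρ) (Z : Ω → O × C) (o : O) (c : C) :
    Pr ρ (fun ω => (Z ω).1 = o) * Model_ck ρ Z o c = Pr ρ (fun ω => Z ω = (o, c)) := by
  unfold Model_ck
  by_cases h : Pr ρ (fun ω => (Z ω).1 = o) = 0
  · rw [h, zero_mul]
    refine le_antisymm (Pr_nonneg hρ.1 _) ?_
    rw [← h]
    exact Pr_mono hρ.1 fun ω hω => by rw [hω]
  · rw [if_neg h, mul_div_cancel₀ _ h]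

lemma Model_one [Nonempty O] [Nonempty C] (hρ : IsProb ρ) (Z : Ω → O × C) (φ : O × C → ℝ)
    (hφ : ∀ b, |φ b| ≤ 1) :
    |Ex (fun y => Pr ρ (fun ω => Z ω = y)) φ - Ex (mP (Model_ck ρ Z)) φ| ≤
      2 * Real.sqrt (Real.log (Fintype.card O) - Hent ρ (fun ω => (Z ω).1)) := by
  have hk := Model_ck_ker hρ Z
  have h1 := abs_Ex_sub_av_le hρ (fun ω => (Z ω).1)
    (fun o => Ex (Model_ck ρ Z o) (fun c => φ (o, c)))
    fun o => (abs_Ex_le (hk o).1 _).trans (Ex_le_const (hk o) fun c => hφ _)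
  have h2 : Ex ρ (fun ω => Ex (Model_ck ρ Z (Z ω).1) (fun c => φ ((Z ω).1, c))) =
      Ex (fun y => Pr ρ (fun ω => Z ω = y)) φ := by
    rw [Ent_Ex_fib' (fun ω => (Z ω).1) univ (fun _ _ => mem_univ _)
      (fun o => Ex (Model_ck ρ Z o) (fun c => φ (o, c)))]
    unfold Ex
    rw [Fintype.sum_prod_type]
    refine sum_congr rfl fun o _ => ?_
    rw [mul_sum]
    refine sum_congr rfl fun c _ => ?_
    rw [← mul_assoc, Model_ck_mul hρ]
  have h3 : av (fun o => Ex (Model_ck ρ Z o) (fun c => φ (o, c))) = Ex (mP (Model_ck ρ Z)) φ := by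
    unfold Ex av mP
    rw [Fintype.sum_prod_type, sum_div]
    refine sum_congr rfl fun o _ => ?_
    rw [sum_div]
    exact sum_congr rfl fun c _ => by ring
  rw [h2, h3] at h1
  exact h1

omit [Fintype O] in
lemma Model_trunc [Nonempty C] (hρ : IsProb ρ) (Z : Ω → O × C) {Tc : ℝ} (hTc : 1 < Tc) :
    Pr ρ (fun ω => Tc / Fintype.card C < Model_ck ρ Z (Z ω).1 (Z ω).2) * Real.log Tc ≤
      Real.log (Fintype.card C) - (Hent ρ Z - Hent ρ (fun ω => (Z ω).1)) + 1 := by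
  have hc : (0 : ℝ) < Fintype.card C := by exact_mod_cast Fintype.card_pos
  have h1 := Pr_ratio hρ (fun ω => (Z ω).2) (fun ω => (Z ω).1) hTc
  have h2 : Hc ρ (fun ω => (Z ω).2) (fun ω => (Z ω).1) = Hent ρ Z - Hent ρ (fun ω => (Z ω).1) := by
    unfold Hc
    rw [Hent_congr (Y := Z) fun ω ω' => by rw [Prod.mk_inj, Prod.ext_iff, and_comm]]
  rw [h2] at h1
  refine le_trans (mul_le_mul_of_nonneg_right (Pr_mono' hρ.1 fun ω hω h => ?_)
    (Real.log_pos hTc).le) h1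
  have h3 := Ent_pm_pos hρ (fun ω => (Z ω).1) hω
  have h4 : pm ρ (fun ω => ((Z ω).2, (Z ω).1)) ω =
      pm ρ (fun ω => (Z ω).1) ω * Model_ck ρ Z (Z ω).1 (Z ω).2 := by
    unfold pm
    rw [Model_ck_mul hρ]
    exact Ent_Pr_congr fun ω' => by rw [Prod.mk_inj, Prod.ext_iff, and_comm]
  rw [div_lt_iff₀ hc] at h
  rw [h4]
  nlinarith

end

lemma Model_step {B : Type} [Fintype B] {P Q : B → ℝ} (hP : IsProb P) {ε η : ℝ}
    (hPQ : ∀ φ : B → ℝ, (∀ b, |φ b| ≤ 1) → |Ex P φ - Ex Q φ| ≤ ε) {f g : B → ℝ}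
    (hfg : ∀ b, |f b - g b| ≤ η) (hg : ∀ b, |g b| ≤ 1) : |Ex P f - Ex Q g| ≤ η + ε := by
  have h1 : |Ex P f - Ex P g| ≤ η := by
    rw [← Ex_sub]
    exact (abs_Ex_le hP.1 _).trans (Ex_le_const hP hfg)
  exact (abs_sub_le _ _ _).trans (add_le_add h1 (hPQ g hg))

lemma Model_tele {B : Type} [Fintype B] {P Q : Bool × Bool → B → ℝ} (hP : ∀ z, IsProb (P z))
    (hQ : ∀ z, IsProb (Q z)) {ε : Bool × Bool → ℝ}
    (hPQ : ∀ z, ∀ φ : B → ℝ, (∀ b, |φ b| ≤ 1) → |Ex (P z) φ - Ex (Q z) φ| ≤ ε z)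
    (φ : (Bool × Bool → B) → ℝ) (hφ : ∀ b, |φ b| ≤ 1) :
    |Ex (fun b : Bool × Bool → B => ∏ y, P y (b y)) φ -
      Ex (fun b : Bool × Bool → B => ∏ y, Q y (b y)) φ| ≤ ∑ z, ε z := by
  have hb : ∀ z (f : B → ℝ), (∀ b, |f b| ≤ 1) → |Ex (Q z) f| ≤ 1 := fun z f hf =>
    (abs_Ex_le (hQ z).1 _).trans (Ex_le_const (hQ z) hf)
  rw [MTools_Ex4 (false, false), MTools_Ex4 (false, false), sum_four (false, false)]
  refine Model_step (hP _) (hPQ _) (fun b4 => ?_)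
    fun b4 => hb _ _ fun b3 => hb _ _ fun b2 => hb _ _ fun b1 => hφ _
  refine Model_step (hP _) (hPQ _) (fun b3 => ?_) fun b3 => hb _ _ fun b2 => hb _ _ fun b1 => hφ _
  refine Model_step (hP _) (hPQ _) (fun b2 => ?_) fun b2 => hb _ _ fun b1 => hφ _
  exact hPQ _ _ fun b1 => hφ _

lemma Model_sqrt {X : Type} [Fintype X] {f : X → ℝ} (hf : ∀ x, 0 ≤ f x) {c : ℝ} (hc : 0 ≤ c)
    (h : av f ≤ c ^ 2) : av (fun x => Real.sqrt (f x)) ≤ c := by
  have h1 := av_sq_le (fun x => Real.sqrt (f x))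
  simp only [Real.sq_sqrt (hf _)] at h1
  exact (le_abs_self _).trans (abs_le_of_sq_le_sq (h1.trans h) hc)

lemma Model_markov {X : Type} [Fintype X] {P q : X → ℝ} (hP : ∀ x, 0 ≤ P x)
    (hq : ∀ x, P x ≠ 0 → 0 ≤ q x) {t δ : ℝ} (ht : 0 < t) (h : Ex P q ≤ δ * t) :
    Pr P (fun x => t < q x) ≤ δ := by
  refine le_of_mul_le_mul_right (le_trans ?_ h) ht
  rw [Pr, ← Ex_mul_const]
  refine Ex_mono' hP fun x hx => ?_
  by_cases h : t < q x
  · rw [ind_pos h]
    linarith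
  · rw [ind_neg h, zero_mul]
    exact hq x hx

lemma Model_tc {Ω ι α : Type} [Fintype Ω] [Fintype ι] {ρ : Ω → ℝ} (hρ : IsProb ρ)
    (X : ι → Ω → α) : 0 ≤ ∑ z, Hent ρ (X z) - Hent ρ (fun ω z => X z ω) := by
  have h1 := Hc_pi_le hρ X (fun _ => ())
  simp only [Hc_const hρ] at h1
  linarith

lemma Model_prod {Ω ι α : Type} [Fintype Ω] [Fintype ι] [d : DecidableEq ι] [Fintype α]
    {ρ : Ω → ℝ} (hρ : IsProb ρ) (X : ι → Ω → α) (φ : (ι → α) → ℝ) (hφ : ∀ a, |φ a| ≤ 1) :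
    |Ex ρ (fun ω => φ (fun i => X i ω)) -
        Ex (fun a : ι → α => ∏ i, Pr ρ (fun ω => X i ω = a i)) φ| ≤
      2 * Real.sqrt (∑ i, Hent ρ (X i) - Hent ρ (fun ω i => X i ω)) := by
  obtain rfl : d = fun a b => Classical.propDecidable (a = b) := Subsingleton.elim _ _
  exact abs_Ex_sub_prod_le hρ X φ hφ

lemma Model_tc4 {Ω T α : Type} [Fintype Ω] {ρ : Ω → ℝ} (hρ : IsProb ρ) (Y : Ω → Bool → T → α)
    (τ : Bool × Bool → T) : 0 ≤ ∑ z : Bool × Bool, Hent ρ (fun ω => Y ω z.1 (τ z)) -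
      Hent ρ (fun ω (z : Bool × Bool) => Y ω z.1 (τ z)) := by
  have := Model_tc hρ (fun (z : Bool × Bool) ω => Y ω z.1 (τ z))
  exact this

/-- splitting the position off a block. -/
def Model_e1 (T Pf Vo Cr : Type) : T × ((Pf × Vo) × Cr) ≃ ((T × Pf) × Vo) × Cr where
  toFun p := mkB p.1 p.2
  invFun b := (b.1.1.1, ((b.1.1.2, b.1.2), b.2))
  left_inv _ := rfl
  right_inv _ := rfl

/-- splitting the positions off four blocks. -/
def Model_e4 (T Pf Vo Cr : Type) : (Bool × Bool → T) × (Bool × Bool → (Pf × Vo) × Cr) ≃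
    (Bool × Bool → ((T × Pf) × Vo) × Cr) where
  toFun p := fun z => mkB (p.1 z) (p.2 z)
  invFun b := (fun z => (b z).1.1.1, fun z => (((b z).1.1.2, (b z).1.2), (b z).2))
  left_inv _ := rfl
  right_inv _ := rfl

section

variable {T Pf Vo Cr : Type} [Fintype T] [Fintype Pf] [Fintype Vo] [Fintype Cr]

omit [Fintype Cr] in
lemma Model_mP (k : T → Pf × Vo → Cr → ℝ) (s : T) (y : (Pf × Vo) × Cr) :
    mP (fun o : (T × Pf) × Vo => k o.1.1 (o.1.2, o.2)) (mkB s y) =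
      mP (k s) y / Fintype.card T := by
  unfold mP mkB
  simp only [Fintype.card_prod, Nat.cast_mul]
  ring

lemma Model_Ex1 (k : T → Pf × Vo → Cr → ℝ) (φ : ((T × Pf) × Vo) × Cr → ℝ) :
    Ex (mP (fun o : (T × Pf) × Vo => k o.1.1 (o.1.2, o.2))) φ =
      av (fun s => Ex (mP (k s)) (fun y => φ (mkB s y))) := by
  unfold Ex av
  rw [← Equiv.sum_comp (Model_e1 T Pf Vo Cr), Fintype.sum_prod_type, sum_div]
  refine sum_congr rfl fun s _ => ?_
  rw [sum_div]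
  refine sum_congr rfl fun y _ => ?_
  rw [← div_mul_eq_mul_div, ← Model_mP]
  rfl

lemma Model_Ex4 (k : Bool → T → Pf × Vo → Cr → ℝ)
    (φ : (Bool × Bool → ((T × Pf) × Vo) × Cr) → ℝ) :
    Ex (m4 (fun i (o : (T × Pf) × Vo) => k i o.1.1 (o.1.2, o.2))) φ =
      av (fun τ : Bool × Bool → T =>
        Ex (fun y : Bool × Bool → (Pf × Vo) × Cr => ∏ z, mP (k z.1 (τ z)) (y z))
          (fun y => φ (fun z => mkB (τ z) (y z)))) := by
  unfold Ex av
  rw [← Equiv.sum_comp (Model_e4 T Pf Vo Cr), Fintype.sum_prod_type, sum_div]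
  refine sum_congr rfl fun τ _ => ?_
  rw [sum_div]
  refine sum_congr rfl fun y _ => ?_
  rw [← div_mul_eq_mul_div, Fintype.card_fun, Nat.cast_pow, ← card_univ (α := Bool × Bool),
    ← prod_const, ← prod_div_distrib]
  simp only [← Model_mP]
  rfl

end

variable {Ω T Pf Vo Cr LL RR W : Type} [Fintype Ω] [Fintype T] [Fintype Pf] [Fintype Vo]
  [Fintype Cr] [Fintype LL] [Fintype RR] [Nonempty T]
  {ν : Ω → ℝ} {L : Bool → Ω → LL} {R : Bool → Ω → RR} {Y : Ω → Bool → T → (Pf × Vo) × Cr}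

/-- a single posterior with small entropy defects is good. -/
theorem goodPost_of_entropy {ρ : Ω → ℝ} (hρ : IsProb ρ) {δ Tc θ : ℝ} (hδ : 0 < δ) (hTc : 1 < Tc)
    (hθ : 0 < θ) (hθ1 : θ < 1)
    (h1 : av (fun τ : Bool × Bool → T => ∑ z : Bool × Bool, Hent ρ (fun ω => Y ω z.1 (τ z)) -
      Hent ρ (fun ω (z : Bool × Bool) => Y ω z.1 (τ z))) ≤ δ ^ 2 / 16)
    (h2 : ∀ i, av (fun s : T =>
      Real.log (Fintype.card (Pf × Vo)) - Hent ρ (fun ω => (Y ω i s).1)) ≤ δ ^ 2 / 256)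
    (h3 : ∀ i, av (fun s : T =>
      Real.log (Fintype.card ((Pf × Vo) × Cr)) - Hent ρ (fun ω => Y ω i s)) + 1 ≤
        δ * Real.log Tc)
    (h4 : ∀ i, av (fun s : T =>
      Real.log (Fintype.card RR) - Hc ρ (R i) (fun ω => (L i ω, Y ω (!i) s))) + Real.log 2 ≤
        δ * Real.log (1 / θ)) :
    ∃ k, GoodPost L R Y ρ k δ Tc θ := by
  obtain ⟨ω₀, -⟩ := Ent_exists_ne hρ
  have hO : Nonempty (Pf × Vo) := ⟨(Y ω₀ false (Classical.arbitrary T)).1⟩
  have hC : Nonempty Cr := ⟨(Y ω₀ false (Classical.arbitrary T)).2⟩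
  have hD : ∀ i, av (fun s : T => Real.sqrt
      (Real.log (Fintype.card (Pf × Vo)) - Hent ρ (fun ω => (Y ω i s).1))) ≤ δ / 16 := fun i =>
    Model_sqrt (fun s => sub_nonneg.2 (ModelU_card hρ _)) (by positivity)
      ((h2 i).trans (le_of_eq (by ring)))
  refine ⟨fun i o => Model_ck ρ (fun ω => Y ω i o.1.1) (o.1.2, o.2), hρ,
    fun i o => Model_ck_ker hρ _ _, fun φ hφ => ?_, fun i => ?_, fun i E hE => ?_⟩
  · rw [Model_Ex4 (fun i s => Model_ck ρ (fun ω => Y ω i s)), ← av_Ex, ← av_sub]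
    have h5 : av (fun τ : Bool × Bool → T => Real.sqrt
        (∑ z : Bool × Bool, Hent ρ (fun ω => Y ω z.1 (τ z)) -
          Hent ρ (fun ω (z : Bool × Bool) => Y ω z.1 (τ z)))) ≤ δ / 4 :=
      Model_sqrt (Model_tc4 hρ Y) (by positivity) (h1.trans (le_of_eq (by ring)))
    have h6 : av (fun τ : Bool × Bool → T => 2 * Real.sqrt
        (∑ z : Bool × Bool, Hent ρ (fun ω => Y ω z.1 (τ z)) -
          Hent ρ (fun ω (z : Bool × Bool) => Y ω z.1 (τ z))) +
        ∑ z : Bool × Bool, 2 * Real.sqrt (Real.log (Fintype.card (Pf × Vo)) -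
          Hent ρ (fun ω => (Y ω z.1 (τ z)).1))) ≤ δ := by
      have h7 : ∀ z : Bool × Bool, av (fun τ : Bool × Bool → T => 2 * Real.sqrt
          (Real.log (Fintype.card (Pf × Vo)) - Hent ρ (fun ω => (Y ω z.1 (τ z)).1))) ≤ δ / 8 := by
        intro z
        rw [av_const_mul, ModelU_eval z (fun s => Real.sqrt
          (Real.log (Fintype.card (Pf × Vo)) - Hent ρ (fun ω => (Y ω z.1 s).1)))]
        linarith [hD z.1]
      have h8 := sum_le_sum (s := univ) fun z _ => h7 z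
      rw [sum_const, card_univ, Fintype.card_prod Bool Bool, Fintype.card_bool, nsmul_eq_mul] at h8
      rw [av_add, av_const_mul, av_sum]
      push_cast at h8
      linarith
    refine (abs_av_le _).trans ((av_mono fun τ => ?_).trans h6)
    refine (abs_sub_le _ (Ex (fun y : Bool × Bool → (Pf × Vo) × Cr =>
      ∏ z, Pr ρ (fun ω => Y ω z.1 (τ z) = y z)) (fun y => φ (fun z => mkB (τ z) (y z)))) _).trans
      (add_le_add ?_ ?_)
    · have h7 := Model_prod hρ (fun (z : Bool × Bool) ω => Y ω z.1 (τ z))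
        (fun y => φ (fun z => mkB (τ z) (y z))) fun _ => hφ _
      exact h7
    · exact Model_tele (P := fun z y => Pr ρ (fun ω => Y ω z.1 (τ z) = y))
        (Q := fun z => mP (Model_ck ρ (fun ω => Y ω z.1 (τ z))))
        (fun z => ⟨fun _ => Pr_nonneg hρ.1 _, Ent_sum_Pr' hρ _ univ fun _ _ => mem_univ _⟩)
        (fun z => isProb_mP (Model_ck_ker hρ _)) (fun z ψ hψ => Model_one hρ _ ψ hψ) _
        fun _ => hφ _
  · have hl := Real.log_pos hTc
    have h5 : av (fun s : T => Pr ρ (fun ω => Tc / Fintype.card Cr <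
        Model_ck ρ (fun ω => Y ω i s) (Y ω i s).1 (Y ω i s).2)) ≤ δ := by
      refine le_of_mul_le_mul_right (le_trans ?_ (h3 i)) hl
      rw [← av_mul_const, ← av_const (X := T) 1, ← av_add]
      refine av_mono fun s => (Model_trunc hρ (fun ω => Y ω i s) hTc).trans ?_
      have := ModelU_card hρ (fun ω => (Y ω i s).1)
      rw [ModelU_log_prod (Pf × Vo) Cr]
      linarith
    have h6 : av (fun s : T => Pr ρ (fun ω => Tc / Fintype.card Cr <
        Model_ck ρ (fun ω => Y ω i s) (Y ω i s).1 (Y ω i s).2) + 2 * Real.sqrt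
        (Real.log (Fintype.card (Pf × Vo)) - Hent ρ (fun ω => (Y ω i s).1))) ≤ 2 * δ := by
      rw [av_add, av_const_mul]
      linarith [hD i]
    rw [Pr, Model_Ex1 (fun s => Model_ck ρ (fun ω => Y ω i s))]
    refine (av_mono fun s => ?_).trans h6
    have h7 := Model_one hρ (fun ω => Y ω i s)
      (fun y => ind (Tc / Fintype.card Cr < Model_ck ρ (fun ω => Y ω i s) y.1 y.2))
      fun y => by rw [abs_of_nonneg (ind_nonneg _)]; exact ind_le_one _
    have h8 := Ent_Ex_fib' (ν := ρ) (fun ω => Y ω i s) univ (fun _ _ => mem_univ _)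
      (fun y => ind (Tc / Fintype.card Cr < Model_ck ρ (fun ω => Y ω i s) y.1 y.2))
    have h9 := (abs_le.1 h7).1
    have h10 : Pr ρ (fun ω => Tc / Fintype.card Cr <
        Model_ck ρ (fun ω => Y ω i s) (Y ω i s).1 (Y ω i s).2) =
      Ex (fun y => Pr ρ (fun ω => Y ω i s = y))
        (fun y => ind (Tc / Fintype.card Cr < Model_ck ρ (fun ω => Y ω i s) y.1 y.2)) := h8
    rw [h10]
    exact le_trans (le_of_eq rfl) (by linarith : Ex (mP (Model_ck ρ (fun ω => Y ω i s)))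
      (fun y => ind (Tc / Fintype.card Cr < Model_ck ρ (fun ω => Y ω i s) y.1 y.2)) ≤ _)
  · have hl : 0 < Real.log (1 / θ) := Real.log_pos (one_lt_one_div hθ hθ1)
    refine le_of_mul_le_mul_right (le_trans ?_ (h4 i)) hl
    rw [← av_Ex, ← av_mul_const, ← av_const (X := T) (Real.log 2), ← av_add]
    exact av_mono fun s => Pr_small_event hρ (R i) (fun ω => (L i ω, Y ω (!i) s))
      (fun b a => E b.1 (mkB s b.2) a) hθ hθ1 fun b => hE _ _

theorem model {Lc : ℕ} {K M w0 : ℝ} {W0 : Ω → W} (h : MHyp ν L R Y Lc K M) (hW : Hent ν W0 ≤ w0)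
    (I G : ℕ) (hI : 0 < I) (hG : 0 < G) (hGI : G * (4 * I + 1) ≤ Lc) {δ Tc θ : ℝ} (hδ : 0 < δ)
    (hTc : 1 < Tc) (hθ : 0 < θ) (hθ1 : θ < 1)
    (h1 : 1024 * (Real.log K + w0 + 1) ≤ δ ^ 3 * (Lc * I))
    (h2 : 256 * (w0 + Real.log M + (Real.log K + 1) / G + 1) ≤ δ ^ 3 * Lc)
    (h3 : 2 * (Real.log K + w0 + 1) / Lc + 1 ≤ δ ^ 2 * Real.log Tc)
    (h4 : w0 + (4 * I + 1) * Real.log (Fintype.card (Vo × Cr)) + Real.log M +
      (Real.log K + 1) / G + Real.log 2 ≤ δ ^ 2 * Real.log (1 / θ)) :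
    ∃ (ι : Type) (_ : Fintype ι) (P : ι → ℝ) (ρ : ι → Ω → ℝ)
      (k : ι → Bool → (T × Pf) × Vo → Cr → ℝ), IsProb P ∧
      (∀ f, Ex P (fun w => Ex (ρ w) f) = Ex ν f) ∧ (∀ w, P w ≠ 0 → IsProb (ρ w)) ∧
      (∀ w ω, ρ w ω ≠ 0 → ν ω ≠ 0) ∧ (∀ w ω ω', ρ w ω ≠ 0 → ρ w ω' ≠ 0 → W0 ω = W0 ω') ∧
      Pr P (fun w => ¬ GoodPost L R Y (ρ w) (k w) δ Tc θ) ≤ 7 * δ := by
  have hν := h.prob
  have hG1 : 4 * I + 1 ≤ Lc := le_trans (Nat.le_mul_of_pos_left _ hG) hGI
  obtain ⟨n, hn, a1⟩ := modelA_tc h hW I hI (by omega)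
  have hGn : G * (n + 1) ≤ Lc := le_trans (Nat.mul_le_mul_left G (by omega)) hGI
  have a2 := modelA_own h hW n G hG (le_trans (Nat.mul_le_mul_left G (by omega)) hGn)
  have a3 := modelA_blk h hW n (by omega)
  have a4 := modelA_U h hW n G hG (by omega)
  have hL : (0 : ℝ) < Lc := by exact_mod_cast h.hLc
  have hI' : (0 : ℝ) < I := by exact_mod_cast hI
  let P : (Fin n → Bool × T) × Ω → ℝ :=
    prodP (fun _ => 1 / (Fintype.card (Fin n → Bool × T) : ℝ)) ν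
  let ρ : (Fin n → Bool × T) × Ω → Ω → ℝ := fun w => post ν (hist W0 Y w.1) w.2
  have hP : IsProb P := isProb_unif.prodP hν
  have hE : ∀ f, Ex P f = av (fun σ => Ex ν (fun ω => f (σ, ω))) := fun f => by
    rw [av_eq_Ex]
    exact Ex_prodP _ _ f
  have hρ : ∀ w, P w ≠ 0 → IsProb (ρ w) := fun w hw =>
    isProb_post hν _ (right_ne_zero_of_mul hw)
  have hH : ∀ {α : Type} (X : Ω → α) (σ : Fin n → Bool × T),
      Ex ν (fun ω => Hent (ρ (σ, ω)) X) = Hc ν X (hist W0 Y σ) := by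
    intro α X σ
    exact (Ent_Hc_eq_post hν X (hist W0 Y σ)).symm
  have hH' : ∀ {α β : Type} (X : Ω → α) (Z : Ω → β) (σ : Fin n → Bool × T),
      Ex ν (fun ω => Hc (ρ (σ, ω)) X Z) = Hc ν X (fun ω => (Z ω, hist W0 Y σ ω)) := by
    intro α β X Z σ
    exact (Hc_eq_Ex_post hν X Z (hist W0 Y σ)).symm
  have b1 : Pr P (fun w => δ ^ 2 / 16 < av (fun τ : Bool × Bool → T =>
      ∑ z : Bool × Bool, Hent (ρ w) (fun ω => Y ω z.1 (τ z)) -
        Hent (ρ w) (fun ω (z : Bool × Bool) => Y ω z.1 (τ z)))) ≤ δ := by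
    refine Model_markov hP.1 (fun w hw => av_nonneg (Model_tc4 (hρ w hw) Y))
      (by positivity) ?_
    simp only [hE, ← av_Ex, Ex_sub, Ex_sum, hH]
    refine a1.trans ?_
    rw [div_le_iff₀ (by positivity)]
    linarith
  have b2 : ∀ i, Pr P (fun w => δ ^ 2 / 256 < av (fun s : T =>
      Real.log (Fintype.card (Pf × Vo)) - Hent (ρ w) (fun ω => (Y ω i s).1))) ≤ δ := by
    intro i
    refine Model_markov hP.1 (fun w hw => av_nonneg fun s => sub_nonneg.2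
      (ModelU_card (hρ w hw) _)) (by positivity) ?_
    simp only [hE, ← av_Ex, Ex_sub, Ex_const hν, hH]
    refine (a2 i).trans ?_
    rw [div_le_iff₀ hL]
    linarith
  have b3 : ∀ i, Pr P (fun w => δ * Real.log Tc < av (fun s : T =>
      Real.log (Fintype.card ((Pf × Vo) × Cr)) - Hent (ρ w) (fun ω => Y ω i s)) + 1) ≤ δ := by
    intro i
    refine Model_markov hP.1 (fun w hw => add_nonneg (av_nonneg fun s => sub_nonneg.2
      (ModelU_card (hρ w hw) _)) zero_le_one) (mul_pos hδ (Real.log_pos hTc)) ?_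
    simp only [hE, Ex_add, av_add, av_const, ← av_Ex, Ex_sub, Ex_const hν, hH]
    linarith [a3 i]
  have b4 : ∀ i, Pr P (fun w => δ * Real.log (1 / θ) < av (fun s : T =>
      Real.log (Fintype.card RR) - Hc (ρ w) (R i) (fun ω => (L i ω, Y ω (!i) s))) +
        Real.log 2) ≤ δ := by
    intro i
    refine Model_markov hP.1 (fun w hw => add_nonneg (av_nonneg fun s => sub_nonneg.2
      (Hc_le_log_card (hρ w hw) _ _)) (Real.log_nonneg one_le_two))
      (mul_pos hδ (Real.log_pos (one_lt_one_div hθ hθ1))) ?_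
    simp only [hE, Ex_add, av_add, av_const, ← av_Ex, Ex_sub, Ex_const hν, hH']
    have c1 : (n + 1 : ℝ) ≤ 4 * I + 1 := by exact_mod_cast Nat.succ_le_succ hn
    have c2 := mul_le_mul_of_nonneg_right c1 (ModelU_log_nonneg (Vo × Cr))
    linarith [a4 i]
  refine ⟨(Fin n → Bool × T) × Ω, inferInstance, P, ρ,
    fun w => if hw : ∃ k, GoodPost L R Y (ρ w) k δ Tc θ then hw.choose else fun _ _ _ => 0,
    hP, fun f => ?_, hρ, fun w ω hw => (post_ne_zero hw).1,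
    fun w ω ω' hw hw' => ?_, ?_⟩
  · rw [hE]
    exact (av_congr fun σ => Ex_post hν _ f).trans (av_const _)
  · exact (congrArg Prod.fst (post_ne_zero hw).2).trans
      (congrArg Prod.fst (post_ne_zero hw').2).symm
  · have u := fun A B a b (hA : Pr P A ≤ a) (hB : Pr P B ≤ b) =>
      (Pr_or_le hP.1 A B).trans (add_le_add hA hB)
    refine le_trans (Pr_mono' hP.1 fun w hw hb => ?_)
      ((u _ _ _ _ b1 (u _ _ _ _ (u _ _ _ _ (b2 false) (b2 true)) (u _ _ _ _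
        (u _ _ _ _ (b3 false) (b3 true)) (u _ _ _ _ (b4 false) (b4 true))))).trans
        (le_of_eq (by ring)))
    by_contra hc
    simp only [not_or, not_lt] at hc
    obtain ⟨c1, ⟨c2, c2'⟩, ⟨c3, c3'⟩, c4, c4'⟩ := hc
    have hk := goodPost_of_entropy (L := L) (R := R) (hρ w hw) hδ hTc hθ hθ1 c1
      (Bool.rec c2 c2') (Bool.rec c3 c3') (Bool.rec c4 c4')
    simp only [dif_pos hk] at hb
    exact hb hk.choose_spec

end

end Vale.Agent.P060
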