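import Vale.Agent.P060.FreshA
import Vale.Agent.P060.Model

/-! P060: counting tools for the entropy hypotheses. -/

namespace Vale.Agent.P060

open Finset Polynomial Vale.Agent.P056.Sharp

noncomputable section

open scoped Classical

section interp

variable {F : Type} [Field F] {p : Par} {ι : Type} [Fintype ι]

lemma inst_cv (hι : Fintype.card ι ≤ p.k) {s : ι → F} (hs : Function.Injective s)
    (y : ι → Fin p.N → F) : ∃ L : Cv F p, ∀ n, ptv L (s n) = y n := by
  choose f hf using fun l : Fin p.N =>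
    exists_pol_eval (n := p.k) (hι.trans (Nat.le_succ _)) hs (fun n => y n l)
  exact ⟨f, fun n => funext fun l => hf l n⟩

lemma inst_mx (hp : p.Ok) (hι : Fintype.card ι ≤ p.k) {s : ι → F} (hs : Function.Injective s)
    (y : ι → Fin p.S → F) : ∃ ψ : Mx F p, ∀ n, mv ψ (s n) = y n := by
  have h := Cont_J hp
  choose f hf using fun l : Fin p.S =>
    exists_pol_eval (n := p.J1) (by omega) hs (fun n => y n l)
  exact ⟨f, fun n => funext fun l => hf l n⟩

lemma inst_gh (hp : p.Ok) (hι : Fintype.card ι ≤ p.k) {s : ι → F} (hs : Function.Injective s)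
    (y : ι → Ei p → F) : ∃ γ : Gh F p, ∀ L n, vals γ L (s n) = y n := by
  have h := Cont_J hp
  choose f hf using fun e : Ei p =>
    exists_pol_eval (n := p.J) (by omega) hs (fun n => y n e)
  exact ⟨fun e => ⟨fun _ => (f e : F[X]), const_mem (Pol.le (f e))⟩,
    fun L n => funext fun e => hf e n⟩

lemma inst_ptv_add (L L' : Cv F p) (s : F) : ptv (L + L') s = ptv L s + ptv L' s := by
  funext l; simp [ptv]

lemma inst_ptv_sub (L L' : Cv F p) (s : F) : ptv (L - L') s = ptv L s - ptv L' s := by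
  funext l; simp [ptv]

lemma inst_mv_add (L L' : Mx F p) (s : F) : mv (L + L') s = mv L s + mv L' s := by
  funext l; simp [mv]

lemma inst_vals_add (γ γ' : Gh F p) (L : Cv F p) (s : F) :
    vals (γ + γ') L s = vals γ L s + vals γ' L s := by
  funext e; simp [vals]

end interp

section ent

variable {Ω V β : Type} [Fintype Ω] [Fintype V] [Fintype β] {ν : Ω → ℝ}

lemma inst_lam (hν : IsProb ν) (X : Ω → V) (R : Ω → β) {K : ℝ} (hK : 1 ≤ K)
    (h : ∀ ω, pm ν (fun ω => (X ω, R ω)) ω ≤ K * (1 / Fintype.card (V × β))) :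
    Real.log (Fintype.card V) - Hc ν X R ≤ Real.log K := by
  obtain ⟨ω₀, -⟩ := Ent_exists_ne hν
  have : Nonempty V := ⟨X ω₀⟩
  have : Nonempty β := ⟨R ω₀⟩
  have hV : (0 : ℝ) < Fintype.card V := by exact_mod_cast Fintype.card_pos
  have hβ : (0 : ℝ) < Fintype.card β := by exact_mod_cast Fintype.card_pos
  have h1 := le_Hent_of_pm_le hν _ h
  have h2 := Hent_le_log_card_of_mem hν R univ fun _ _ => mem_univ _
  rw [card_univ] at h2
  rw [Fintype.card_prod, Nat.cast_mul, mul_one_div, Real.log_div (by positivity) (by positivity),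
    Real.log_mul hV.ne' hβ.ne'] at h1
  unfold Hc
  linarith

/-- finite sets of bounded size. -/
lemma inst_card_small (α : Type) [Fintype α] (n : ℕ) :
    ((univ : Finset (Finset α)).filter fun s => s.card ≤ n).card ≤ (Fintype.card α + 1) ^ n := by
  have h : (Fintype.card α + 1) ^ n = (univ : Finset (Fin n → Option α)).card := by
    rw [card_univ, Fintype.card_fun, Fintype.card_option, Fintype.card_fin]
  rw [h]
  refine card_le_card_of_surjOn (fun g => univ.filter fun a => ∃ i, g i = some a) ?_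
  intro s hs
  simp only [coe_filter, mem_univ, true_and, Set.mem_ofPred_eq] at hs
  refine ⟨fun i => s.toList[i.1]?, by simp, ?_⟩
  ext a
  simp only [mem_filter, mem_univ, true_and]
  rw [← Finset.mem_toList, List.mem_iff_getElem?]
  constructor
  · rintro ⟨i, hi⟩
    exact ⟨i, hi⟩
  · rintro ⟨i, hi⟩
    have h1 : i < s.toList.length := (List.getElem?_eq_some_iff.1 hi).1
    rw [Finset.length_toList] at h1
    exact ⟨⟨i, by omega⟩, hi⟩

lemma inst_group {Ω β V T ι : Type} [Fintype Ω] [AddCommGroup V] [Fintype V] [Fintype T]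
    [Nonempty T] [Fintype ι] [d : DecidableEq ι] {ν : Ω → ℝ} (hν : IsProb ν) (R : Ω → β)
    (X : Ω → V) {Λ : ℝ}
    (hΛ : Real.log (Fintype.card V) - Hc ν X R ≤ Λ) (Kr : (ι → T) → AddSubgroup V) (G : ℕ)
    (hG : 0 < G) (hcard : (G * Fintype.card ι) ^ 2 ≤ Fintype.card T)
    (hsurj : ∀ τ : Fin G × ι → T, Function.Injective τ → ∀ v : Fin G → V,
      ∃ x : V, ∀ g, x - v g ∈ Kr (fun a => τ (g, a)))
    {B : ℝ} (hB : 1 < B) :
    av (fun τ : ι → T => ind (Function.Injective τ) * Pr ν (fun ω =>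
      B * ((Nat.card (Kr τ) : ℝ) / Fintype.card V) * Pr ν (fun ω' => R ω' = R ω) <
        Pr ν (fun ω' => R ω' = R ω ∧ X ω' - X ω ∈ Kr τ))) ≤ (2 * Λ / G + 1) / Real.log B := by
  obtain rfl : d = fun a b => Classical.propDecidable (a = b) := Subsingleton.elim _ _
  exact group_lemma hν R X hΛ Kr G hG hcard hsurj hB

end ent

variable {F : Type} [Field F] [Fintype F] {p : Par}

/-- curves vanishing at two positions. -/
def inst_K1 (p : Par) (i : Bool) (τ : Bool × Bool → F) : AddSubgroup (Cv F p) where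
  carrier := {d | ∀ k, ptv d (τ (!i, k)) = 0}
  add_mem' := fun {a b} ha hb k => by rw [inst_ptv_add, ha k, hb k, add_zero]
  zero_mem' := fun k => by funext l; simp [ptv]
  neg_mem' := fun {a} ha k => by
    have h := inst_ptv_sub (0 : Cv F p) a (τ (!i, k))
    rw [zero_sub, ha k, sub_zero] at h
    rw [h]; funext l; simp [ptv]

omit [Fintype F] in
lemma inst_mem_K1 {i : Bool} {τ : Bool × Bool → F} {d : Cv F p} :
    d ∈ inst_K1 p i τ ↔ ∀ k, ptv d (τ (!i, k)) = 0 := Iff.rfl

lemma inst_card_K1 (hp : p.Ok) (i : Bool) {τ : Bool × Bool → F} (hτ : Function.Injective τ) :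
    (Nat.card (inst_K1 p i τ) : ℝ) / Fintype.card (Cv F p) =
      1 / (Fintype.card F : ℝ) ^ (2 * p.N) := by
  have htt : τ (!i, false) ≠ τ (!i, true) := fun h => by simpa using hτ h
  rw [← av_two_points hp htt 0 0, av_ind_eq_card]
  congr 2
  rw [← Fintype.card_subtype, Nat.card_eq_fintype_card]
  refine Fintype.card_congr (Equiv.subtypeEquivRight fun d => ?_)
  rw [inst_mem_K1, Bool.forall_bool]

lemma inst_roots {h : F[X]} (hh : h ≠ 0) {r : ℕ} (hr : h.natDegree ≤ r) :
    av (fun s : F => ind (h.eval s = 0)) ≤ (r : ℝ) / Fintype.card F := by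
  rw [av_ind_eq_card]
  refine div_le_div_of_nonneg_right ?_ (Nat.cast_nonneg _)
  have h1 : (univ.filter fun s : F => h.eval s = 0) ⊆ h.roots.toFinset := fun s hs => by
    rw [Multiset.mem_toFinset, mem_roots hh]
    exact (mem_filter.1 hs).2
  have h2 := (card_le_card h1).trans ((Multiset.toFinset_card_le _).trans ((card_roots' h).trans hr))
  exact_mod_cast h2

lemma inst_avoid {L : Bool → Cv F p} (hL : okc (L false) (L true)) :
    av (fun τ : Bool × Bool → F => ind (¬ Avoid L τ)) ≤ 4 * (p.r : ℝ) / Fintype.card F := by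
  have h1 := count_union_le (X := Bool × Bool → F) (univ : Finset (Bool × Bool))
    (fun z τ => (cg (L false) (L true)).eval (τ z) = 0) (b := (p.r : ℝ) / Fintype.card F)
    fun z _ => by
      rw [ModelA_av_eval z (fun s => ind ((cg (L false) (L true)).eval s = 0))]
      exact inst_roots (cg_monic hL.1).ne_zero (le_trans (Nat.le_add_right _ _) hL.2)
  have h2 : ((univ : Finset (Bool × Bool)).card : ℝ) = 4 := by simp
  rw [h2, ← mul_div_assoc] at h1
  refine le_trans (count_mono fun τ hτ => ?_) h1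
  unfold Avoid at hτ
  push Not at hτ
  obtain ⟨z, hz⟩ := hτ
  exact ⟨z, mem_univ _, hz⟩

omit [Field F] in
lemma inst_card_raw :
    Fintype.card (((Fin p.N → F) × Vo F p) × Cr F p) =
      Fintype.card F ^ (p.N + p.S + 2 * Fintype.card (Ei p)) := by
  simp only [Fintype.card_prod, Fintype.card_fun, Fintype.card_fin]
  ring

variable [Algebra (ZMod 2) F]

/-- the law of the raw blocks of a uniform pair. -/
lemma inst_d1 (hp : p.Ok) {ι : Type} [Fintype ι] (hι : Fintype.card ι ≤ p.k) (σ : ι → Bool × F)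
    (hσ : Function.Injective fun n => (σ n).2)
    (y : ι → ((Fin p.N → F) × Vo F p) × Cr F p) :
    av (fun ω : Om F p => ind ((fun n => raw ω (σ n).1 (σ n).2) = y)) =
      1 / (Fintype.card (((Fin p.N → F) × Vo F p) × Cr F p) : ℝ) ^ Fintype.card ι := by
  let A : (Bool → Cv F p) →+ (ι → Fin p.N → F) := AddMonoidHom.mk'
    (fun L n => ptv (L (σ n).1) (σ n).2) fun L L' => funext fun n => inst_ptv_add _ _ _
  let B : (Bool → Mx F p) →+ (ι → Fin p.S → F) := AddMonoidHom.mk'
    (fun L n => mv (L (σ n).1) (σ n).2) fun L L' => funext fun n => inst_mv_add _ _ _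
  let D : (Bool → Cv F p) → (Bool → Gh F p) →+ (ι → (Ei p → F) × (Ei p → F)) := fun L =>
    AddMonoidHom.mk'
      (fun γ n => (vals (γ (σ n).1) (L (σ n).1) (σ n).2, vals (γ (!(σ n).1)) (L (σ n).1) (σ n).2))
      fun γ γ' => funext fun n => Prod.ext (inst_vals_add _ _ _ _) (inst_vals_add _ _ _ _)
  have hA : Function.Surjective A := fun v => by
    obtain ⟨L, hL⟩ := inst_cv hι hσ v
    exact ⟨fun _ => L, funext hL⟩
  have hB : Function.Surjective B := fun v => by
    obtain ⟨L, hL⟩ := inst_mx hp hι hσ v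
    exact ⟨fun _ => L, funext hL⟩
  have hD : ∀ L, Function.Surjective (D L) := fun L v => by
    choose γ hγ using fun i : Bool =>
      inst_gh hp hι hσ (fun n => if i = (σ n).1 then (v n).1 else (v n).2)
    refine ⟨γ, funext fun n => Prod.ext ?_ ?_⟩
    · exact (hγ _ _ n).trans (if_pos rfl)
    · exact (hγ _ _ n).trans (if_neg (by simp))
  have h1 : ∀ ω : Om F p, ind ((fun n => raw ω (σ n).1 (σ n).2) = y) =
      ind (A (cv ω) = fun n => (y n).1.1) * (ind (B (mx ω) = fun n => (y n).1.2.1) *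
        ind (D (cv ω) (gs ω) = fun n => ((y n).1.2.2, (y n).2))) := fun ω => by
    rw [← ind_and, ← ind_and]
    refine ind_congr ⟨?_, ?_⟩
    · rintro rfl
      exact ⟨rfl, rfl, rfl⟩
    · rintro ⟨a, b, c⟩
      funext n
      have c1 := congrArg Prod.fst (congrFun c n)
      have c2 := congrArg Prod.snd (congrFun c n)
      exact Prod.ext (Prod.ext (congrFun a n) (Prod.ext (congrFun b n) c1)) c2
  simp only [h1]
  rw [av_Om (fun L ψ γ => ind (A L = fun n => (y n).1.1) * (ind (B ψ = fun n => (y n).1.2.1) *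
        ind (D L γ = fun n => ((y n).1.2.2, (y n).2))))]
  simp only [av_const_mul, count_fiber _ (hD _), av_mul_const, count_fiber _ hB,
    count_fiber _ hA]
  simp only [Fintype.card_prod, Fintype.card_fun, Fintype.card_fin]
  push_cast
  simp only [mul_pow, one_div, mul_inv]
  ring

omit [Algebra (ZMod 2) F] in
/-- the law of the own parts of a uniform vertex. -/
lemma inst_d2 (hp : p.Ok) {ι : Type} [Fintype ι] (hι : Fintype.card ι ≤ p.k) {s : ι → F}
    (hs : Function.Injective s) (y : ι → (Fin p.N → F) × Vo F p) :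
    av (fun a : Vx F p => ind ((fun n => ((ptv a.1 (s n), (mv a.2.1 (s n),
      vals a.2.2 a.1 (s n))) : (Fin p.N → F) × Vo F p)) = y)) =
      1 / (Fintype.card ((Fin p.N → F) × Vo F p) : ℝ) ^ Fintype.card ι := by
  let A : Cv F p →+ (ι → Fin p.N → F) := AddMonoidHom.mk'
    (fun L n => ptv L (s n)) fun L L' => funext fun n => inst_ptv_add _ _ _
  let D : Cv F p → (Mx F p × Gh F p) →+ (ι → Vo F p) := fun L =>
    AddMonoidHom.mk' (fun r n => (mv r.1 (s n), vals r.2 L (s n)))
      fun γ γ' => funext fun n => Prod.ext (inst_mv_add _ _ _) (inst_vals_add _ _ _ _)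
  have hA : Function.Surjective A := fun v => by
    obtain ⟨L, hL⟩ := inst_cv hι hs v
    exact ⟨L, funext hL⟩
  have hD : ∀ L, Function.Surjective (D L) := fun L v => by
    obtain ⟨ψ, hψ⟩ := inst_mx hp hι hs (fun n => (v n).1)
    obtain ⟨γ, hγ⟩ := inst_gh hp hι hs (fun n => (v n).2)
    exact ⟨(ψ, γ), funext fun n => Prod.ext (hψ n) (hγ L n)⟩
  have h1 : ∀ a : Vx F p, ind ((fun n => ((ptv a.1 (s n), (mv a.2.1 (s n),
      vals a.2.2 a.1 (s n))) : (Fin p.N → F) × Vo F p)) = y) =
      ind (A a.1 = fun n => (y n).1) * ind (D a.1 a.2 = fun n => (y n).2) := fun a => by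
    rw [← ind_and]
    refine ind_congr ⟨?_, ?_⟩
    · rintro rfl
      exact ⟨rfl, rfl⟩
    · rintro ⟨a, b⟩
      funext n
      exact Prod.ext (congrFun a n) (congrFun b n)
  simp only [h1]
  rw [av_prod]
  simp only [av_const_mul, count_fiber _ (hD _), av_mul_const, count_fiber _ hA]
  simp only [Fintype.card_prod, Fintype.card_fun, Fintype.card_fin]
  push_cast
  simp only [mul_pow, one_div, mul_inv]

omit [Algebra (ZMod 2) F] in
lemma inst_d3 {ι : Type} [Fintype ι] (hι : Fintype.card ι ≤ p.k) (i : Bool) {s : ι → F}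
    (hs : Function.Injective s) (y : (Cv F p × (Mx F p × Gh F p)) × (ι → Fin p.N → F)) :
    av (fun ω : Om F p => ind (((cv ω i, rr ω i), fun n => ptv (cv ω (!i)) (s n)) = y)) =
      1 / ((Fintype.card (Cv F p × (Mx F p × Gh F p)) : ℝ) *
        (Fintype.card (Fin p.N → F) : ℝ) ^ Fintype.card ι) := by
  let A : Om F p →+ (Cv F p × (Mx F p × Gh F p)) × (ι → Fin p.N → F) := AddMonoidHom.mk'
    (fun ω => ((cv ω i, rr ω i), fun n => ptv (cv ω (!i)) (s n))) fun L L' =>
      Prod.ext rfl (funext fun n => inst_ptv_add _ _ _)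
  have hA : Function.Surjective A := fun v => by
    obtain ⟨L, hL⟩ := inst_cv hι hs v.2
    refine ⟨fun j => if j = i then v.1 else (L, 0), Prod.ext ?_ (funext fun n => ?_)⟩
    · simp [A, cv, rr]
    · simp [A, cv, hL]
  have h := count_fiber A hA y
  rw [Fintype.card_prod _ (ι → Fin p.N → F), Fintype.card_fun (α := ι)] at h
  push_cast at h
  exact h

omit [Algebra (ZMod 2) F] in
lemma inst_l1 (i : Bool) (y : Cv F p × Cv F p) :
    av (fun ω : Om F p => ind ((cv ω (!i), cv ω i) = y)) =
      1 / Fintype.card (Cv F p × Cv F p) := by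
  let A : Om F p →+ Cv F p × Cv F p := AddMonoidHom.mk'
    (fun ω => (cv ω (!i), cv ω i)) fun L L' => rfl
  have hA : Function.Surjective A := fun v => by
    refine ⟨fun j => if j = i then (v.2, 0) else (v.1, 0), Prod.ext ?_ ?_⟩
    · simp [A, cv]
    · simp [A, cv]
  exact count_fiber A hA y

omit [Algebra (ZMod 2) F] in
lemma inst_l2 (y : (Bool → Gh F p) × ((Bool → Cv F p) × (Bool → Mx F p))) :
    av (fun ω : Om F p => ind ((gs ω, (cv ω, mx ω)) = y)) =
      1 / Fintype.card ((Bool → Gh F p) × ((Bool → Cv F p) × (Bool → Mx F p))) := by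
  let A : Om F p →+ (Bool → Gh F p) × ((Bool → Cv F p) × (Bool → Mx F p)) := AddMonoidHom.mk'
    (fun ω => (gs ω, (cv ω, mx ω))) fun L L' => rfl
  have hA : Function.Surjective A := fun v => ⟨fun j => (v.2.1 j, v.2.2 j, v.1 j), rfl⟩
  exact count_fiber A hA y

end

end Vale.Agent.P060
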