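import Vale.Agent.P060.Ent

/-! P060: abstract blocks, the model law and good posteriors. -/

namespace Vale.Agent.P060

open Finset Vale.Agent.P056.Sharp

noncomputable section

open scoped Classical

/-- a family of probability weights. -/
def IsKer {O C : Type} [Fintype C] (k : O → C → ℝ) : Prop := ∀ o, IsProb (k o)

/-- the law with uniform first coordinate and conditional law `k`. -/
def mP {O C : Type} [Fintype O] (k : O → C → ℝ) : O × C → ℝ :=
  fun b => k b.1 b.2 / Fintype.card O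

/-- four independent blocks; the block `z` is on side `z.1`. -/
def m4 {O C : Type} [Fintype O] (k : Bool → O → C → ℝ) : (Bool × Bool → O × C) → ℝ :=
  fun b => ∏ z, mP (k z.1) (b z)

/-- attach the position to a raw block. -/
def mkB {T Pf Vo Cr : Type} (s : T) (y : (Pf × Vo) × Cr) : ((T × Pf) × Vo) × Cr :=
  (((s, y.1.1), y.1.2), y.2)

variable {Ω T Pf Vo Cr LL RR : Type} [Fintype Ω] [Fintype T] [Fintype Pf] [Fintype Vo]
  [Fintype Cr] [Fintype LL] [Fintype RR]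

/-- a posterior law under which fresh blocks follow the model `k`. -/
structure GoodPost (L : Bool → Ω → LL) (R : Bool → Ω → RR) (Y : Ω → Bool → T → (Pf × Vo) × Cr)
    (ρ : Ω → ℝ) (k : Bool → (T × Pf) × Vo → Cr → ℝ) (δ Tc θ : ℝ) : Prop where
  prob : IsProb ρ
  ker : ∀ i, IsKer (k i)
  tv : ∀ φ : (Bool × Bool → ((T × Pf) × Vo) × Cr) → ℝ, (∀ b, |φ b| ≤ 1) →
    |Ex ρ (fun ω => av (fun τ : Bool × Bool → T => φ (fun z => mkB (τ z) (Y ω z.1 (τ z))))) -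
      Ex (m4 k) φ| ≤ δ
  trunc : ∀ i, Pr (mP (k i)) (fun b => Tc / Fintype.card Cr < k i b.1 b.2) ≤ 2 * δ
  unif : ∀ (i : Bool) (E : LL → ((T × Pf) × Vo) × Cr → RR → Prop),
    (∀ l b, av (fun r => ind (E l b r)) ≤ θ) →
    Ex ρ (fun ω => av (fun s : T => ind (E (L i ω) (mkB s (Y ω (!i) s)) (R i ω)))) ≤ δ

/-- spreadness hypotheses for the model lemma. -/
structure MHyp (ν : Ω → ℝ) (L : Bool → Ω → LL) (R : Bool → Ω → RR)
    (Y : Ω → Bool → T → (Pf × Vo) × Cr) (Lc : ℕ) (K M : ℝ) : Prop where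
  prob : IsProb ν
  hK : 1 ≤ K
  hM : 1 ≤ M
  hLc : 0 < Lc
  hpt : ∀ i s ω ω', L i ω = L i ω' → (Y ω i s).1.1 = (Y ω' i s).1.1
  d1 : ∀ (ι : Type) [Fintype ι], Fintype.card ι ≤ 2 * Lc → ∀ σ : ι → Bool × T,
    Function.Injective (fun n => (σ n).2) → ∀ ω,
    pm ν (fun ω n => Y ω (σ n).1 (σ n).2) ω ≤
      K / (Fintype.card ((Pf × Vo) × Cr) : ℝ) ^ Fintype.card ι
  d2 : ∀ (ι : Type) [Fintype ι], Fintype.card ι ≤ 2 * Lc → ∀ (i : Bool) (s : ι → T),
    Function.Injective s → ∀ ω,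
    pm ν (fun ω n => (Y ω i (s n)).1) ω ≤ M / (Fintype.card (Pf × Vo) : ℝ) ^ Fintype.card ι
  d3 : ∀ (ι : Type) [Fintype ι], Fintype.card ι ≤ 2 * Lc → ∀ (i : Bool) (s : ι → T),
    Function.Injective s → ∀ ω,
    pm ν (fun ω => ((L i ω, R i ω), fun n => (Y ω (!i) (s n)).1.1)) ω ≤
      K / ((Fintype.card (LL × RR) : ℝ) * (Fintype.card Pf : ℝ) ^ Fintype.card ι)
  d4 : ∀ i ω, pm ν (fun ω => (L i ω, R i ω)) ω ≤ M / (Fintype.card (LL × RR) : ℝ)
  coll : (2 * Lc : ℝ) ^ 3 * Real.log (Fintype.card ((Pf × Vo) × Cr)) ≤ Fintype.card T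

/-- the history observed at the positions `σ`. -/
def hist {W : Type} (W0 : Ω → W) (Y : Ω → Bool → T → (Pf × Vo) × Cr) {n : ℕ}
    (σ : Fin n → Bool × T) (ω : Ω) : W × (Fin n → (Pf × Vo) × Cr) :=
  (W0 ω, fun m => Y ω (σ m).1 (σ m).2)

end

end Vale.Agent.P060
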