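import Vale.Agent.P060.FwL

/-! P060: tools for the main term. -/

namespace Vale.Agent.P060

open Finset Polynomial Vale.Agent.P056.Sharp

noncomputable section

open scoped Classical

section gen

variable {X T Ω : Type} [Fintype X] [Fintype T] [Fintype Ω]

lemma mainT_delta (g : X → ℝ) (y : X) :
    av (fun x => g x * (Fintype.card X * ind (y = x))) = g y := by
  have : Nonempty X := ⟨y⟩
  have hc : (Fintype.card X : ℝ) ≠ 0 := by exact_mod_cast Fintype.card_ne_zero
  unfold av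
  rw [sum_eq_single y (fun b _ hb => by rw [ind_neg (Ne.symm hb)]; simp)
    (fun h => absurd (mem_univ y) h), ind_pos rfl]
  field_simp

/-- the density of an image law. -/
def mainT_den (ν : Ω → ℝ) (A : Ω → T → Prop) (Φ : Ω → T → X) (x : X) : ℝ :=
  Fintype.card X * av (fun τ => Pr ν (fun ω => A ω τ ∧ Φ ω τ = x))

lemma mainT_den_nonneg {ν : Ω → ℝ} (hν : ∀ ω, 0 ≤ ν ω) (A : Ω → T → Prop) (Φ : Ω → T → X)
    (x : X) : 0 ≤ mainT_den ν A Φ x :=
  mul_nonneg (Nat.cast_nonneg _) (av_nonneg fun _ => Pr_nonneg hν _)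

lemma mainT_den_test (ν : Ω → ℝ) (A : Ω → T → Prop) (Φ : Ω → T → X) (g : X → ℝ) :
    av (fun x => g x * mainT_den ν A Φ x) =
      av (fun τ => Ex ν (fun ω => ind (A ω τ) * g (Φ ω τ))) := by
  have h1 : ∀ x, g x * mainT_den ν A Φ x = av (fun τ => Ex ν (fun ω =>
      ind (A ω τ) * (g x * (Fintype.card X * ind (Φ ω τ = x))))) := fun x => by
    unfold mainT_den Pr
    rw [← av_const_mul, ← av_const_mul]
    refine av_congr fun τ => ?_
    rw [← Ex_const_mul, ← Ex_const_mul]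
    refine Ex_congr fun ω => ?_
    rw [ind_and]; ring
  simp only [h1]
  rw [av_comm]
  refine av_congr fun τ => ?_
  rw [av_Ex]
  refine Ex_congr fun ω => ?_
  rw [av_const_mul, mainT_delta]

lemma mainT_den_at (ν : Ω → ℝ) (A : Ω → T → Prop) (Φ : Ω → T → X) (x : X) (τ₀ : T)
    (h : ∀ ω τ, Φ ω τ = x → τ = τ₀) :
    mainT_den ν A Φ x =
      (Fintype.card X : ℝ) / Fintype.card T * Pr ν (fun ω => A ω τ₀ ∧ Φ ω τ₀ = x) := by
  unfold mainT_den av
  rw [sum_eq_single τ₀ (fun b _ hb => ?_) (fun h => absurd (mem_univ τ₀) h)]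
  · ring
  · unfold Pr
    rw [Ex_congr (g := fun _ => 0) fun ω => ind_neg fun h1 => hb (h ω b h1.2), Ex_zero]

lemma mainT_sign (f φ : X → ℝ) {c : ℝ}
    (h : ∀ g : X → ℝ, (∀ x, |g x| ≤ 1) → av (fun x => g x * f x) ≤ av (fun x => g x * φ x) + c) :
    av (fun x => |f x - φ x|) ≤ c := by
  have h1 := h (fun x => if φ x ≤ f x then 1 else -1) fun x => by split_ifs <;> simp
  have h2 : av (fun x => |f x - φ x|) =
      av (fun x => (if φ x ≤ f x then 1 else -1) * f x) -
        av (fun x => (if φ x ≤ f x then 1 else -1) * φ x) := by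
    rw [← av_sub]
    refine av_congr fun x => ?_
    split_ifs with hx
    · rw [abs_of_nonneg (sub_nonneg.2 hx)]; ring
    · rw [abs_of_neg (sub_neg.2 (not_le.1 hx))]; ring
  linarith

lemma mainT_indep {V Y Y' : Type} [Fintype V] [Fintype Y] [Fintype Y'] (Q : Y → ℝ) (Q' : Y' → ℝ)
    (E : Y → V → Prop) (E' : Y' → V → Prop) (Z : Y → Prop) (Z' : Y' → Prop)
    (h : ∀ y y', av (fun v => ind (E y v ∧ E' y' v)) = 1 / 256) :
    av (fun v => 16 * Ex Q (fun y => ind (E y v ∧ Z y)) *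
      (16 * Ex Q' (fun y' => ind (E' y' v ∧ Z' y')))) =
      Ex Q (fun y => ind (Z y)) * Ex Q' (fun y' => ind (Z' y')) := by
  have h1 : ∀ v, 16 * Ex Q (fun y => ind (E y v ∧ Z y)) *
      (16 * Ex Q' (fun y' => ind (E' y' v ∧ Z' y'))) = Ex Q (fun y => Ex Q' (fun y' =>
        ind (E y v ∧ E' y' v) * (256 * (ind (Z y) * ind (Z' y'))))) := fun v => by
    rw [← Ex_const_mul, ← Ex_mul_const]
    refine Ex_congr fun y => ?_
    rw [← Ex_const_mul, ← Ex_const_mul]
    refine Ex_congr fun y' => ?_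
    simp only [ind_and]; ring
  simp only [h1]
  rw [av_Ex, ← Ex_mul_const]
  refine Ex_congr fun y => ?_
  rw [av_Ex, ← Ex_const_mul]
  refine Ex_congr fun y' => ?_
  rw [av_mul_const, h]; ring

end gen

section blocks

variable {Pt Vo Cr : Type} [Fintype Pt] [Fintype Vo] [Fintype Cr]

omit [Fintype Pt] in
lemma mainT_c1_mul (k : Pt × Vo → Cr → ℝ) (x : Pt) (φ : (Pt × Vo) × Cr → ℝ) (c : ℝ) :
    c1 k x (fun b => φ b * c) = c1 k x φ * c := Ex_mul_const _ _ _

omit [Fintype Pt] in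
lemma mainT_mul_c1 (k : Pt × Vo → Cr → ℝ) (x : Pt) (φ : (Pt × Vo) × Cr → ℝ) (c : ℝ) :
    c1 k x (fun b => c * φ b) = c * c1 k x φ := Ex_const_mul _ _ _

lemma mainT_isProb4 [Nonempty Vo] {k : Bool → Pt × Vo → Cr → ℝ} (hk : ∀ i, IsKer (k i))
    (P : Bool × Bool → Pt) :
    IsProb (fun y : Bool × Bool → Vo × Cr => ∏ z, cP (k z.1) (P z) (y z)) := by
  refine ⟨fun y => prod_nonneg fun z _ => (isProb_cP (hk _) _).1 _, ?_⟩
  have h := MTools_Ex4 (false, false) (fun z => cP (k z.1) (P z)) (fun _ => 1)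
  simp only [Ex_const (isProb_cP (hk _) _)] at h
  simpa only [Ex, mul_one] using h

end blocks

variable {F : Type} [Field F] [Fintype F] [Algebra (ZMod 2) F] {p : Par}

abbrev mainT_X (F : Type) (p : Par) : Type := (Bool × Bool → Pt F p) × (Bool × Bool → Qv F)

omit [Field F] [Fintype F] [Algebra (ZMod 2) F] in
lemma mainT_sharp (v : Qv F) : sharp (sharp v) = v := by
  have h : ∀ a : ZMod 2, a + 1 + 1 = a := by decide
  simp only [sharp, h]

/-- the involution matching the two pairs. -/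
def mainT_e (F : Type) (p : Par) : mainT_X F p ≃ mainT_X F p :=
  Function.Involutive.toPerm (fun x => (tp x.1, fun z => sharp (x.2 z.swap))) fun _ =>
    Prod.ext rfl (funext fun _ => mainT_sharp _)

/-- points and side vectors of four blocks. -/
def mainT_pb (b : Bool × Bool → Blk F p) : mainT_X F p := (fun z => (b z).1.1, sv b)

lemma mainT_c4Z (k : Bool → Pt F p × Vo F p → Cr F p → ℝ) (M : Finset (Ix F p))
    (P : Bool × Bool → Pt F p) :
    c4 k P (fun b => ind (Z4 M b)) = zw k M (P (false, false)) (P (true, false)) *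
      zw k M (P (false, true)) (P (true, true)) := by
  rw [c4_eq k P (false, false)]
  have h : ∀ b1 b2 b3 b4 : Blk F p, ind (Z4 M (mk4 (false, false) b1 b2 b3 b4)) =
      ind (ZB M b1 b3) * ind (ZB M b2 b4) := fun b1 b2 b3 b4 => by
    rw [← ind_and, Z4, Bool.forall_bool]
    rfl
  simp only [h, mainT_c1_mul, mainT_mul_c1]
  rfl

lemma mainT_zw_nonneg {k : Bool → Pt F p × Vo F p → Cr F p → ℝ} (hk : ∀ i, IsKer (k i))
    (M : Finset (Ix F p)) (x y : Pt F p) : 0 ≤ zw k M x y :=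
  Ex_nonneg (isProb_cP (hk _) _).1 fun _ => Ex_nonneg (isProb_cP (hk _) _).1 fun _ => ind_nonneg _

lemma mainT_fw_nonneg {k : Bool → Pt F p × Vo F p → Cr F p → ℝ} (hk : ∀ i, IsKer (k i))
    (M : Finset (Ix F p)) (x : mainT_X F p) : 0 ≤ fw k M x :=
  mul_nonneg (by norm_num) (Ex_nonneg (mainT_isProb4 hk _).1 fun _ => ind_nonneg _)

lemma mainT_fw_le {k : Bool → Pt F p × Vo F p → Cr F p → ℝ} (hk : ∀ i, IsKer (k i))
    (M : Finset (Ix F p)) (x : mainT_X F p) : fw k M x ≤ 16 :=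
  mul_le_of_le_one_right (by norm_num) (Ex_le_const (mainT_isProb4 hk _) fun _ => ind_le_one _)

omit [Algebra (ZMod 2) F] in
lemma mainT_bits (a a' : Bool × Bool → ZMod 2) :
    av (fun v : Bool × Bool → Qv F => ind ((∀ z, a z = (v z).1.2.2) ∧
      ∀ z : Bool × Bool, a' z = (sharp (v z.swap)).1.2.2)) = 1 / 256 := by
  let A : (Bool × Bool → Qv F) →+ (Bool × Bool → ZMod 2) × (Bool × Bool → ZMod 2) :=
    AddMonoidHom.mk' (fun v => (fun z => (v z).1.2.2, fun z => (v z.swap).1.2.1)) fun _ _ => rfl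
  have hA : Function.Surjective A := fun c => ⟨fun z => ((0, c.2 z.swap, c.1 z), 0), rfl⟩
  have h := count_fiber A hA (a, fun z => a' z + 1)
  have h2 : (Fintype.card ((Bool × Bool → ZMod 2) × (Bool × Bool → ZMod 2)) : ℝ) = 256 := by
    simp only [Fintype.card_prod, Fintype.card_fun, ZMod.card, Fintype.card_bool]
    norm_num
  rw [h2] at h
  rw [← h]
  have h3 : ∀ x y : ZMod 2, x = y + 1 ↔ y = x + 1 := by decide
  refine av_congr fun v => ind_congr ?_
  rw [Prod.ext_iff, funext_iff, funext_iff]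
  exact and_congr (forall_congr' fun z => eq_comm) (forall_congr' fun z => h3 _ _)

lemma mainT_fw_at (k k' : Bool → Pt F p × Vo F p → Cr F p → ℝ) (M M' : Finset (Ix F p))
    (Q Q' : Bool × Bool → Pt F p) :
    av (fun v : Bool × Bool → Qv F => fw k M (Q, v) * fw k' M' (Q', fun z => sharp (v z.swap))) =
      c4 k Q (fun b => ind (Z4 M b)) * c4 k' Q' (fun b => ind (Z4 M' b)) := by
  have h := mainT_indep (V := Bool × Bool → Qv F)
    (fun y : Bool × Bool → Vo F p × Cr F p => ∏ z, cP (k z.1) (Q z) (y z))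
    (fun y : Bool × Bool → Vo F p × Cr F p => ∏ z, cP (k' z.1) (Q' z) (y z))
    (fun y v => ∀ z, (sv (fun z => ((Q z, (y z).1), (y z).2)) z).1.2.2 = (v z).1.2.2)
    (fun y v => ∀ z : Bool × Bool, (sv (fun z => ((Q' z, (y z).1), (y z).2)) z).1.2.2 =
      (sharp (v z.swap)).1.2.2)
    (fun y => Z4 M (fun z => ((Q z, (y z).1), (y z).2)))
    (fun y => Z4 M' (fun z => ((Q' z, (y z).1), (y z).2)))
    fun y y' => mainT_bits (fun z => (sv (fun z => ((Q z, (y z).1), (y z).2)) z).1.2.2)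
      (fun z => (sv (fun z => ((Q' z, (y' z).1), (y' z).2)) z).1.2.2)
  unfold fw c4
  dsimp only
  exact h

lemma mainT_fw_pair (k k' : Bool → Pt F p × Vo F p → Cr F p → ℝ) (M M' : Finset (Ix F p)) :
    av (fun x => fw k M x * fw k' M' (mainT_e F p x)) = av (fun Q : Bool × Bool → Pt F p =>
      zw k M (Q (false, false)) (Q (true, false)) * zw k M (Q (false, true)) (Q (true, true)) *
      (zw k' M' (Q (false, false)) (Q (false, true)) *
        zw k' M' (Q (true, false)) (Q (true, true)))) := by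
  rw [av_prod]
  refine av_congr fun Q => ?_
  have h := mainT_fw_at k k' M M' Q (tp Q)
  rw [mainT_c4Z, mainT_c4Z] at h
  exact h

lemma mainT_Fw_test (k : Bool → Pt F p × Vo F p → Cr F p → ℝ) (M : Finset (Ix F p))
    (g : mainT_X F p → ℝ) :
    av (fun x => g x * Fw k M x) = Ex (m4 k) (fun b => ind (Z4 M b) * g (mainT_pb b)) := by
  rw [Ex_m4, av_prod]
  refine av_congr fun Q => ?_
  unfold Fw c4
  simp only [← Ex_const_mul]
  rw [av_Ex]
  refine Ex_congr fun y => ?_
  set b : Bool × Bool → Blk F p := fun z => ((Q z, (y z).1), (y z).2)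
  refine Eq.trans (av_congr fun v => ?_) ((av_const_mul (ind (Z4 M b)) _).trans
    (congrArg _ (mainT_delta (fun v => g (Q, v)) (sv b))))
  rw [ind_and]; ring

end

end Vale.Agent.P060
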