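import Vale.Agent.P060.MDefs

/-! P060: entropy bounds along random positions. -/

namespace Vale.Agent.P060

open Finset Vale.Agent.P056.Sharp

noncomputable section

open scoped Classical

section Aux

variable {ι P Q : Type} [Fintype ι] [DecidableEq ι] [Fintype P] [Fintype Q]

lemma ModelA_av_eval [Nonempty P] (z : ι) (f : P → ℝ) :
    av (fun p : ι → P => f (p z)) = av f := by
  rw [← av_equiv (Equiv.funSplitAt z P).symm, av_prod]
  refine av_congr fun a => ?_
  simp only [Equiv.funSplitAt_symm_apply, dif_pos]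
  exact av_const _

lemma ModelA_av_coll [Nonempty P] {i j : ι} (h : j ≠ i) :
    av (fun s : ι → P => ind (s i = s j)) = 1 / Fintype.card P := by
  rw [← av_equiv (Equiv.funSplitAt i P).symm, av_prod, av_comm]
  refine (av_congr fun r => ?_).trans (av_const _)
  simp only [Equiv.funSplitAt_symm_apply, dif_pos, dif_neg h]
  exact av_ind_eq _

lemma ModelA_av_split (F : (ι → P × Q) → ℝ) :
    av F = av (fun s : ι → P => av (fun t : ι → Q => F (fun z => (s z, t z)))) := by
  rw [← av_equiv (Equiv.arrowProdEquivProdArrow ι (fun _ => P) (fun _ => Q)).symm, av_prod]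
  rfl

lemma ModelA_single_le {f : P → ℝ} (hf : ∀ x, 0 ≤ f x) (a : P) :
    f a ≤ Fintype.card P * av f := by
  have hc : (Fintype.card P : ℝ) ≠ 0 := by
    have : Nonempty P := ⟨a⟩
    exact_mod_cast Fintype.card_ne_zero
  unfold av
  rw [mul_div_cancel₀ _ hc]
  exact single_le_sum (fun x _ => hf x) (mem_univ a)

lemma ModelA_av_cons {n : ℕ} (F : (Fin (n + 1) → P) → ℝ) :
    av F = av (fun σ : Fin n → P => av (fun p : P => F (Fin.cons p σ))) := by
  rw [← av_equiv (Fin.consEquiv (fun _ => P)), av_prod, av_comm]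
  rfl

lemma ModelA_not_inj :
    av (fun s : ι → P => ind (¬ Function.Injective s)) ≤
      (Fintype.card ι : ℝ) ^ 2 / (2 * Fintype.card P) := by
  rcases isEmpty_or_nonempty P with hP | hP
  · refine av_le_const (by positivity) fun s => ?_
    have hs : Function.Injective s := fun a _ _ => (hP.false (s a)).elim
    rw [ind_neg (not_not.2 hs)]
    positivity
  have hc : (0 : ℝ) < Fintype.card P := by exact_mod_cast Fintype.card_pos
  have h1 : ∀ s : ι → P, ind (¬ Function.Injective s) ≤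
      (∑ q ∈ (univ : Finset ι).offDiag, ind (s q.1 = s q.2)) / 2 := by
    intro s
    by_cases hs : Function.Injective s
    · rw [ind_neg (not_not.2 hs)]
      exact div_nonneg (sum_nonneg fun _ _ => ind_nonneg _) (by norm_num)
    · rw [ind_pos hs]
      obtain ⟨i, j, hij, hne⟩ := Function.not_injective_iff.1 hs
      have hsub : ({(i, j), (j, i)} : Finset (ι × ι)) ⊆ (univ : Finset ι).offDiag := by
        intro q hq
        simp only [mem_insert, mem_singleton] at hq
        rcases hq with rfl | rfl <;> simp [mem_offDiag, hne, hne.symm]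
      have h2 := sum_le_sum_of_subset_of_nonneg (f := fun q : ι × ι => ind (s q.1 = s q.2)) hsub
        fun _ _ _ => ind_nonneg _
      rw [sum_pair (fun h => hne (congrArg Prod.fst h)), ind_pos hij, ind_pos hij.symm] at h2
      linarith
  refine (av_mono h1).trans ?_
  rw [av_div_const, av_sum,
    sum_congr rfl (fun q hq => ModelA_av_coll (P := P) (mem_offDiag.1 hq).2.2.symm),
    sum_const, nsmul_eq_mul]
  have h3 : (((univ : Finset ι).offDiag.card : ℕ) : ℝ) ≤ (Fintype.card ι : ℝ) ^ 2 := by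
    rw [offDiag_card, card_univ]
    have : Fintype.card ι * Fintype.card ι - Fintype.card ι ≤ Fintype.card ι ^ 2 := by
      rw [sq]; exact Nat.sub_le _ _
    exact_mod_cast this
  rw [div_le_div_iff₀ (by norm_num) (by positivity)]
  have : (1 : ℝ) / Fintype.card P * (2 * Fintype.card P) = 2 := by field_simp
  calc _ = (((univ : Finset ι).offDiag.card : ℕ) : ℝ) *
        (1 / Fintype.card P * (2 * Fintype.card P)) := by ring
    _ ≤ _ := by rw [this]; gcongr

end Aux

/-- collisions among independent uniform positions. -/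
theorem av_not_injective {ι T : Type} [Fintype ι] [Fintype T] :
    av (fun s : ι → T => ind (¬ Function.Injective s)) ≤
      (Fintype.card ι : ℝ) ^ 2 / (2 * Fintype.card T) :=
  ModelA_not_inj

variable {Ω T Pf Vo Cr LL RR W : Type} [Fintype Ω] [Fintype T] [Fintype Pf] [Fintype Vo]
  [Fintype Cr] [Fintype LL] [Fintype RR] [Nonempty T]
  {ν : Ω → ℝ} {L : Bool → Ω → LL} {R : Bool → Ω → RR} {Y : Ω → Bool → T → (Pf × Vo) × Cr}
  {Lc : ℕ} {K M w0 : ℝ} {W0 : Ω → W}

/-- mean entropy of the history of length `n`. -/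
def ModelA_G (ν : Ω → ℝ) (W0 : Ω → W) (Y : Ω → Bool → T → (Pf × Vo) × Cr) (n : ℕ) : ℝ :=
  av (fun σ : Fin n → Bool × T => Hent ν (hist W0 Y σ))

/-- mean entropy of a fresh block given the history of length `n`. -/
def ModelA_e (ν : Ω → ℝ) (W0 : Ω → W) (Y : Ω → Bool → T → (Pf × Vo) × Cr) (n : ℕ) : ℝ :=
  av (fun σ : Fin n → Bool × T => av (fun p : Bool × T =>
    Hc ν (fun ω => Y ω p.1 p.2) (hist W0 Y σ)))

omit [Fintype Ω] [Fintype T] [Fintype Pf] [Fintype Vo] [Fintype Cr] [Nonempty T] in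
lemma ModelA_hist_cons {n : ℕ} (σ : Fin n → Bool × T) (p : Bool × T) (ω ω' : Ω) :
    hist W0 Y (Fin.cons p σ : Fin (n + 1) → Bool × T) ω =
      hist W0 Y (Fin.cons p σ : Fin (n + 1) → Bool × T) ω' ↔
    (Y ω p.1 p.2, hist W0 Y σ ω) = (Y ω' p.1 p.2, hist W0 Y σ ω') := by
  simp only [hist, Prod.mk_inj, funext_iff, Fin.forall_fin_succ, Fin.cons_zero, Fin.cons_succ]
  tauto

omit [Fintype Pf] [Fintype Vo] [Fintype Cr] in
lemma ModelA_e_eq (n : ℕ) : ModelA_e ν W0 Y n = ModelA_G ν W0 Y (n + 1) - ModelA_G ν W0 Y n := by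
  unfold ModelA_e ModelA_G
  rw [ModelA_av_cons, ← av_sub]
  refine av_congr fun σ => ?_
  unfold Hc
  rw [av_sub, av_const]
  congr 1
  exact av_congr fun p => Hent_congr fun ω ω' => (ModelA_hist_cons σ p ω ω').symm

omit [Fintype Pf] [Fintype Vo] [Fintype Cr] in
lemma ModelA_e_succ (hν : IsProb ν) (n : ℕ) : ModelA_e ν W0 Y (n + 1) ≤ ModelA_e ν W0 Y n := by
  unfold ModelA_e
  rw [ModelA_av_cons]
  refine av_mono fun σ => av_le_of_forall fun q => av_mono fun p => ?_
  exact Hc_mono_right hν _ fun ω ω' h =>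
    congrArg Prod.snd ((ModelA_hist_cons σ q ω ω').1 h)

omit [Fintype Pf] [Fintype Vo] [Fintype Cr] in
lemma ModelA_e_anti (hν : IsProb ν) : Antitone (ModelA_e ν W0 Y) :=
  antitone_nat_of_succ_le (ModelA_e_succ hν)

lemma ModelA_e_le (hν : IsProb ν) (n : ℕ) :
    ModelA_e ν W0 Y n ≤ Real.log (Fintype.card ((Pf × Vo) × Cr)) :=
  av_le_of_forall fun _ => av_le_of_forall fun _ => Hc_le_log_card hν _ _

omit [Fintype Pf] [Fintype Vo] [Fintype Cr] in
lemma ModelA_G_zero : ModelA_G ν W0 Y 0 = Hent ν W0 := by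
  unfold ModelA_G
  refine (av_congr (g := fun _ => Hent ν W0) fun σ => Hent_congr fun ω ω' => ?_).trans
    (av_const _)
  simp only [hist, Prod.mk_inj, funext_iff]
  exact ⟨fun h => h.1, fun h => ⟨h, fun m => m.elim0⟩⟩

omit [Fintype Pf] [Fintype Vo] [Fintype Cr] [Nonempty T] in
lemma ModelA_G_add (κ : Type) [Fintype κ] [DecidableEq κ] (n : ℕ) :
    ModelA_G ν W0 Y (n + Fintype.card κ) =
      av (fun σ : Fin n → Bool × T => av (fun p : κ → Bool × T =>
        Hent ν (fun ω => ((fun z => Y ω (p z).1 (p z).2), hist W0 Y σ ω)))) := by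
  obtain ⟨e⟩ : Nonempty (Fin n ⊕ κ ≃ Fin (n + Fintype.card κ)) :=
    ⟨Fintype.equivOfCardEq (by simp)⟩
  unfold ModelA_G
  rw [← av_equiv ((Equiv.sumArrowEquivProdArrow (Fin n) κ (Bool × T)).symm.trans
    (Equiv.arrowCongr e (Equiv.refl _))), av_prod]
  refine av_congr fun σ => av_congr fun p => Hent_congr fun ω ω' => ?_
  simp only [hist, Prod.mk_inj, funext_iff]
  rw [← e.forall_congr_right, Sum.forall]
  simp only [Equiv.trans_apply, Equiv.arrowCongr_apply, Equiv.coe_refl, Function.comp,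
    Equiv.symm_apply_apply, id, Equiv.sumArrowEquivProdArrow_symm_apply_inl,
    Equiv.sumArrowEquivProdArrow_symm_apply_inr]
  tauto

lemma ModelA_G_ge (h : MHyp ν L R Y Lc K M) :
    (2 * Lc : ℝ) * Real.log (Fintype.card ((Pf × Vo) × Cr)) - ModelA_G ν W0 Y (2 * Lc) ≤
      Real.log K + 1 := by
  obtain ⟨ω₀, -⟩ := Ent_exists_ne h.prob
  obtain ⟨t₀⟩ := (inferInstance : Nonempty T)
  have : Nonempty ((Pf × Vo) × Cr) := ⟨Y ω₀ true t₀⟩
  have hc1 : (1 : ℝ) ≤ Fintype.card ((Pf × Vo) × Cr) := by exact_mod_cast Fintype.card_pos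
  have hT : (0 : ℝ) < Fintype.card T := by exact_mod_cast Fintype.card_pos
  have hl := Real.log_nonneg hc1
  have hK := Real.log_nonneg h.hK
  set l := Real.log (Fintype.card ((Pf × Vo) × Cr)) with hl'
  have h1 : ∀ σ : Fin (2 * Lc) → Bool × T, (2 * Lc : ℝ) * l - Hent ν (hist W0 Y σ) ≤
      Real.log K + (2 * Lc : ℝ) * l * ind (¬ Function.Injective (fun n => (σ n).2)) := by
    intro σ
    by_cases hs : Function.Injective (fun n => (σ n).2)
    · rw [ind_neg (not_not.2 hs), mul_zero, add_zero]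
      have h2 := le_Hent_of_pm_le h.prob _ (h.d1 (Fin (2 * Lc)) (by simp) σ hs)
      have h3 : Hent ν (fun ω n => Y ω (σ n).1 (σ n).2) ≤ Hent ν (hist W0 Y σ) :=
        Hent_mono h.prob fun ω ω' h => congrArg Prod.snd h
      rw [Real.log_div (by linarith [h.hK]) (by positivity), Real.log_pow, Fintype.card_fin] at h2
      push_cast at h2
      linarith
    · rw [ind_pos hs]
      have := Hent_nonneg h.prob (hist W0 Y σ)
      linarith
  have h2 := av_mono h1
  rw [av_sub, av_const, av_add, av_const, av_const_mul] at h2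
  have h3 : av (fun σ : Fin (2 * Lc) → Bool × T =>
      ind (¬ Function.Injective (fun n => (σ n).2))) ≤ (2 * Lc : ℝ) ^ 2 / (2 * Fintype.card T) := by
    rw [ModelA_av_split]
    refine av_le_of_forall fun s => ?_
    have := ModelA_not_inj (ι := Fin (2 * Lc)) (P := T)
    rw [Fintype.card_fin] at this
    push_cast at this
    exact this
  have h4 : (2 * Lc : ℝ) * l * ((2 * Lc : ℝ) ^ 2 / (2 * Fintype.card T)) ≤ 1 := by
    rw [← mul_div_assoc, div_le_one (by positivity)]
    have := h.coll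
    nlinarith
  have h5 := mul_le_mul_of_nonneg_left h3 (by positivity : 0 ≤ (2 * Lc : ℝ) * l)
  unfold ModelA_G
  linarith

lemma ModelA_def_le (h : MHyp ν L R Y Lc K M) (hW : Hent ν W0 ≤ w0) {n : ℕ} (hn : n ≤ Lc) :
    Real.log (Fintype.card ((Pf × Vo) × Cr)) - ModelA_e ν W0 Y n ≤
      (Real.log K + w0 + 1) / Lc := by
  have hL : (0 : ℝ) < Lc := by exact_mod_cast h.hLc
  set l := Real.log (Fintype.card ((Pf × Vo) × Cr)) with hl'
  have h1 : ∑ m ∈ range (2 * Lc), ModelA_e ν W0 Y m =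
      ModelA_G ν W0 Y (2 * Lc) - ModelA_G ν W0 Y 0 := by
    simp only [ModelA_e_eq]
    exact sum_range_sub _ _
  have h2 := ModelA_G_ge (W0 := W0) h
  rw [ModelA_G_zero, two_mul, sum_range_add, ← two_mul] at h1
  have h3 : ∑ m ∈ range Lc, ModelA_e ν W0 Y m ≤ Lc * l := by
    have := sum_le_card_nsmul (range Lc) (fun m => ModelA_e ν W0 Y m) l
      fun m _ => ModelA_e_le h.prob m
    simpa using this
  have h4 : ∑ m ∈ range Lc, ModelA_e ν W0 Y (Lc + m) ≤ Lc * ModelA_e ν W0 Y n := by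
    have := sum_le_card_nsmul (range Lc) (fun m => ModelA_e ν W0 Y (Lc + m)) (ModelA_e ν W0 Y n)
      fun m _ => ModelA_e_anti h.prob (by omega)
    simpa using this
  rw [le_div_iff₀ hL]
  nlinarith

theorem modelA_tc (h : MHyp ν L R Y Lc K M) (hW : Hent ν W0 ≤ w0) (I : ℕ) (hI : 0 < I)
    (hIL : 4 * I ≤ Lc) : ∃ n ≤ 4 * I,
    av (fun σ : Fin n → Bool × T => av (fun τ : Bool × Bool → T =>
      ∑ z : Bool × Bool, Hc ν (fun ω => Y ω z.1 (τ z)) (hist W0 Y σ) -
        Hc ν (fun ω (z : Bool × Bool) => Y ω z.1 (τ z)) (hist W0 Y σ))) ≤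
      64 * (Real.log K + w0 + 1) / (Lc * I) := by
  have hL : (0 : ℝ) < Lc := by exact_mod_cast h.hLc
  have hI' : (0 : ℝ) < I := by exact_mod_cast hI
  have h1 : ∑ i ∈ range I, (ModelA_e ν W0 Y (4 * i) - ModelA_e ν W0 Y (4 * (i + 1))) ≤
      ∑ _i ∈ range I, (Real.log K + w0 + 1) / (Lc * I) := by
    rw [sum_range_sub' (fun i => ModelA_e ν W0 Y (4 * i)), sum_const, card_range, nsmul_eq_mul]
    have h2 := ModelA_def_le h hW hIL
    have h3 := ModelA_e_le (W0 := W0) (Y := Y) h.prob (4 * 0)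
    have h4 : (I : ℝ) * ((Real.log K + w0 + 1) / (Lc * I)) = (Real.log K + w0 + 1) / Lc := by
      field_simp
    linarith
  obtain ⟨i, hi, hi2⟩ := exists_le_of_sum_le (nonempty_range_iff.2 hI.ne') h1
  refine ⟨4 * i, by have := mem_range.1 hi; omega, ?_⟩
  set n := 4 * i with hn
  have h2 : ∀ σ : Fin n → Bool × T, av (fun τ : Bool × Bool → T =>
      ∑ z : Bool × Bool, Hc ν (fun ω => Y ω z.1 (τ z)) (hist W0 Y σ) -
        Hc ν (fun ω (z : Bool × Bool) => Y ω z.1 (τ z)) (hist W0 Y σ)) ≤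
      16 * av (fun p : Bool × Bool → Bool × T =>
        ∑ z : Bool × Bool, Hc ν (fun ω => Y ω (p z).1 (p z).2) (hist W0 Y σ) -
          Hc ν (fun ω (z : Bool × Bool) => Y ω (p z).1 (p z).2) (hist W0 Y σ)) := by
    intro σ
    rw [ModelA_av_split]
    have h3 := ModelA_single_le (P := Bool × Bool → Bool)
      (f := fun s => av (fun τ : Bool × Bool → T =>
        ∑ z : Bool × Bool, Hc ν (fun ω => Y ω (s z) (τ z)) (hist W0 Y σ) -
          Hc ν (fun ω (z : Bool × Bool) => Y ω (s z) (τ z)) (hist W0 Y σ)))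
      (fun s => av_nonneg fun τ => sub_nonneg.2
        (Hc_pi_le h.prob (fun z ω => Y ω (s z) (τ z)) (hist W0 Y σ))) Prod.fst
    have h4 : (Fintype.card (Bool × Bool → Bool) : ℝ) = 16 := by simp
    rw [h4] at h3
    exact h3
  refine (av_mono h2).trans ?_
  rw [av_const_mul]
  have h3 : av (fun σ : Fin n → Bool × T => av (fun p : Bool × Bool → Bool × T =>
        ∑ z : Bool × Bool, Hc ν (fun ω => Y ω (p z).1 (p z).2) (hist W0 Y σ) -
          Hc ν (fun ω (z : Bool × Bool) => Y ω (p z).1 (p z).2) (hist W0 Y σ))) =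
      4 * ModelA_e ν W0 Y n - (ModelA_G ν W0 Y (n + 4) - ModelA_G ν W0 Y n) := by
    have h4 := ModelA_G_add (ν := ν) (W0 := W0) (Y := Y) (Bool × Bool) n
    have h5 : Fintype.card (Bool × Bool) = 4 := by simp
    rw [h5] at h4
    rw [h4]
    unfold ModelA_e ModelA_G
    rw [← av_const_mul, ← av_sub, ← av_sub]
    refine av_congr fun σ => ?_
    rw [av_sub, av_sum, sum_congr rfl fun z _ =>
      ModelA_av_eval z (fun p : Bool × T => Hc ν (fun ω => Y ω p.1 p.2) (hist W0 Y σ)),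
      sum_const, card_univ, h5, nsmul_eq_mul]
    congr 1
    unfold Hc
    rw [av_sub, av_const]
  rw [h3]
  have e0 := ModelA_e_eq (ν := ν) (W0 := W0) (Y := Y) n
  have e1 := ModelA_e_eq (ν := ν) (W0 := W0) (Y := Y) (n + 1)
  have e2 := ModelA_e_eq (ν := ν) (W0 := W0) (Y := Y) (n + 1 + 1)
  have e3 := ModelA_e_eq (ν := ν) (W0 := W0) (Y := Y) (n + 1 + 1 + 1)
  have a0 := ModelA_e_anti (W0 := W0) (Y := Y) h.prob (show n ≤ 4 * (i + 1) by omega)
  have a1 := ModelA_e_anti (W0 := W0) (Y := Y) h.prob (show n + 1 ≤ 4 * (i + 1) by omega)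
  have a2 := ModelA_e_anti (W0 := W0) (Y := Y) h.prob (show n + 1 + 1 ≤ 4 * (i + 1) by omega)
  have a3 := ModelA_e_anti (W0 := W0) (Y := Y) h.prob (show n + 1 + 1 + 1 ≤ 4 * (i + 1) by omega)
  have h6 : 64 * (Real.log K + w0 + 1) / (Lc * I) = 64 * ((Real.log K + w0 + 1) / (Lc * I)) := by
    ring
  rw [show n + 4 = n + 1 + 1 + 1 + 1 from rfl, h6]
  linarith

theorem modelA_blk (h : MHyp ν L R Y Lc K M) (hW : Hent ν W0 ≤ w0) (n : ℕ) (hn : n ≤ Lc)
    (i : Bool) :
    av (fun σ : Fin n → Bool × T => av (fun s : T =>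
      Real.log (Fintype.card ((Pf × Vo) × Cr)) - Hc ν (fun ω => Y ω i s) (hist W0 Y σ))) ≤
      2 * (Real.log K + w0 + 1) / Lc := by
  have h1 := ModelA_def_le h hW hn
  have h2 : ∀ σ : Fin n → Bool × T, av (fun s : T =>
      Real.log (Fintype.card ((Pf × Vo) × Cr)) - Hc ν (fun ω => Y ω i s) (hist W0 Y σ)) ≤
      2 * (Real.log (Fintype.card ((Pf × Vo) × Cr)) -
        av (fun p : Bool × T => Hc ν (fun ω => Y ω p.1 p.2) (hist W0 Y σ))) := by
    intro σ
    have h3 := ModelA_single_le (P := Bool) (f := fun j => av (fun s : T =>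
      Real.log (Fintype.card ((Pf × Vo) × Cr)) - Hc ν (fun ω => Y ω j s) (hist W0 Y σ)))
      (fun j => av_nonneg fun s => sub_nonneg.2 (Hc_le_log_card h.prob _ _)) i
    have h4 := av_prod (fun p : Bool × T => Real.log (Fintype.card ((Pf × Vo) × Cr)) -
      Hc ν (fun ω => Y ω p.1 p.2) (hist W0 Y σ))
    rw [av_sub, av_const] at h4
    rw [h4]
    rw [Fintype.card_bool, Nat.cast_ofNat] at h3
    exact h3
  refine (av_mono h2).trans ?_
  rw [av_const_mul, av_sub, av_const, mul_div_assoc]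
  exact mul_le_mul_of_nonneg_left h1 (by norm_num)

end

end Vale.Agent.P060
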