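import Vale.Agent.P060.ModelUA

/-! P060: entropy bounds for the own parts and for the hidden data; the group lemma. -/

namespace Vale.Agent.P060

open Finset Vale.Agent.P056.Sharp

noncomputable section

open scoped Classical

section

variable {Ω T Pf Vo Cr LL RR W : Type} [Fintype Ω] [Fintype T] [Fintype Pf] [Fintype Vo]
  [Fintype Cr] [Fintype LL] [Fintype RR] [Nonempty T]
  {ν : Ω → ℝ} {L : Bool → Ω → LL} {R : Bool → Ω → RR} {Y : Ω → Bool → T → (Pf × Vo) × Cr}
  {Lc : ℕ} {K M w0 : ℝ} {W0 : Ω → W}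

omit [Nonempty T] in
lemma ModelU_own1 (h : MHyp ν L R Y Lc K M) (hW : Hent ν W0 ≤ w0) {n : ℕ} (i : Bool)
    (σ : Fin n → Bool × T) (s : Fin Lc → T) :
    ∑ m, (Real.log (Fintype.card (Pf × Vo)) - Hc ν (fun ω => (Y ω i (s m)).1) (hist W0 Y σ)) ≤
      w0 + (Lc * Real.log (Fintype.card (Pf × Vo)) - Hent ν (fun ω m => (Y ω i (s m)).1)) +
        (n * Real.log (Fintype.card ((Pf × Vo) × Cr)) -
          Hc ν (fun ω m => Y ω (σ m).1 (σ m).2) (fun ω m => (Y ω i (s m)).1)) := by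
  have hν := h.prob
  have h1 := Hc_pi_le hν (fun m ω => (Y ω i (s m)).1) (hist W0 Y σ)
  have h2 := Hc_le_add hν (fun ω m => (Y ω i (s m)).1) (fun ω m => Y ω (σ m).1 (σ m).2) W0
  have h3 : Hc ν (fun ω m => (Y ω i (s m)).1) (fun ω => (fun m => Y ω (σ m).1 (σ m).2, W0 ω)) =
      Hc ν (fun ω m => (Y ω i (s m)).1) (hist W0 Y σ) :=
    Hc_congr (fun ω ω' => by unfold hist; rw [Prod.mk_inj, Prod.mk_inj, and_comm])
      fun _ _ _ => Iff.rfl
  have h4 := ModelU_pi hν (fun ω m => Y ω (σ m).1 (σ m).2)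
  have h5 := ModelU_swap (ν := ν) (fun ω m => (Y ω i (s m)).1) (fun ω m => Y ω (σ m).1 (σ m).2)
  rw [Fintype.card_fin] at h4
  rw [h3] at h2
  rw [sum_sub_distrib, sum_const, card_univ, Fintype.card_fin, nsmul_eq_mul]
  unfold Hc at h2 ⊢
  unfold Hc at h1
  linarith

lemma ModelU_coll (h : MHyp ν L R Y Lc K M) {a b : ℝ} (ha0 : 0 ≤ a) (ha : a ≤ 2 * Lc) (hb0 : 0 ≤ b)
    (hb : b ≤ 2 * Lc) {l : ℝ} (hl0 : 0 ≤ l) (hl : l ≤ Real.log (Fintype.card ((Pf × Vo) × Cr))) :
    a * l * (b ^ 2 / (2 * Fintype.card T)) ≤ 1 := by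
  have hT : (0 : ℝ) < Fintype.card T := by exact_mod_cast Fintype.card_pos
  have h1 := h.coll
  have h2 : a * l * b ^ 2 ≤ 2 * Lc * Real.log (Fintype.card ((Pf × Vo) × Cr)) * (2 * Lc) ^ 2 :=
    mul_le_mul (mul_le_mul ha hl hl0 (ha0.trans ha)) (pow_le_pow_left₀ hb0 hb 2) (by positivity)
      (mul_nonneg (ha0.trans ha) (hl0.trans hl))
  rw [← mul_div_assoc, div_le_one (by positivity)]
  linarith

lemma ModelU_own2 (h : MHyp ν L R Y Lc K M) (i : Bool) :
    av (fun s : Fin Lc → T =>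
      Lc * Real.log (Fintype.card (Pf × Vo)) - Hent ν (fun ω m => (Y ω i (s m)).1)) ≤
      Real.log M + 1 := by
  have hν := h.prob
  obtain ⟨ω₀, -⟩ := Ent_exists_ne hν
  have hO : Nonempty (Pf × Vo) := ⟨(Y ω₀ i (Classical.arbitrary T)).1⟩
  have hC : Nonempty Cr := ⟨(Y ω₀ i (Classical.arbitrary T)).2⟩
  have hc : (0 : ℝ) < Fintype.card (Pf × Vo) := by exact_mod_cast Fintype.card_pos
  have hM := Real.log_nonneg h.hM
  have hl := ModelU_log_nonneg (Pf × Vo)
  have h1 : av (fun s : Fin Lc → T =>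
      Lc * Real.log (Fintype.card (Pf × Vo)) - Hent ν (fun ω m => (Y ω i (s m)).1)) ≤
      av (fun s : Fin Lc → T =>
        Real.log M + Lc * Real.log (Fintype.card (Pf × Vo)) * ind (¬ Function.Injective s)) := by
    refine av_mono fun s => ?_
    by_cases hs : Function.Injective s
    · have h2 := ModelU_low hν _ h.hM (pow_pos hc _)
        (h.d2 (Fin Lc) (by rw [Fintype.card_fin]; omega) i s hs)
      rw [Real.log_pow, Fintype.card_fin] at h2
      rw [ind_neg (not_not.2 hs)]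
      linarith
    · have h2 := Hent_nonneg hν (fun ω m => (Y ω i (s m)).1)
      rw [ind_pos hs]
      linarith
  rw [av_add, av_const, av_const_mul] at h1
  have h2 := ModelU_ninj (ι := Fin Lc) (T := T)
  rw [Fintype.card_fin] at h2
  have hL : (0 : ℝ) ≤ Lc := Nat.cast_nonneg _
  have h3 := ModelU_coll h hL (by linarith) hL (by linarith) hl
    (by linarith [ModelU_log_prod (Pf × Vo) Cr, ModelU_log_nonneg Cr])
  have h4 := mul_le_mul_of_nonneg_left h2 (mul_nonneg hL hl)
  linarith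

lemma ModelU_own3 (h : MHyp ν L R Y Lc K M) (n G : ℕ) (hn : G * n ≤ Lc) (i : Bool) :
    G * av (fun s : Fin Lc → T => av (fun σ : Fin n → Bool × T =>
      n * Real.log (Fintype.card ((Pf × Vo) × Cr)) -
        Hc ν (fun ω m => Y ω (σ m).1 (σ m).2) (fun ω m => (Y ω i (s m)).1))) ≤
      Real.log K + 1 := by
  have hν := h.prob
  obtain ⟨ω₀, -⟩ := Ent_exists_ne hν
  have hO : Nonempty (Pf × Vo) := ⟨(Y ω₀ i (Classical.arbitrary T)).1⟩
  have hC : Nonempty Cr := ⟨(Y ω₀ i (Classical.arbitrary T)).2⟩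
  have hc : (0 : ℝ) < Fintype.card ((Pf × Vo) × Cr) := by exact_mod_cast Fintype.card_pos
  have hl := ModelU_log_nonneg ((Pf × Vo) × Cr)
  have hcard : Fintype.card (Fin Lc ⊕ Fin G × Fin n) = Lc + G * n := by simp
  have hGn : (G * n : ℝ) ≤ Lc := by exact_mod_cast hn
  have hGn0 : (0 : ℝ) ≤ G * n := by positivity
  have h1 := ModelU_grp G (fun (s : Fin Lc → T) (σ : Fin n → Bool × T) =>
      n * Real.log (Fintype.card ((Pf × Vo) × Cr)) -
        Hc ν (fun ω m => Y ω (σ m).1 (σ m).2) (fun ω m => (Y ω i (s m)).1))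
    (fun s zs => ¬ Function.Injective (Sum.elim s (fun p : Fin G × Fin n => (zs p.1 p.2).2)))
    (a := Real.log K) (b := G * n * Real.log (Fintype.card ((Pf × Vo) × Cr)))
    (p := (Lc + G * n : ℝ) ^ 2 / (2 * Fintype.card T)) (Real.log_nonneg h.hK) (by positivity)
    ?_ ?_ ?_
  · have h2 := ModelU_coll h hGn0 (by linarith) (b := Lc + G * n) (by linarith) (by linarith) hl
      le_rfl
    linarith
  · intro s zs hb
    have hb' := not_not.1 hb
    have h2 := ModelU_low hν _ h.hK (pow_pos hc _) (h.d1 (Fin Lc ⊕ Fin G × Fin n)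
      (by rw [hcard]; omega) (Sum.elim (fun m => (i, s m)) (fun p => zs p.1 p.2))
      (by
        convert hb' using 2 with u
        cases u <;> rfl))
    have h3 := Hc_pi_le hν (fun g ω m => Y ω (zs g m).1 (zs g m).2) (fun ω m => (Y ω i (s m)).1)
    have h4 := Hent_mono hν
      (X := fun ω => ((fun g m => Y ω (zs g m).1 (zs g m).2, fun m => (Y ω i (s m)).1),
        fun m => (Y ω i (s m)).2))
      (Y := fun ω u => Y ω (Sum.elim (fun m => (i, s m)) (fun p : Fin G × Fin n => zs p.1 p.2) u).1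
        (Sum.elim (fun m => (i, s m)) (fun p : Fin G × Fin n => zs p.1 p.2) u).2)
      (fun ω ω' hh => by
        simp only [Prod.mk_inj] at hh
        funext u
        rcases u with m | p
        · exact Prod.ext (congrFun hh.1.2 m) (congrFun hh.2 m)
        · exact congrFun (congrFun hh.1.1 p.1) p.2)
    have h5 := ModelU_pair hν
      (fun ω => (fun g m => Y ω (zs g m).1 (zs g m).2, fun m => (Y ω i (s m)).1))
      (fun ω m => (Y ω i (s m)).2)
    have h6 := ModelU_pi hν (fun ω m => (Y ω i (s m)).2)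
    have h7 := ModelU_pi hν (fun ω m => (Y ω i (s m)).1)
    have h8 := ModelU_log_prod (Pf × Vo) Cr
    rw [Real.log_pow, hcard] at h2
    rw [Fintype.card_fin] at h6 h7
    rw [sum_sub_distrib, sum_const, card_univ, Fintype.card_fin, nsmul_eq_mul]
    have h9 : Hc ν (fun ω g m => Y ω (zs g m).1 (zs g m).2) (fun ω m => (Y ω i (s m)).1) =
      Hent ν (fun ω => (fun g m => Y ω (zs g m).1 (zs g m).2, fun m => (Y ω i (s m)).1)) -
        Hent ν (fun ω m => (Y ω i (s m)).1) := rfl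
    push_cast at h2
    rw [h8] at h2 ⊢
    linarith
  · intro s zs
    rw [sum_sub_distrib, sum_const, card_univ, Fintype.card_fin, nsmul_eq_mul, mul_assoc]
    exact sub_le_self _ (sum_nonneg fun g _ => Hc_nonneg hν _ _)
  · have h2 : ∀ s : Fin Lc → T, av (fun zs : Fin G → Fin n → Bool × T =>
        ind (¬ Function.Injective (Sum.elim s (fun p : Fin G × Fin n => (zs p.1 p.2).2)))) =
        av (fun v : Fin G × Fin n → T => ind (¬ Function.Injective (Sum.elim s v))) := by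
      intro s
      rw [← ModelU_snd (fun v : Fin G × Fin n → T => ind (¬ Function.Injective (Sum.elim s v))),
        ← ModelU_curry]
    have h3 := ModelU_ninj (ι := Fin Lc ⊕ Fin G × Fin n) (T := T)
    rw [← ModelU_sum, hcard] at h3
    push_cast at h3
    simp only [h2]
    exact h3

theorem modelA_own (h : MHyp ν L R Y Lc K M) (hW : Hent ν W0 ≤ w0) (n G : ℕ) (hG : 0 < G)
    (hn : G * n ≤ Lc) (i : Bool) :
    av (fun σ : Fin n → Bool × T => av (fun s : T =>
      Real.log (Fintype.card (Pf × Vo)) - Hc ν (fun ω => (Y ω i s).1) (hist W0 Y σ))) ≤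
      (w0 + Real.log M + (Real.log K + 1) / G + 1) / Lc := by
  have hL : (0 : ℝ) < Lc := by exact_mod_cast h.hLc
  have hG' : (0 : ℝ) < G := by exact_mod_cast hG
  have h1 := av_mono fun σ : Fin n → Bool × T => av_mono fun s : Fin Lc → T =>
    ModelU_own1 h hW i σ s
  have h2 : ∀ (σ : Fin n → Bool × T) (m : Fin Lc), av (fun s : Fin Lc → T =>
      Real.log (Fintype.card (Pf × Vo)) - Hc ν (fun ω => (Y ω i (s m)).1) (hist W0 Y σ)) =
      av (fun s : T =>
        Real.log (Fintype.card (Pf × Vo)) - Hc ν (fun ω => (Y ω i s).1) (hist W0 Y σ)) :=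
    fun σ m => ModelU_eval m (fun s : T =>
      Real.log (Fintype.card (Pf × Vo)) - Hc ν (fun ω => (Y ω i s).1) (hist W0 Y σ))
  simp only [av_sum, h2, sum_const, card_univ, Fintype.card_fin, nsmul_eq_mul, av_add,
    av_const, av_const_mul (Lc : ℝ)] at h1
  have h3 := ModelU_own2 h i
  have h4 := ModelU_own3 h n G hn i
  rw [av_comm, mul_comm, ← le_div_iff₀ hG'] at h4
  rw [le_div_iff₀ hL]
  linarith

omit [Nonempty T] in
lemma ModelU_U1 (h : MHyp ν L R Y Lc K M) (hW : Hent ν W0 ≤ w0) {n : ℕ} (i : Bool)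
    (σ : Fin n → Bool × T) (s : T) (t : Fin (n + 1) → T) (ht0 : t 0 = s)
    (ht : ∀ m, t m.succ = (σ m).2) :
    Real.log (Fintype.card RR) - Hc ν (R i) (fun ω => ((L i ω, Y ω (!i) s), hist W0 Y σ ω)) ≤
      w0 + (n + 1) * Real.log (Fintype.card (Vo × Cr)) + Real.log M +
        ((n + 1) * Real.log (Fintype.card Pf) -
          Hc ν (fun ω j => (Y ω (!i) (t j)).1.1) (fun ω => (L i ω, R i ω))) := by
  have hν := h.prob
  obtain ⟨ω₀, -⟩ := Ent_exists_ne hν
  have hLL : Nonempty LL := ⟨L i ω₀⟩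
  have hRR : Nonempty RR := ⟨R i ω₀⟩
  have hc : (0 : ℝ) < Fintype.card (LL × RR) := by exact_mod_cast Fintype.card_pos
  let b : Fin (n + 1) → Bool := Fin.cons (!i) fun m => (σ m).1
  let VC : Ω → Fin (n + 1) → Vo × Cr := fun ω j => ((Y ω (b j) (t j)).1.2, (Y ω (b j) (t j)).2)
  let PF : Ω → Fin (n + 1) → Pf := fun ω j => (Y ω (!i) (t j)).1.1
  have h1 := Hc_mono_right hν (R i) (Y := fun ω => ((L i ω, Y ω (!i) s), hist W0 Y σ ω))
    (Z := fun ω => (((L i ω, PF ω), VC ω), W0 ω)) fun ω ω' hh => by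
      simp only [Prod.mk_inj] at hh
      obtain ⟨⟨⟨e1, e2⟩, e3⟩, e4⟩ := hh
      have e5 : ∀ j, Y ω (b j) (t j) = Y ω' (b j) (t j) := fun j => by
        have e6 := Prod.mk_inj.1 (congrFun e3 j)
        refine Prod.ext (Prod.ext ?_ e6.1) e6.2
        by_cases hb : b j = i
        · rw [hb]
          exact h.hpt i _ ω ω' e1
        · rw [Bool.eq_not.2 hb]
          exact congrFun e2 j
      refine Prod.ext (Prod.ext e1 ?_) (Prod.ext e4 (funext fun m => ?_))
      · have := e5 0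
        rwa [ht0] at this
      · have := e5 m.succ
        rwa [ht] at this
  have h2 := Hc_le_add hν (R i) (fun ω => ((L i ω, PF ω), VC ω)) W0
  have h3 := Hc_le_add hν (R i) (fun ω => (L i ω, PF ω)) VC
  have h4 := ModelU_pi hν VC
  have h5 := ModelU_pi hν PF
  have h6 := ModelU_pair hν (L i) PF
  have h7 := ModelU_card hν (L i)
  have h8 := ModelU_low hν _ h.hM hc (h.d4 i)
  have h9 : Hent ν (fun ω => (R i ω, (L i ω, PF ω))) =
      Hent ν (fun ω => (PF ω, (L i ω, R i ω))) :=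
    Hent_congr fun _ _ => by simp only [Prod.mk_inj]; tauto
  have h10 : Hc ν (R i) (fun ω => (L i ω, PF ω)) =
    Hent ν (fun ω => (R i ω, (L i ω, PF ω))) - Hent ν (fun ω => (L i ω, PF ω)) := rfl
  have h11 : Hc ν (fun ω j => (Y ω (!i) (t j)).1.1) (fun ω => (L i ω, R i ω)) =
    Hent ν (fun ω => (PF ω, (L i ω, R i ω))) - Hent ν (fun ω => (L i ω, R i ω)) := rfl
  rw [Fintype.card_fin] at h4 h5
  rw [ModelU_log_prod] at h8
  push_cast at h4 h5
  linarith

lemma ModelU_U2 (h : MHyp ν L R Y Lc K M) (n G : ℕ) (hn : G * (n + 1) ≤ 2 * Lc) (i : Bool) :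
    G * av (fun t : Fin (n + 1) → T => (n + 1) * Real.log (Fintype.card Pf) -
      Hc ν (fun ω j => (Y ω (!i) (t j)).1.1) (fun ω => (L i ω, R i ω))) ≤ Real.log K + 1 := by
  have hν := h.prob
  obtain ⟨ω₀, -⟩ := Ent_exists_ne hν
  have hP : Nonempty Pf := ⟨(Y ω₀ i (Classical.arbitrary T)).1.1⟩
  have hV : Nonempty Vo := ⟨(Y ω₀ i (Classical.arbitrary T)).1.2⟩
  have hC : Nonempty Cr := ⟨(Y ω₀ i (Classical.arbitrary T)).2⟩
  have hLR : Nonempty (LL × RR) := ⟨(L i ω₀, R i ω₀)⟩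
  have hc : (0 : ℝ) < Fintype.card Pf := by exact_mod_cast Fintype.card_pos
  have hc' : (0 : ℝ) < Fintype.card (LL × RR) := by exact_mod_cast Fintype.card_pos
  have hl := ModelU_log_nonneg Pf
  have hcard : Fintype.card (Fin G × Fin (n + 1)) = G * (n + 1) := by simp
  have hGn : (G * (n + 1) : ℝ) ≤ 2 * Lc := by exact_mod_cast hn
  have hGn0 : (0 : ℝ) ≤ G * (n + 1) := by positivity
  have h1 := ModelU_grp G (fun (_ : Unit) (t : Fin (n + 1) → T) =>
      (n + 1) * Real.log (Fintype.card Pf) -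
        Hc ν (fun ω j => (Y ω (!i) (t j)).1.1) (fun ω => (L i ω, R i ω)))
    (fun _ zs => ¬ Function.Injective (fun p : Fin G × Fin (n + 1) => zs p.1 p.2))
    (a := Real.log K) (b := G * (n + 1) * Real.log (Fintype.card Pf))
    (p := (G * (n + 1) : ℝ) ^ 2 / (2 * Fintype.card T)) (Real.log_nonneg h.hK) (by positivity)
    ?_ ?_ ?_
  · have h2 := ModelU_coll h hGn0 hGn hGn0 hGn hl (by
      linarith [ModelU_log_prod (Pf × Vo) Cr, ModelU_log_nonneg Cr, ModelU_log_prod Pf Vo,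
        ModelU_log_nonneg Vo])
    rw [av_const] at h1
    linarith
  · intro _ zs hb
    have h2 := ModelU_low hν _ h.hK (mul_pos hc' (pow_pos hc _)) (h.d3 (Fin G × Fin (n + 1))
      (by rw [hcard]; omega) i (fun p => zs p.1 p.2) (not_not.1 hb))
    have h3 := Hc_pi_le hν (fun g ω j => (Y ω (!i) (zs g j)).1.1) (fun ω => (L i ω, R i ω))
    have h4 := Hent_mono hν
      (X := fun ω => (fun g j => (Y ω (!i) (zs g j)).1.1, (L i ω, R i ω)))
      (Y := fun ω => ((L i ω, R i ω), fun p : Fin G × Fin (n + 1) => (Y ω (!i) (zs p.1 p.2)).1.1))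
      (fun ω ω' hh => by
        rw [Prod.mk_inj] at hh
        exact Prod.ext hh.2 (funext fun p => congrFun (congrFun hh.1 p.1) p.2))
    have h5 := ModelU_card hν (fun ω => (L i ω, R i ω))
    rw [Real.log_mul hc'.ne' (pow_pos hc _).ne', Real.log_pow, hcard] at h2
    rw [sum_sub_distrib, sum_const, card_univ, Fintype.card_fin, nsmul_eq_mul]
    have h9 : Hc ν (fun ω g j => (Y ω (!i) (zs g j)).1.1) (fun ω => (L i ω, R i ω)) =
      Hent ν (fun ω => (fun g j => (Y ω (!i) (zs g j)).1.1, (L i ω, R i ω))) -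
        Hent ν (fun ω => (L i ω, R i ω)) := rfl
    push_cast at h2
    linarith
  · intro _ zs
    rw [sum_sub_distrib, sum_const, card_univ, Fintype.card_fin, nsmul_eq_mul, mul_assoc]
    exact sub_le_self _ (sum_nonneg fun g _ => Hc_nonneg hν _ _)
  · have h3 := ModelU_ninj (ι := Fin G × Fin (n + 1)) (T := T)
    rw [← ModelU_curry, hcard] at h3
    push_cast at h3
    rw [av_const]
    exact h3

theorem modelA_U (h : MHyp ν L R Y Lc K M) (hW : Hent ν W0 ≤ w0) (n G : ℕ) (hG : 0 < G)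
    (hn : G * (n + 1) ≤ 2 * Lc) (i : Bool) :
    av (fun σ : Fin n → Bool × T => av (fun s : T =>
      Real.log (Fintype.card RR) -
        Hc ν (R i) (fun ω => ((L i ω, Y ω (!i) s), hist W0 Y σ ω)))) ≤
      w0 + (n + 1) * Real.log (Fintype.card (Vo × Cr)) + Real.log M + (Real.log K + 1) / G := by
  have hG' : (0 : ℝ) < G := by exact_mod_cast hG
  have h1 := av_mono fun σ : Fin n → Bool × T => av_mono fun s : T =>
    ModelU_U1 h hW i σ s (Fin.cons s fun m => (σ m).2) rfl fun _ => rfl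
  have h2 := ModelU_U2 h n G hn i
  rw [← ModelU_cons, ← ModelU_snd, mul_comm, ← le_div_iff₀ hG'] at h2
  simp only [av_add, av_const] at h1
  linarith

end

/-- classes modulo independent subgroups rarely have large conditional mass. -/
theorem group_lemma {Ω β V T ι : Type} [Fintype Ω] [AddCommGroup V] [Fintype V] [Fintype T]
    [Nonempty T] [Fintype ι] {ν : Ω → ℝ} (hν : IsProb ν) (R : Ω → β) (X : Ω → V) {Λ : ℝ}
    (hΛ : Real.log (Fintype.card V) - Hc ν X R ≤ Λ) (Kr : (ι → T) → AddSubgroup V) (G : ℕ)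
    (hG : 0 < G) (hcard : (G * Fintype.card ι) ^ 2 ≤ Fintype.card T)
    (hsurj : ∀ τ : Fin G × ι → T, Function.Injective τ → ∀ v : Fin G → V,
      ∃ x : V, ∀ g, x - v g ∈ Kr (fun a => τ (g, a)))
    {B : ℝ} (hB : 1 < B) :
    av (fun τ : ι → T => ind (Function.Injective τ) * Pr ν (fun ω =>
      B * ((Nat.card (Kr τ) : ℝ) / Fintype.card V) * Pr ν (fun ω' => R ω' = R ω) <
        Pr ν (fun ω' => R ω' = R ω ∧ X ω' - X ω ∈ Kr τ))) ≤ (2 * Λ / G + 1) / Real.log B := by
  have hG' : (0 : ℝ) < G := by exact_mod_cast hG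
  have hlB := Real.log_pos hB
  have hV : (0 : ℝ) < Fintype.card V := by exact_mod_cast Fintype.card_pos
  let δ : (ι → T) → ℝ := fun τ => Real.log (Fintype.card (V ⧸ Kr τ)) -
    Hc ν (fun ω => (QuotientAddGroup.mk (X ω) : V ⧸ Kr τ)) R
  have hδ : ∀ τ, 0 ≤ δ τ := fun τ => sub_nonneg.2 (Hc_le_log_card hν _ _)
  have hΛ0 : 0 ≤ Λ := (sub_nonneg.2 (Hc_le_log_card hν _ _)).trans hΛ
  have h1 : ∀ τ, Pr ν (fun ω =>
      B * ((Nat.card (Kr τ) : ℝ) / Fintype.card V) * Pr ν (fun ω' => R ω' = R ω) <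
        Pr ν (fun ω' => R ω' = R ω ∧ X ω' - X ω ∈ Kr τ)) * Real.log B ≤ δ τ + 1 := by
    intro τ
    refine le_trans (le_of_eq ?_)
      (Pr_ratio hν (fun ω => (QuotientAddGroup.mk (X ω) : V ⧸ Kr τ)) R hB)
    congr 1
    refine Ent_Pr_congr fun ω => ?_
    have hQ : (0 : ℝ) < Fintype.card (V ⧸ Kr τ) := by exact_mod_cast Fintype.card_pos
    have e1 : (Fintype.card V : ℝ) = Fintype.card (V ⧸ Kr τ) * Nat.card (Kr τ) := by
      have := AddSubgroup.card_eq_card_quotient_mul_card_addSubgroup (Kr τ)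
      rw [Nat.card_eq_fintype_card, Nat.card_eq_fintype_card] at this
      exact_mod_cast this
    have hK : (0 : ℝ) < Nat.card (Kr τ) := by exact_mod_cast Nat.card_pos
    have e2 : (Nat.card (Kr τ) : ℝ) / Fintype.card V = 1 / Fintype.card (V ⧸ Kr τ) := by
      rw [e1]
      field_simp
    have e3 : pm ν (fun ω => ((QuotientAddGroup.mk (X ω) : V ⧸ Kr τ), R ω)) ω =
        Pr ν (fun ω' => R ω' = R ω ∧ X ω' - X ω ∈ Kr τ) := by
      rw [Ent_pm_pair]
      exact Ent_Pr_congr fun ω' => by rw [QuotientAddGroup.eq_iff_sub_mem, and_comm]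
    rw [e2, e3, mul_one_div, div_mul_eq_mul_div, div_lt_iff₀ hQ, mul_comm _ (Fintype.card _ : ℝ)]
    rfl
  have h2 : av (fun u : Fin G × ι → T =>
      ∑ g, ind (Function.Injective u) * δ (fun a => u (g, a))) ≤ Λ := by
    refine av_le_const hΛ0 fun u => ?_
    by_cases hu : Function.Injective u
    · simp only [ind_pos hu, one_mul]
      exact (ModelU_classes hν R X _ (hsurj u hu)).trans hΛ
    · simp only [ind_neg hu, zero_mul, sum_const_zero]
      exact hΛ0
  have h3 : ∀ g : Fin G, av (fun τ : ι → T => ind (Function.Injective τ) * δ τ) ≤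
      2 * av (fun u : Fin G × ι → T => ind (Function.Injective u) * δ (fun a => u (g, a))) :=
    fun g => ModelU_half (fun a => (g, a)) (fun a a' h => congrArg Prod.snd h)
      (by rwa [Fintype.card_prod, Fintype.card_fin]) δ hδ
  have h4 := sum_le_sum (s := univ) fun g _ => h3 g
  rw [av_sum] at h2
  rw [sum_const, card_univ, Fintype.card_fin, nsmul_eq_mul, ← mul_sum] at h4
  have h5 : av (fun τ : ι → T => ind (Function.Injective τ) * δ τ) ≤ 2 * Λ / G := by
    rw [le_div_iff₀ hG']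
    linarith
  rw [le_div_iff₀ hlB, ← av_mul_const]
  have h6 : av (fun τ : ι → T => ind (Function.Injective τ) * δ τ + 1) ≤ 2 * Λ / G + 1 := by
    rw [av_add, av_const]
    linarith
  refine le_trans (av_mono fun τ => ?_) h6
  have h7 := mul_le_mul_of_nonneg_left (h1 τ) (ind_nonneg (Function.Injective τ))
  have h8 := ind_le_one (Function.Injective τ)
  linarith

end

end Vale.Agent.P060
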