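import Vale.Agent.P060.ModelA

/-! P060: averaging tools for the entropy bounds along random positions. -/

namespace Vale.Agent.P060

open Finset Vale.Agent.P056.Sharp

noncomputable section

open scoped Classical

lemma ModelU_eval {ι S : Type} [Fintype ι] [DecidableEq ι] [Fintype S] [Nonempty S] (j : ι)
    (f : S → ℝ) : av (fun s : ι → S => f (s j)) = av f := by
  have h1 := av_equiv (Equiv.funSplitAt j S) (fun p => f p.1)
  rw [av_prod] at h1
  simp only [av_const] at h1
  exact h1

lemma ModelU_snd {ι T : Type} [Fintype ι] [DecidableEq ι] [Fintype T] (F : (ι → T) → ℝ) :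
    av (fun σ : ι → Bool × T => F (fun j => (σ j).2)) = av F := by
  have h1 := av_equiv (Equiv.arrowProdEquivProdArrow ι (fun _ => Bool) (fun _ => T)) (fun p => F p.2)
  rw [av_prod] at h1
  simp only [av_const] at h1
  exact h1

lemma ModelU_curry {ι κ S : Type} [Fintype ι] [DecidableEq ι] [Fintype κ] [DecidableEq κ]
    [Fintype S] (F : (ι × κ → S) → ℝ) :
    av (fun u : ι → κ → S => F (fun p => u p.1 p.2)) = av F :=
  av_equiv (Equiv.curry ι κ S).symm F

lemma ModelU_sum {ι κ S : Type} [Fintype ι] [DecidableEq ι] [Fintype κ] [DecidableEq κ]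
    [Fintype S] (F : (ι ⊕ κ → S) → ℝ) :
    av (fun u : ι → S => av (fun v : κ → S => F (Sum.elim u v))) = av F := by
  rw [← av_equiv (Equiv.sumArrowEquivProdArrow ι κ S).symm F, av_prod]
  rfl

lemma ModelU_cons {n : ℕ} {S : Type} [Fintype S] (F : (Fin (n + 1) → S) → ℝ) :
    av (fun u : Fin n → S => av (fun s : S => F (Fin.cons s u))) = av F := by
  rw [← av_equiv (Fin.consEquiv fun _ : Fin (n + 1) => S) F, av_prod, av_comm]
  rfl

lemma ModelU_ninj {ι T : Type} [Fintype ι] [DecidableEq ι] [Fintype T] :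
    av (fun s : ι → T => ind (¬ Function.Injective s)) ≤
      (Fintype.card ι : ℝ) ^ 2 / (2 * Fintype.card T) := by
  obtain rfl : ‹DecidableEq ι› = fun a b => Classical.propDecidable (a = b) :=
    Subsingleton.elim _ _
  exact av_not_injective (ι := ι) (T := T)

/-- averaging over independent groups. -/
lemma ModelU_grp {X Z : Type} [Fintype X] [Nonempty X] [Fintype Z] [Nonempty Z] (G : ℕ)
    (E : X → Z → ℝ) (bad : X → (Fin G → Z) → Prop) {a b p : ℝ} (ha : 0 ≤ a) (hb : 0 ≤ b)
    (h1 : ∀ x zs, ¬ bad x zs → ∑ g, E x (zs g) ≤ a) (h2 : ∀ x (zs : Fin G → Z), ∑ g, E x (zs g) ≤ b)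
    (h3 : av (fun x => av (fun zs => ind (bad x zs))) ≤ p) :
    G * av (fun x => av (fun z => E x z)) ≤ a + b * p := by
  have h4 : av (fun x => av (fun zs : Fin G → Z => ∑ g, E x (zs g))) ≤
      av (fun x => av (fun zs : Fin G → Z => a + b * ind (bad x zs))) := by
    refine av_mono fun x => av_mono fun zs => ?_
    by_cases h : bad x zs
    · rw [ind_pos h]
      linarith [h2 x zs]
    · rw [ind_neg h]
      linarith [h1 x zs h]
  have h5 : ∀ x (g : Fin G), av (fun zs : Fin G → Z => E x (zs g)) = av (fun z => E x z) :=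
    fun x g => ModelU_eval g (E x)
  simp only [av_sum, h5, av_add, av_const, av_const_mul, sum_const, card_univ, Fintype.card_fin,
    nsmul_eq_mul] at h4
  exact h4.trans (add_le_add_right (mul_le_mul_of_nonneg_left h3 hb) _)

lemma ModelU_perm {ι J T : Type} [Fintype J] [DecidableEq J] [Finite ι] [Fintype T] (e : ι → J)
    (he : Function.Injective e) {τ₀ : ι → T} (h0 : Function.Injective τ₀) (F : (ι → T) → ℝ) :
    av (fun u : J → T => ind (Function.Injective u) * F (fun a => u (e a))) =
      av (fun u : J → T => ind (Function.Injective u)) *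
        av (fun π : Equiv.Perm T => F (fun a => π (τ₀ a))) := by
  have h1 : ∀ π : Equiv.Perm T,
      av (fun u : J → T => ind (Function.Injective u) * F (fun a => u (e a))) =
      av (fun u : J → T => ind (Function.Injective u) * F (fun a => π (u (e a)))) := by
    intro π
    rw [← av_equiv (Equiv.arrowCongr (Equiv.refl J) π)]
    refine av_congr fun u => ?_
    have h2 : (Equiv.arrowCongr (Equiv.refl J) π) u = π ∘ u := rfl
    rw [h2, ind_congr (π.comp_injective u)]
    rfl
  rw [← av_const (X := Equiv.Perm T)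
    (av (fun u : J → T => ind (Function.Injective u) * F (fun a => u (e a)))), av_congr h1,
    av_comm, ← av_mul_const]
  refine av_congr fun u => ?_
  rw [av_const_mul]
  by_cases hu : Function.Injective u
  · obtain ⟨ρ, hρ⟩ := Equiv.Perm.exists_extending_pair _ _ h0 (hu.comp he)
    rw [← av_equiv (Equiv.mulRight ρ) (fun π : Equiv.Perm T => F (fun a => π (τ₀ a)))]
    congr 1
    refine av_congr fun π => congrArg F (funext fun a => ?_)
    exact congrArg π (hρ a).symm
  · rw [ind_neg hu, zero_mul, zero_mul]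

lemma ModelU_half {ι J T : Type} [Fintype J] [DecidableEq J] [Fintype ι] [DecidableEq ι]
    [Fintype T] [Nonempty T] (e : ι → J) (he : Function.Injective e)
    (hJ : Fintype.card J ^ 2 ≤ Fintype.card T) (F : (ι → T) → ℝ) (hF : ∀ τ, 0 ≤ F τ) :
    av (fun τ : ι → T => ind (Function.Injective τ) * F τ) ≤
      2 * av (fun u : J → T => ind (Function.Injective u) * F (fun a => u (e a))) := by
  by_cases h : ∃ τ₀ : ι → T, Function.Injective τ₀
  · obtain ⟨τ₀, h0⟩ := h
    have h1 := ModelU_perm e he h0 F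
    have h2 := ModelU_perm id Function.injective_id h0 F
    have h3 := ModelU_ninj (ι := J) (T := T)
    have h4 : 0 ≤ av (fun π : Equiv.Perm T => F (fun a => π (τ₀ a))) := av_nonneg fun _ => hF _
    have h5 : av (fun u : ι → T => ind (Function.Injective u)) ≤ 1 :=
      av_le_const zero_le_one fun _ => ind_le_one _
    have hT : (0 : ℝ) < Fintype.card T := by exact_mod_cast Fintype.card_pos
    have h6 : (Fintype.card J : ℝ) ^ 2 / (2 * Fintype.card T) ≤ 1 / 2 := by
      have : (Fintype.card J : ℝ) ^ 2 ≤ Fintype.card T := by exact_mod_cast hJ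
      rw [div_le_iff₀ (by positivity)]
      linarith
    simp only [ind_not, av_sub, av_const] at h3
    have h7 := mul_le_mul_of_nonneg_right h5 h4
    have h8 := mul_le_mul_of_nonneg_right
      (show 1 / 2 ≤ av (fun u : J → T => ind (Function.Injective u)) by linarith) h4
    simp only [id] at h2
    rw [h1, h2]
    linarith
  · push Not at h
    simp only [ind_neg (h _), zero_mul, av_zero]
    exact mul_nonneg zero_le_two (av_nonneg fun u => mul_nonneg (ind_nonneg _) (hF _))

section

variable {Ω α β : Type*} [Fintype Ω] {ν : Ω → ℝ}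

lemma ModelU_card [Fintype α] (hν : IsProb ν) (X : Ω → α) :
    Hent ν X ≤ Real.log (Fintype.card α) :=
  Hent_le_log_card_of_mem hν X univ fun _ _ => mem_univ _

lemma ModelU_pi {ι : Type} [Fintype ι] [Fintype α] (hν : IsProb ν) (X : Ω → ι → α) :
    Hent ν X ≤ Fintype.card ι * Real.log (Fintype.card α) := by
  have h1 := ModelU_card hν X
  rwa [Fintype.card_fun, Nat.cast_pow, Real.log_pow] at h1

lemma ModelU_pair (hν : IsProb ν) (X : Ω → α) (Y : Ω → β) :
    Hent ν (fun ω => (X ω, Y ω)) ≤ Hent ν X + Hent ν Y := by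
  have h1 := Hc_le_Hent hν X Y
  unfold Hc at h1
  linarith

lemma ModelU_swap (X : Ω → α) (Y : Ω → β) :
    Hent ν (fun ω => (X ω, Y ω)) = Hent ν (fun ω => (Y ω, X ω)) :=
  Hent_congr fun _ _ => by rw [Prod.mk_inj, Prod.mk_inj, and_comm]

lemma ModelU_low (hν : IsProb ν) (X : Ω → α) {K N : ℝ} (hK : 1 ≤ K) (hN : 0 < N)
    (h : ∀ ω, pm ν X ω ≤ K / N) : Real.log N - Real.log K ≤ Hent ν X := by
  have h1 := le_Hent_of_pm_le hν X h
  rw [Real.log_div (by linarith) hN.ne'] at h1
  linarith

lemma ModelU_log_nonneg (α : Type*) [Fintype α] : 0 ≤ Real.log (Fintype.card α) :=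
  Real.log_natCast_nonneg _

lemma ModelU_log_prod (α β : Type*) [Fintype α] [Fintype β] [Nonempty α] [Nonempty β] :
    Real.log (Fintype.card (α × β)) = Real.log (Fintype.card α) + Real.log (Fintype.card β) := by
  rw [Fintype.card_prod, Nat.cast_mul, Real.log_mul] <;> exact_mod_cast Fintype.card_ne_zero

/-- independent subgroups: the defects of the classes add up. -/
lemma ModelU_classes {V κ : Type} [AddCommGroup V] [Fintype V] [Fintype κ] (hν : IsProb ν)
    (R : Ω → β) (X : Ω → V) (K : κ → AddSubgroup V)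
    (hs : ∀ v : κ → V, ∃ x : V, ∀ g, x - v g ∈ K g) :
    ∑ g, (Real.log (Fintype.card (V ⧸ K g)) -
      Hc ν (fun ω => (QuotientAddGroup.mk (X ω) : V ⧸ K g)) R) ≤
      Real.log (Fintype.card V) - Hc ν X R := by
  let φ : V →+ (∀ g, V ⧸ K g) := AddMonoidHom.pi fun g => QuotientAddGroup.mk' (K g)
  have hφ : Function.Surjective φ := by
    intro q
    choose v hv using fun g => QuotientAddGroup.mk_surjective (q g)
    obtain ⟨x, hx⟩ := hs v
    refine ⟨x, funext fun g => ?_⟩
    rw [← hv g]
    exact QuotientAddGroup.eq_iff_sub_mem.2 (hx g)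
  have hV : (0 : ℝ) < Fintype.card V := by exact_mod_cast Fintype.card_pos
  have hQ : (0 : ℝ) < Fintype.card (∀ g, V ⧸ K g) := by exact_mod_cast Fintype.card_pos
  have h1 : Hc ν X R ≤ Hc ν (fun ω => (X ω, φ (X ω))) R :=
    Hc_mono_left hν R fun ω ω' _ h => congrArg Prod.fst h
  have h2 := Hc_le_kernel hν X (fun ω => (φ (X ω), R ω))
    (fun b a => ind (φ a = b.1) * (Fintype.card (∀ g, V ⧸ K g) / Fintype.card V))
    (fun b a => mul_nonneg (ind_nonneg _) (by positivity))
    (fun b => by
      have h3 := (av_comp_hom φ hφ fun q => ind (q = b.1)).trans (av_ind_eq b.1)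
      unfold av at h3
      rw [div_eq_iff hV.ne'] at h3
      rw [← sum_mul, h3]
      field_simp
      rfl)
    fun ω _ => by rw [ind_pos rfl]; positivity
  simp only [ind_pos, one_mul, Ex_const hν] at h2
  have h3 := Hc_pi_le hν (fun g ω => (QuotientAddGroup.mk (X ω) : V ⧸ K g)) R
  have h4 : Real.log (Fintype.card (∀ g, V ⧸ K g)) = ∑ g, Real.log (Fintype.card (V ⧸ K g)) := by
    rw [Fintype.card_pi, Nat.cast_prod, Real.log_prod]
    intro g _
    exact_mod_cast Fintype.card_ne_zero
  rw [Real.log_div hQ.ne' hV.ne', h4] at h2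
  rw [Hc_chain] at h1
  have h5 : Hc ν (fun ω => φ (X ω)) R =
      Hc ν (fun ω g => (QuotientAddGroup.mk (X ω) : V ⧸ K g)) R := rfl
  rw [sum_sub_distrib]
  linarith

end

end

end Vale.Agent.P060
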