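import Vale.Agent.P060.Three

/-! P060: indices without a linear relation have small bias. -/

namespace Vale.Agent.P060

open Finset Polynomial Vale.Agent.P056.Sharp

noncomputable section

open scoped Classical

variable {F : Type} [Field F] [Fintype F] [Algebra (ZMod 2) F] {p : Par}
  {ρ : Om F p → ℝ} {k : Bool → Pt F p × Vo F p → Cr F p → ℝ} {e η δ β θ Tc : ℝ}

omit [Fintype F] in
lemma Nb_TrC_add {f g : F[X]} (hf : TrC f) (hg : TrC g) : TrC (f + g) := by
  obtain ⟨c, hc⟩ := hf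
  obtain ⟨c', hc'⟩ := hg
  exact ⟨c + c', fun s => by rw [eval_add, tr_add, hc, hc']⟩

omit [Fintype F] [Algebra (ZMod 2) F] in
lemma Nb_natDegree_GP (ω : Om F p) (u : Ix F p) (i : Bool) (a : Fin p.S) :
    (GP ω u i a).natDegree ≤ p.J := by
  unfold GP gv
  exact natDegree_sum_le_of_forall_le _ _ fun _ _ =>
    (natDegree_C_mul_le _ _).trans (GGs_natDegree (gs ω i _).2 _)

/-- the polynomial attached to a pair of coefficient vectors. -/
def Nb_f (ω : Om F p) (u : Ix F p) (i : Bool) (x H : Fin p.S → F) : F[X] :=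
  ∑ a, C (x a) * GP ω u i a + ∑ a, C (H a) * (mx ω (!i) a : F[X])

omit [Fintype F] [Algebra (ZMod 2) F] in
lemma Nb_f_add (ω : Om F p) (u : Ix F p) (i : Bool) (x H x' H' : Fin p.S → F) :
    Nb_f ω u i (x + x') (H + H') = Nb_f ω u i x H + Nb_f ω u i x' H' := by
  simp only [Nb_f, Pi.add_apply, map_add, add_mul, sum_add_distrib]; ring

omit [Fintype F] [Algebra (ZMod 2) F] in
lemma Nb_natDegree_f (ω : Om F p) (u : Ix F p) (i : Bool) (x H : Fin p.S → F) :
    (Nb_f ω u i x H).natDegree ≤ p.J :=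
  natDegree_add_le_of_degree_le
    (natDegree_sum_le_of_forall_le _ _ fun a _ =>
      (natDegree_C_mul_le _ _).trans (Nb_natDegree_GP ω u i a))
    ((Three_natDegree_lin H _).trans (Three_J1_le p))

theorem card_delta_le (hp : p.Ok) {β : ℝ} (hB : Big F (3 * p.J) β) {ω : Om F p} (hω : Reg ω)
    {u : Ix F p} {i : Bool} (h : ¬ ∃ Mm, Rel ω u i Mm) :
    av (fun x : Fin p.S → F => ind (∃ H : Fin p.S → F,
      TrC (∑ a, C (x a) * GP ω u i a + ∑ a, C (H a) * (mx ω (!i) a : F[X])))) ≤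
      ((p.J : ℝ) + 1) / Fintype.card F := by
  haveI := charP_two (F := F)
  change av (fun x : Fin p.S → F => ind (∃ H, TrC (Nb_f ω u i x H))) ≤ _
  obtain ⟨a0, ha0⟩ : ∃ a0, ¬ ∃ c : Oi p → F, GP ω u i a0 = ∑ o, C (c o) * ph (mx ω (!i)) o := by
    by_contra hc
    push Not at hc
    choose Mm hMm using hc
    exact h ⟨Mm, hMm⟩
  obtain ⟨T, hT⟩ : ∃ T : Finset F, ∀ θ, θ ∈ T ↔ ∃ H, TrC (Nb_f ω u i (Pi.single a0 θ) H) :=
    ⟨univ.filter fun θ => ∃ H, TrC (Nb_f ω u i (Pi.single a0 θ) H), fun θ => by simp⟩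
  have hTc : T.card ≤ p.J + 1 := by
    by_contra hlt
    push Not at hlt
    obtain ⟨c0, c, hc⟩ := span_of_many (hB.mono (D' := p.J) (by omega))
      (fun a => (mx ω (!i) a : F[X])) (fun a => (Pol.le _).trans (Three_J1_le p)) (posP p)
      (fun n => ⟨(posP_spec hp n).1, (posP_spec hp n).2.1⟩) (hω.typ (!i)).t1
      (Nb_natDegree_GP ω u i a0) T hlt (fun θ hθ => by
        obtain ⟨H, hH⟩ := (hT θ).1 hθ
        refine ⟨H, ?_⟩
        have : ∑ a, C ((Pi.single a0 θ : Fin p.S → F) a) * GP ω u i a = C θ * GP ω u i a0 := by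
          rw [sum_eq_single a0 (fun b _ hb => by simp [Pi.single_eq_of_ne hb]) (by simp)]
          simp
        rwa [Nb_f, this] at hH)
    refine ha0 ⟨fun o => o.elim c0 c, ?_⟩
    rw [hc, Fintype.sum_option]
    simp [ph]
  have hq : (0 : ℝ) < Fintype.card F := by exact_mod_cast Fintype.card_pos
  have e1 : av (fun x : Fin p.S → F => ind (∃ H, TrC (Nb_f ω u i x H))) =
      av (fun x : Fin p.S → F => av (fun θ : F =>
        ind (∃ H, TrC (Nb_f ω u i (x + Pi.single a0 θ) H)))) := by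
    rw [av_comm, ← av_const (X := F) (av (fun x : Fin p.S → F =>
      ind (∃ H, TrC (Nb_f ω u i x H))))]
    exact av_congr fun θ => (av_equiv (Equiv.addRight (Pi.single a0 θ : Fin p.S → F))
      (fun x => ind (∃ H, TrC (Nb_f ω u i x H)))).symm
  rw [e1]
  refine av_le_of_forall fun x => ?_
  by_cases hx : ∃ θ0 H0, TrC (Nb_f ω u i (x + Pi.single a0 θ0) H0)
  · obtain ⟨θ0, H0, h0⟩ := hx
    have e2 : av (fun θ : F => ind (θ + θ0 ∈ T)) = T.card / Fintype.card F := by
      refine (av_equiv (Equiv.addRight θ0) (fun θ => ind (θ ∈ T))).trans ?_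
      have e : ∑ t, ind (t ∈ T) = (T.card : ℝ) := by
        have := sum_mul_ind_mem (fun _ => (1 : ℝ)) T
        simpa using this
      unfold av; rw [e]
    refine le_trans (av_mono fun θ => ind_mono (Q := θ + θ0 ∈ T) ?_) ?_
    · rintro ⟨H, hH⟩
      refine (hT _).2 ⟨H + H0, ?_⟩
      have h1 := Nb_TrC_add hH h0
      rw [← Nb_f_add] at h1
      have : x + Pi.single a0 θ + (x + Pi.single a0 θ0) = Pi.single a0 (θ + θ0) := by
        rw [Pi.single_add]
        funext a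
        simp only [Pi.add_apply]
        linear_combination CharTwo.add_self_eq_zero (x a)
      rwa [this] at h1
    · rw [e2]
      gcongr
      exact_mod_cast hTc
  · exact av_le_const (by positivity) fun θ => by
      rw [ind_neg fun ⟨H, hH⟩ => hx ⟨θ, H, hH⟩]; positivity

/-- the test characters. -/
def Nb_v (u : Ix F p) (i : Bool) (x H : Fin p.S → F) (b' : Blk F p) : ℝ :=
  chi (∑ a, x a * gv b'.2 (u i) a + ∑ a, H a * b'.1.2.1 a)

omit [Fintype F] in
lemma Nb_v_mul (u : Ix F p) (i : Bool) (x H x' H' : Fin p.S → F) (b' : Blk F p) :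
    Nb_v u i x H b' * Nb_v u i x' H' b' = Nb_v u i (x - x') (H + H') b' := by
  haveI := charP_two (F := F)
  unfold Nb_v
  rw [← chi_add]
  congr 1
  simp only [Pi.sub_apply, CharTwo.sub_eq_add, Pi.add_apply, add_mul, sum_add_distrib]; ring

omit [Fintype F] in
lemma Nb_v_blk (ω : Om F p) (u : Ix F p) (i : Bool) (x H : Fin p.S → F) (s : F) :
    Nb_v u i x H (blk ω (!i) s) = chi ((Nb_f ω u i x H).eval s) := by
  unfold Nb_v Nb_f
  congr 1
  simp only [eval_add, eval_finsetSum, eval_mul, eval_C, Three_eval_GP]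
  rfl

lemma Nb_delta (hp : p.Ok) (h : GP0 ρ k δ Tc θ) (hs : Sup ρ) (hS : Small F p e η δ β θ)
    (u : Ix F p) (i : Bool) (hu : ∀ ω, ρ ω ≠ 0 → ¬ ∃ Mm, Rel ω u i Mm) :
    av (fun x : Fin p.S → F => ind (∃ H, η ^ 2 / 2 < |Ex (mP (k (!i))) (Nb_v u i x H)|)) ≤
      4 / η ^ 2 * (((p.J : ℝ) + 1) / Fintype.card F) := by
  have hη0 := hS.facts.1
  have hB : Big F p.J β := hS.big.mono (by omega)
  have key : ∀ x : Fin p.S → F, ind (∃ H, η ^ 2 / 2 < |Ex (mP (k (!i))) (Nb_v u i x H)|) ≤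
      4 / η ^ 2 * Ex ρ (fun ω => ind (∃ H, TrC (Nb_f ω u i x H))) := by
    intro x
    have h0 : 0 ≤ Ex ρ (fun ω => ind (∃ H, TrC (Nb_f ω u i x H))) :=
      Ex_nonneg h.prob.1 fun _ => ind_nonneg _
    by_cases hx : ∃ H, η ^ 2 / 2 < |Ex (mP (k (!i))) (Nb_v u i x H)|
    · rw [ind_pos hx]
      obtain ⟨H, hH⟩ := hx
      have htv := h.tv1 (!i) (Nb_v u i x H) (fun b => (abs_chi _).le)
      have h1 : |Ex ρ (fun ω => av (fun s => Nb_v u i x H (blk ω (!i) s)))| ≤
          β + Ex ρ (fun ω => ind (∃ H, TrC (Nb_f ω u i x H))) := by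
        refine (abs_Ex_le h.prob.1 _).trans ((Ex_mono h.prob.1 (g := fun ω =>
          β + ind (∃ H, TrC (Nb_f ω u i x H))) fun ω => ?_).trans ?_)
        · simp only [Nb_v_blk]
          have hβ0 : 0 ≤ β := by
            obtain ⟨a, _, h2, _⟩ := hB
            exact le_trans (by positivity) h2
          by_cases hc : TrC (Nb_f ω u i x H)
          · rw [ind_pos ⟨H, hc⟩]
            linarith [abs_av_le_const (f := fun s => chi ((Nb_f ω u i x H).eval s)) zero_le_one
              fun s => (abs_chi _).le]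
          · linarith [bias_le hB (Nb_natDegree_f ω u i x H) hc,
              ind_nonneg (∃ H, TrC (Nb_f ω u i x H))]
        · rw [Ex_add, Ex_const h.prob]
      have h2 : |Ex (mP (k (!i))) (Nb_v u i x H)| ≤
          |Ex ρ (fun ω => av (fun s => Nb_v u i x H (blk ω (!i) s)))| + δ := by
        have := abs_sub_abs_le_abs_sub (Ex (mP (k (!i))) (Nb_v u i x H))
          (Ex ρ (fun ω => av (fun s => Nb_v u i x H (blk ω (!i) s))))
        rw [abs_sub_comm] at this
        have h3 : |Ex ρ (fun ω => av (fun s => Nb_v u i x H (blk ω (!i) s))) -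
          Ex (mP (k (!i))) (Nb_v u i x H)| ≤ δ := htv
        linarith
      rw [div_mul_eq_mul_div, le_div_iff₀ (by positivity)]
      linarith [hS.hδ, hS.hβ]
    · rw [ind_neg hx]; positivity
  refine (av_mono key).trans ?_
  rw [av_const_mul, av_Ex]
  refine mul_le_mul_of_nonneg_left ?_ (by positivity)
  exact (Ex_mono' h.prob.1 fun ω hω =>
    card_delta_le hp hS.big (hs.reg ω hω) (hu ω hω)).trans (Ex_const h.prob _).le

omit [Field F] [Algebra (ZMod 2) F] in
lemma Nb_av_card {A : Type} [Fintype A] (P : A → Prop) [DecidablePred P] :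
    av (fun x => ind (P x)) = ((univ.filter P).card : ℝ) / Fintype.card A := by
  unfold av; rw [sum_ind_eq_card]

lemma Nb_list (hp : p.Ok) (h : GP0 ρ k δ Tc θ) (hs : Sup ρ) (hS : Small F p e η δ β θ)
    (u : Ix F p) (i : Bool) (hu : ∀ ω, ρ ω ≠ 0 → ¬ ∃ Mm, Rel ω u i Mm) (w : Blk F p → ℝ)
    (hw : ∀ b, |w b| ≤ 1) :
    av (fun x : Fin p.S → F =>
      ind (∃ H, η ≤ |Ex (mP (k (!i))) (fun b => Nb_v u i x H b * w b)|)) ≤ η := by
  obtain ⟨hη0, hη1, -, -⟩ := hS.facts
  have hd := Nb_delta hp h hs hS u i hu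
  rw [Nb_av_card] at hd
  have hl := list_bound_group (isProb_mP (h.ker (!i))) (Nb_v u i) w (fun _ _ _ => (abs_chi _).le)
    hw hη0 (le_refl (η ^ 2 / 2)) (univ.filter fun x : Fin p.S → F =>
      ∃ H, η ^ 2 / 2 < |Ex (mP (k (!i))) (Nb_v u i x H)|) (fun a a' z z' ha => by
        simp only [Nb_v_mul]
        by_contra hlt
        exact ha (mem_filter.2 ⟨mem_univ _, z + z', not_le.1 hlt⟩))
  have hq : (1 : ℝ) ≤ Fintype.card F := by exact_mod_cast Fintype.card_pos
  have hS1 : (Fintype.card F : ℝ) ≤ Fintype.card (Fin p.S → F) := by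
    obtain ⟨ω, hω, -⟩ := exists_le_Ex h.prob (fun _ => 0)
    obtain ⟨a, -⟩ := ((hs.reg ω hω).typ i).top
    rw [Fintype.card_fun, Fintype.card_fin]
    push_cast
    exact le_self_pow₀ hq (by have := a.2; omega)
  have hN : (0 : ℝ) < Fintype.card (Fin p.S → F) := by linarith
  have e1 : av (fun x : Fin p.S → F =>
      ind (∃ H, η ≤ |Ex (mP (k (!i))) (fun b => Nb_v u i x H b * w b)|)) ≤
      2 / η ^ 2 * ((univ.filter fun x : Fin p.S → F =>
        ∃ H, η ^ 2 / 2 < |Ex (mP (k (!i))) (Nb_v u i x H)|).card + 1) /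
        Fintype.card (Fin p.S → F) := by
    rw [Nb_av_card]
    refine div_le_div_of_nonneg_right (le_trans (le_of_eq ?_) hl) hN.le
    congr 2
    ext t
    simp only [mem_filter, mem_univ, true_and]
  refine e1.trans ?_
  rw [mul_div_assoc, add_div]
  have e2 : 1 / (Fintype.card (Fin p.S → F) : ℝ) ≤ 1 / η ^ 2 * (((p.J : ℝ) + 1) / Fintype.card F) := by
    refine (one_div_le_one_div_of_le (by linarith) hS1).trans ?_
    have h1 : 1 ≤ 1 / η ^ 2 := by rw [le_div_iff₀ (by positivity)]; nlinarith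
    have h2 : 1 / (Fintype.card F : ℝ) ≤ ((p.J : ℝ) + 1) / Fintype.card F := by
      gcongr; linarith [(Nat.cast_nonneg p.J : (0 : ℝ) ≤ p.J)]
    have h3 : 0 ≤ 1 / (Fintype.card F : ℝ) := by positivity
    nlinarith
  have e3 : ((p.J : ℝ) + 1) / Fintype.card F ≤ η ^ 5 / 10 := by
    rw [div_le_div_iff₀ (by linarith) (by norm_num)]; linarith [hS.hq]
  calc _ ≤ 2 / η ^ 2 * (4 / η ^ 2 * (η ^ 5 / 10) + 1 / η ^ 2 * (η ^ 5 / 10)) := by
        refine mul_le_mul_of_nonneg_left (add_le_add (hd.trans ?_) (e2.trans ?_)) (by positivity) <;>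
          exact mul_le_mul_of_nonneg_left e3 (by positivity)
    _ = η := by field_simp; ring

theorem nb_small (hp : p.Ok) (h : GP0 ρ k δ Tc θ) (hs : Sup ρ) (hS : Small F p e η δ β θ)
    (u : Ix F p) (i : Bool) (hu : ∀ ω, ρ ω ≠ 0 → ¬ ∃ Mm, Rel ω u i Mm) :
    av (fun x => av (fun x' => Ku k u i x x' ^ 2)) ≤ 2 * η := by
  have hη0 := hS.facts.1
  obtain ⟨K, hK⟩ : ∃ K : Pt F p → Pt F p → ℝ, K = Ku k u i := ⟨_, rfl⟩
  have hK1 : ∀ x x', |K x x'| ≤ 1 := fun x x' => by rw [hK]; exact Three_abs_Ku h.ker u i x x'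
  refine av_le_of_forall fun x => ?_
  obtain ⟨w, hw⟩ : ∃ w : Blk F p → ℝ, w = fun b' => chi (u i none * b'.2 none) * K x b'.1.1 :=
    ⟨_, rfl⟩
  have hw1 : ∀ b, |w b| ≤ 1 := fun b => by
    rw [hw]; exact Three_abs_mul (abs_chi _).le (hK1 _ _)
  have e1 : av (fun x' => Ku k u i x x' ^ 2) = c1 (k i) x (fun b =>
      Ex (mP (k (!i))) (fun b' => chi (PhiB u i b b') * K x b'.1.1)) := by
    have e2 : ∀ x', Ku k u i x x' ^ 2 = c1 (k i) x (fun b => c1 (k (!i)) x' (fun b' =>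
        chi (PhiB u i b b') * K x b'.1.1)) := fun x' => by
      rw [c1_comm]
      simp only [Three_c1_mul_const]
      rw [Three_c1_mul_pt x' (fun b' => c1 (k i) x (fun b => chi (PhiB u i b b'))) (K x), sq, hK]
      rfl
    rw [av_congr e2]
    simp only [Ex_mP]
    exact av_Ex _ _
  rw [e1]
  have e3 : ∀ b : Blk F p, Ex (mP (k (!i))) (fun b' => chi (PhiB u i b b') * K x b'.1.1) ≤
      η + ind (∃ H, η ≤ |Ex (mP (k (!i))) (fun b' => Nb_v u i b.1.2.1 H b' * w b')|) := by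
    intro b
    have e4 : ∀ b', chi (PhiB u i b b') * K x b'.1.1 = chi (u (!i) none * b.2 none) *
        (Nb_v u i b.1.2.1 (gv b.2 (u (!i))) b' * w b') := fun b' => by
      rw [hw, Three_PhiB_eq, Nb_v]
      have : ∑ a, b'.1.2.1 a * gv b.2 (u (!i)) a = ∑ a, gv b.2 (u (!i)) a * b'.1.2.1 a :=
        sum_congr rfl fun _ _ => mul_comm _ _
      simp only [this, chi_add]; ring
    rw [Ex_congr e4, Ex_const_mul]
    refine Three_le_of hη0.le (abs_chi _).le ?_ fun _ h2 => ⟨_, h2⟩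
    exact (abs_Ex_le (isProb_mP (h.ker (!i))).1 _).trans (Ex_le_const (isProb_mP (h.ker (!i)))
      fun b' => Three_abs_mul (abs_chi _).le (hw1 _))
  refine (Three_c1_mono (h.ker i) x e3).trans ?_
  rw [Three_c1_add, Three_c1_const (h.ker i)]
  have e5 := Ex_cP_own (h.ker i) x (fun y : Vo F p =>
    ind (∃ H, η ≤ |Ex (mP (k (!i))) (fun b' => Nb_v u i y.1 H b' * w b')|))
  have e6 := Nb_list hp h hs hS u i hu w hw1
  rw [av_prod] at e5
  simp only [av_const] at e5
  have e7 : c1 (k i) x (fun b => ind (∃ H, η ≤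
      |Ex (mP (k (!i))) (fun b' => Nb_v u i b.1.2.1 H b' * w b')|)) ≤ η := e5.le.trans e6
  linarith

end

end Vale.Agent.P060
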