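import Vale.Agent.P060.Base

/-! P060: the supersaturation property. -/

namespace Vale.Agent.P060

open Finset Vale.Agent.P056.Sharp

noncomputable section

open scoped Classical

variable {V : Type} [Fintype V]

/-- two ordered pairs are in conflict. -/
def Conf (H : V → V → Prop) (p q : V × V) : Prop :=
  H p.1 q.1 ∧ H p.1 q.2 ∧ H p.2 q.1 ∧ H p.2 q.2

/-- supersaturation: every symmetric law on non-adjacent pairs with bounded marginals and bounded
density has conflict probability at least `ε`. -/
def SS (H : V → V → Prop) (M K ε : ℝ) : Prop :=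
  ∀ ν : V × V → ℝ, IsProb ν → (∀ a b, ν (a, b) = ν (b, a)) → (∀ a b, H a b → ν (a, b) = 0) →
    (∀ a, ∑ b, ν (a, b) ≤ M / Fintype.card V) →
    (∀ p, ν p ≤ K / (Fintype.card V : ℝ) ^ 2) →
    ε ≤ Ex ν (fun p => Pr ν (fun q => Conf H p q))

end

end Vale.Agent.P060
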