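import Vale.Agent.P060.Count
import Vale.Agent.P060.Box

/-! P060: consequences of the model that use the true law. -/

namespace Vale.Agent.P060

open Finset Polynomial Vale.Agent.P056.Sharp

noncomputable section

open scoped Classical

variable {F : Type} [Field F] [Fintype F] [Algebra (ZMod 2) F] {p : Par}

/-- the posterior is supported on regular pairs with a common record. -/
structure Sup (ρ : Om F p → ℝ) : Prop where
  reg : ∀ ω, ρ ω ≠ 0 → Reg ω
  w0 : ∀ ω ω', ρ ω ≠ 0 → ρ ω' ≠ 0 → W0 ω = W0 ω'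

/-- the hierarchy of small constants. -/
structure Small (F : Type) [Fintype F] (p : Par) (e η δ β θ : ℝ) : Prop where
  he0 : 0 < e
  he : e ≤ 1 / 512
  hη : η = (e / 4) ^ 4 / 2
  hδ0 : 0 < δ
  hδ : δ ≤ η ^ 2 / 8
  big : Big F (3 * p.J) β
  hβ : β ≤ η ^ 2 / 8
  hq : 10 * ((p.J : ℝ) + 1) ≤ η ^ 5 * Fintype.card F
  hθ : (2 / η ^ 2) ^ 2 ≤ θ * (Fintype.card F : ℝ) ^ (2 * p.k)

/-- the conditional bias of an additive part. -/
def al (k : Bool → Pt F p × Vo F p → Cr F p → ℝ) (i : Bool) (m : Fin p.S → F) (x : Pt F p) : ℝ :=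
  c1 (k i) x (fun b => chi (b.2 none + ∑ a, m a * b.1.2.1 a))

/-- the conditional bias of `PhiB`. -/
def Ku (k : Bool → Pt F p × Vo F p → Cr F p → ℝ) (u : Ix F p) (i : Bool) (x x' : Pt F p) : ℝ :=
  c1 (k (!i)) x' (fun b' => c1 (k i) x (fun b => chi (PhiB u i b b')))

def aB (u : Ix F p) (Mm : Bool → Fin p.S → Oi p → F) (i : Bool) (b : Blk F p) : F :=
  u (!i) none * b.2 none + ∑ a, Mm i a none * b.1.2.1 a

/-- the bias predicted by the record. -/
def Kt (k : Bool → Pt F p × Vo F p → Cr F p → ℝ) (u : Ix F p) (Mm : Bool → Fin p.S → Oi p → F)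
    (x x' : Pt F p) : ℝ :=
  c1 (k true) x' (fun b' => c1 (k false) x (fun b => chi (aB u Mm false b + aB u Mm true b' +
    ∑ a, ∑ c, b.1.2.1 a * (Mm false a (some c) + Mm true c (some a)) * b'.1.2.1 c)))

variable {ρ : Om F p → ℝ} {k : Bool → Pt F p × Vo F p → Cr F p → ℝ} {e η δ β θ Tc : ℝ}

omit [Fintype F] [Algebra (ZMod 2) F] in
lemma PhiB_swap (u : Ix F p) (i : Bool) (b b' : Blk F p) : PhiB u (!i) b' b = PhiB u i b b' := by
  unfold PhiB; rw [Bool.not_not, add_comm]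

section C1

variable {Pt' Vo' Cr' : Type} [Fintype Vo'] [Fintype Cr'] {κ : Pt' × Vo' → Cr' → ℝ}

lemma Three_c1_congr (x : Pt') {φ ψ : (Pt' × Vo') × Cr' → ℝ} (h : ∀ b, φ b = ψ b) :
    c1 κ x φ = c1 κ x ψ := by rw [show φ = ψ from funext h]

lemma Three_c1_const_mul (x : Pt') (c : ℝ) (φ : (Pt' × Vo') × Cr' → ℝ) :
    c1 κ x (fun b => c * φ b) = c * c1 κ x φ := Ex_const_mul _ _ _

lemma Three_c1_mul_const (x : Pt') (φ : (Pt' × Vo') × Cr' → ℝ) (c : ℝ) :
    c1 κ x (fun b => φ b * c) = c1 κ x φ * c := Ex_mul_const _ _ _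

lemma Three_c1_mul_pt (x : Pt') (φ : (Pt' × Vo') × Cr' → ℝ) (g : Pt' → ℝ) :
    c1 κ x (fun b => φ b * g b.1.1) = c1 κ x φ * g x :=
  Ex_mul_const (cP κ x) (fun y => φ ((x, y.1), y.2)) (g x)

lemma Three_c1_add (x : Pt') (φ ψ : (Pt' × Vo') × Cr' → ℝ) :
    c1 κ x (fun b => φ b + ψ b) = c1 κ x φ + c1 κ x ψ := Ex_add _ _ _

lemma Three_c1_sub (x : Pt') (φ ψ : (Pt' × Vo') × Cr' → ℝ) :
    c1 κ x (fun b => φ b - ψ b) = c1 κ x φ - c1 κ x ψ := Ex_sub _ _ _

lemma Three_c1_sum {ι : Type} (x : Pt') (s : Finset ι) (φ : ι → (Pt' × Vo') × Cr' → ℝ) :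
    c1 κ x (fun b => ∑ i ∈ s, φ i b) = ∑ i ∈ s, c1 κ x (φ i) := Ex_sum _ _ _

variable [Fintype Pt'] [Nonempty Vo']

lemma Three_c1_const (hk : IsKer κ) (x : Pt') (c : ℝ) : c1 κ x (fun _ => c) = c :=
  Ex_const (isProb_cP hk x) c

lemma Three_c1_mono (hk : IsKer κ) (x : Pt') {φ ψ : (Pt' × Vo') × Cr' → ℝ}
    (h : ∀ b, φ b ≤ ψ b) : c1 κ x φ ≤ c1 κ x ψ := Ex_mono (isProb_cP hk x).1 fun _ => h _

lemma Three_abs_c1_le (hk : IsKer κ) (x : Pt') {φ ψ : (Pt' × Vo') × Cr' → ℝ}
    (h : ∀ b, |φ b| ≤ ψ b) : |c1 κ x φ| ≤ c1 κ x ψ :=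
  (abs_Ex_le (isProb_cP hk x).1 _).trans (Ex_mono (isProb_cP hk x).1 fun _ => h _)

end C1

omit [Field F] [Algebra (ZMod 2) F] in
lemma Small.facts (hS : Small F p e η δ β θ) :
    0 < η ∧ η ≤ 1 / 1000 ∧ β ≤ η ^ 2 / 2 ∧ 2 / η ^ 2 ≤ θ * (Fintype.card F : ℝ) ^ (2 * p.k) := by
  have h0 := hS.he0
  have h1 := hS.he
  have h2 : 0 < η := by rw [hS.hη]; positivity
  have h3 : η ≤ 1 / 1000 := by
    rw [hS.hη]
    have : (e / 4) ^ 4 ≤ (1 / 2048) ^ 4 :=
      pow_le_pow_left₀ (by positivity) (by linarith) 4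
    norm_num at this ⊢; linarith
  refine ⟨h2, h3, by nlinarith [hS.hβ, sq_nonneg η], le_trans ?_ hS.hθ⟩
  have h4 : 1 ≤ 2 / η ^ 2 := by
    rw [le_div_iff₀ (by positivity)]; nlinarith
  nlinarith

omit [Fintype F] [Algebra (ZMod 2) F] in
lemma Three_natDegree_bil {S : ℕ} {g : Option (Sym2 (Fin S)) → F[X]} {u v : Option (Fin S) → F[X]}
    {d1 d2 d3 : ℕ} (hg : ∀ e, (g e).natDegree ≤ d1) (hu : ∀ o, (u o).natDegree ≤ d2)
    (hv : ∀ o, (v o).natDegree ≤ d3) : (bil g u v).natDegree ≤ d1 + d2 + d3 := by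
  unfold bil
  refine (natDegree_add_le _ _).trans (max_le ?_ ?_)
  · exact natDegree_mul_le_of_le (natDegree_mul_le_of_le (hg _) (hu _)) (hv _)
  · refine natDegree_sum_le_of_forall_le _ _ fun a _ =>
      natDegree_sum_le_of_forall_le _ _ fun b _ => ?_
    have := natDegree_mul_le_of_le (natDegree_mul_le_of_le (hu (some a)) (hg (some s(a, b))))
      (hv (some b))
    omega

omit [Fintype F] [Algebra (ZMod 2) F] in
lemma Three_natDegree_ph (ψ : Mx F p) (o : Oi p) : (ph ψ o).natDegree ≤ p.J1 := by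
  cases o with
  | none => simp [ph]
  | some a => exact Pol.le (ψ a)

lemma Three_J1_le (p : Par) : p.J1 ≤ p.J := by
  unfold Par.J Par.J1; exact Nat.mul_le_mul_right _ (Nat.le_succ _)

omit [Fintype F] [Algebra (ZMod 2) F] in
lemma Three_eval_bil {S : ℕ} (g : Option (Sym2 (Fin S)) → F[X]) (u v : Option (Fin S) → F[X])
    (s : F) : (bil g u v).eval s =
      bil (fun e => (g e).eval s) (fun o => (u o).eval s) (fun o => (v o).eval s) :=
  map_bil (evalRingHom s) g u v

omit [Fintype F] [Algebra (ZMod 2) F] in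
lemma Three_natDegree_lin (m : Fin p.S → F) (ψ : Mx F p) :
    (∑ a, C (m a) * (ψ a : F[X])).natDegree ≤ p.J1 :=
  natDegree_sum_le_of_forall_le _ _ fun a _ => (natDegree_C_mul_le _ _).trans (Pol.le (ψ a))

omit [Fintype F] [Algebra (ZMod 2) F] in
lemma Three_natDegree_PP (ω : Om F p) (i : Bool) (m : Fin p.S → F) :
    (PP ω i m).natDegree ≤ p.J :=
  (natDegree_add_le _ _).trans (max_le (GGs_natDegree (gs ω (!i) none).2 _)
    ((Three_natDegree_lin m _).trans (Three_J1_le p)))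

omit [Fintype F] [Algebra (ZMod 2) F] in
lemma Three_eval_PP (ω : Om F p) (i : Bool) (m : Fin p.S → F) (s : F) :
    (PP ω i m).eval s = (blk ω i s).2 none + ∑ a, m a * (blk ω i s).1.2.1 a := by
  simp [PP, blk, mkB, raw, vals, mv, eval_finset_sum]

omit [Field F] [Algebra (ZMod 2) F] in
lemma Three_av_mem {n : ℕ} (T : Finset (Fin n → F)) [Nonempty F] {c θ : ℝ} (hT : (T.card : ℝ) ≤ c)
    (hc : c ≤ θ * (Fintype.card F : ℝ) ^ n) : av (fun t => ind (t ∈ T)) ≤ θ := by
  have hq : (0 : ℝ) < (Fintype.card F : ℝ) ^ n := by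
    have : (0 : ℝ) < Fintype.card F := by exact_mod_cast Fintype.card_pos
    positivity
  have e : ∑ t, ind (t ∈ T) = (T.card : ℝ) := by
    have := sum_mul_ind_mem (fun _ => (1 : ℝ)) T
    simpa using this
  unfold av
  rw [e, Fintype.card_fun, Fintype.card_fin]
  push_cast
  rw [div_le_iff₀ hq]
  linarith

lemma Three_abs_al (hk : ∀ i, IsKer (k i)) (i : Bool) (m : Fin p.S → F) (x : Pt F p) :
    |al k i m x| ≤ 1 := abs_c1_le (hk i) x fun _ => (abs_chi _).le

lemma Three_abs_Ku (hk : ∀ i, IsKer (k i)) (u : Ix F p) (i : Bool) (x x' : Pt F p) :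
    |Ku k u i x x'| ≤ 1 :=
  abs_c1_le (hk _) x' fun _ => abs_c1_le (hk _) x fun _ => (abs_chi _).le

lemma Three_abs_mul {a b : ℝ} (ha : |a| ≤ 1) (hb : |b| ≤ 1) : |a * b| ≤ 1 := by
  rw [abs_mul]; exact mul_le_one₀ ha (abs_nonneg _) hb

lemma Ku_swap (u : Ix F p) (x x' : Pt F p) : Ku k u true x' x = Ku k u false x x' := by
  unfold Ku
  rw [c1_comm]
  exact Three_c1_congr _ fun b' => Three_c1_congr _ fun b => by
    rw [← PhiB_swap u false b b']; rfl

/-- the phase of the diagonal term. -/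
def Three_X (a a' : F) (u u' : Oi p → F) (b1 b3 : Blk F p) : ℝ :=
  chi (bil b1.1.2.2 (bh b1) (bh b1) + a * bil b3.2 (bh b1) (bh b1) +
    a' * bil b1.2 (bh b3) (bh b3) + bil b3.2 u (bh b1) + bil b1.2 u' (bh b3))

/-- patterns of coefficients that correlate with `w`. -/
def Three_TL (D n : ℕ) (pos : Fin n → ℕ) (η : ℝ) (w : F → ℝ) : Finset (Fin n → F) :=
  univ.filter fun t => ∃ f : F[X], f.natDegree ≤ D ∧ (∀ k, f.coeff (pos k) = t k) ∧
    η ≤ |av (fun s : F => chi (f.eval s) * w s)|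

lemma Three_card_TL {D n : ℕ} (hB : Big F D β) (hη : 0 < η) (hβ : β ≤ η ^ 2 / 2)
    (pos : Fin n → ℕ) (hpos : ∀ k, Odd (pos k) ∧ D < 2 * pos k) (w : F → ℝ)
    (hw : ∀ s, |w s| ≤ 1) : ((Three_TL D n pos η w).card : ℝ) ≤ 2 / η ^ 2 := by
  have := top_list hB hη hβ pos hpos w hw
  refine le_trans (le_of_eq ?_) this
  congr 2
  ext t
  simp only [Three_TL, mem_filter, mem_univ, true_and]

lemma Three_mem_TL {D n : ℕ} (pos : Fin n → ℕ) (w : F → ℝ) {f : F[X]} (hf : f.natDegree ≤ D)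
    (h : η ≤ |av (fun s : F => chi (f.eval s) * w s)|) :
    (fun k => f.coeff (pos k)) ∈ Three_TL D n pos η w :=
  mem_filter.2 ⟨mem_univ _, f, hf, fun _ => rfl, h⟩

/-- the exceptional event of the diagonal term. -/
def Three_E (η : ℝ) (D : Blk F p → Pt F p → ℝ) (l : Cv F p) (b : Blk F p)
    (r : Mx F p × Gh F p) : Prop :=
  (∃ a, (r.1 a : F[X]).coeff p.J1 ≠ 0) ∧
    (fun n => (bil (fun e => (r.2 e).1 l) (ph r.1) (ph r.1)).coeff (posT p n)) ∈
      Three_TL (p.J + 2 * p.J1) (2 * p.k) (posT p) η (fun s => D b (s, ptv l s))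

lemma Three_av_E (hp : p.Ok) (hS : Small F p e η δ β θ) (D : Blk F p → Pt F p → ℝ)
    (hD1 : ∀ b x, |D b x| ≤ 1) (l : Cv F p) (b : Blk F p) :
    av (fun r => ind (Three_E η D l b r)) ≤ θ := by
  obtain ⟨hη0, hη1, hβ, hθ⟩ := hS.facts
  have hB : Big F (p.J + 2 * p.J1) β := hS.big.mono (by have := Three_J1_le p; omega)
  have hTL := Three_card_TL hB hη0 hβ (posT p)
    (fun n => ⟨(posT_spec hp n).1, (posT_spec hp n).2.1⟩) (fun s => D b (s, ptv l s))
    (fun s => hD1 _ _)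
  have hθ0 : 0 ≤ θ := by
    have : (0 : ℝ) < θ * (Fintype.card F : ℝ) ^ (2 * p.k) := lt_of_lt_of_le (by positivity) hθ
    by_contra hneg
    have h2 : (0 : ℝ) ≤ (Fintype.card F : ℝ) ^ (2 * p.k) := by positivity
    nlinarith [not_le.1 hneg]
  rw [av_prod]
  refine av_le_const hθ0 fun ψ => ?_
  by_cases hψ : ∃ a, (ψ a : F[X]).coeff p.J1 ≠ 0
  · have := av_posT hp hψ l (fun t => ind (t ∈ Three_TL (p.J + 2 * p.J1) (2 * p.k) (posT p) η
      (fun s => D b (s, ptv l s))))
    refine le_trans (av_mono fun γ => ind_mono fun hγ => hγ.2) ?_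
    exact this.le.trans (Three_av_mem _ hTL hθ)
  · exact av_le_const hθ0 fun γ => by rw [ind_neg fun hγ => hψ hγ.1]; exact hθ0

omit [Fintype F] in
lemma Three_poly (a a' : F) (u u' : Oi p → F) (ω : Om F p) (i : Bool) (b3 : Blk F p) :
    ∃ f1 : F[X], f1.natDegree ≤ max p.J (2 * p.J1) ∧ ∀ s, Three_X a a' u u' (blk ω i s) b3 =
      chi ((bil (fun e => (gs ω i e).1 (cv ω i)) (ph (mx ω i)) (ph (mx ω i)) + f1).eval s) := by
  have dg' : ∀ e, ((gs ω (!i) e).1 (cv ω i)).natDegree ≤ p.J := fun e =>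
    GGs_natDegree (gs ω (!i) e).2 _
  have dC : ∀ c : F, (C c).natDegree ≤ 0 := fun c => (natDegree_C c).le
  refine ⟨C a * bil (fun e => C (b3.2 e)) (ph (mx ω i)) (ph (mx ω i)) +
    C a' * bil (fun e => (gs ω (!i) e).1 (cv ω i)) (fun o => C (bh b3 o)) (fun o => C (bh b3 o)) +
    bil (fun e => C (b3.2 e)) (fun o => C (u o)) (ph (mx ω i)) +
    bil (fun e => (gs ω (!i) e).1 (cv ω i)) (fun o => C (u' o)) (fun o => C (bh b3 o)), ?_, ?_⟩
  · have t1 := (natDegree_C_mul_le a _).trans (Three_natDegree_bil (fun e => dC (b3.2 e))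
      (Three_natDegree_ph (mx ω i)) (Three_natDegree_ph (mx ω i)))
    have t2 := (natDegree_C_mul_le a' _).trans (Three_natDegree_bil dg'
      (fun o => dC (bh b3 o)) (fun o => dC (bh b3 o)))
    have t3 := Three_natDegree_bil (fun e => dC (b3.2 e)) (fun o => dC (u o))
      (Three_natDegree_ph (mx ω i))
    have t4 := Three_natDegree_bil dg' (fun o => dC (u' o)) (fun o => dC (bh b3 o))
    refine natDegree_add_le_of_degree_le (natDegree_add_le_of_degree_le
      (natDegree_add_le_of_degree_le (t1.trans ?_) (t2.trans ?_)) (t3.trans ?_)) (t4.trans ?_) <;>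
      omega
  · intro s
    have e0 : (fun o => (ph (mx ω i) o).eval s) = bh (blk ω i s) := funext (eval_ph _ s)
    have e1 : (fun e => ((gs ω i e).1 (cv ω i)).eval s) = (blk ω i s).1.2.2 := rfl
    have e2 : (fun e => ((gs ω (!i) e).1 (cv ω i)).eval s) = (blk ω i s).2 := rfl
    unfold Three_X
    congr 1
    simp only [eval_add, eval_mul, eval_C, Three_eval_bil, e0, e1, e2, add_assoc]

lemma Three_le_of {x y : ℝ} {P : Prop} (hη : 0 ≤ η) (hx : |x| ≤ 1) (hy : |y| ≤ 1)
    (h : η ≤ |x| → η ≤ |y| → P) : x * y ≤ η + ind P := by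
  have h0 := le_abs_self (x * y)
  have h3 := ind_nonneg P
  by_cases h1 : η ≤ |x|
  · by_cases h2 : η ≤ |y|
    · rw [ind_pos (h h1 h2)]; linarith [Three_abs_mul hx hy]
    · linarith [MTools_mul_abs hx (not_le.1 h2).le]
  · linarith [MTools_abs_mul (not_le.1 h1).le hy]

lemma Three_key (hp : p.Ok) (hη0 : 0 < η) (a a' : F) (u u' : Oi p → F) (D : Blk F p → Pt F p → ℝ)
    (hD1 : ∀ b x, |D b x| ≤ 1) {ω : Om F p} (hω : Reg ω) (i : Bool) (b3 : Blk F p) :
    av (fun s => Three_X a a' u u' (blk ω i s) b3 * D b3 (blk ω i s).1.1) ≤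
      η + ind (Three_E η D (cv ω i) b3 (rr ω i)) := by
  obtain ⟨f1, d1, hev⟩ := Three_poly a a' u u' ω i b3
  have d0 := Three_natDegree_bil (fun e => GGs_natDegree (gs ω i e).2 (cv ω i))
    (Three_natDegree_ph (mx ω i)) (Three_natDegree_ph (mx ω i))
  generalize hf0 : bil (fun e => (gs ω i e).1 (cv ω i)) (ph (mx ω i)) (ph (mx ω i)) = f0 at hev d0
  have hev' : ∀ s, Three_X a a' u u' (blk ω i s) b3 * D b3 (blk ω i s).1.1 =
      chi ((f0 + f1).eval s) * D b3 (s, ptv (cv ω i) s) := fun s => by rw [hev]; rfl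
  rw [av_congr hev']
  have h1 : |av (fun s => chi ((f0 + f1).eval s) * D b3 (s, ptv (cv ω i) s))| ≤ 1 :=
    abs_av_le_const zero_le_one fun s => Three_abs_mul (abs_chi _).le (hD1 _ _)
  have := Three_le_of (P := Three_E η D (cv ω i) b3 (rr ω i)) hη0.le h1 abs_one.le fun hlt _ => by
    refine ⟨(hω.typ i).top, ?_⟩
    have hm := Three_mem_TL (D := p.J + 2 * p.J1) (posT p) (fun s => D b3 (s, ptv (cv ω i) s))
      (natDegree_add_le_of_degree_le (by omega) (d1.trans (by omega))) hlt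
    have : (fun n => (f0 + f1).coeff (posT p n)) = fun n => f0.coeff (posT p n) := by
      funext n
      have := posT_spec hp n
      rw [coeff_add, coeff_eq_zero_of_natDegree_lt (p := f1) (by omega), add_zero]
    rw [this, ← hf0] at hm
    exact hm
  rwa [mul_one] at this

/-- (III) the diagonal term is unpredictable. -/
theorem diag_small (hp : p.Ok) (h : GP0 ρ k δ Tc θ) (hs : Sup ρ) (hS : Small F p e η δ β θ)
    (i : Bool) (a a' : F) (u u' : Oi p → F) :
    Ex (mP (k (!i))) (fun b3 => av (fun x => c1 (k i) x (fun b1 =>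
      chi (bil b1.1.2.2 (bh b1) (bh b1) + a * bil b3.2 (bh b1) (bh b1) +
        a' * bil b1.2 (bh b3) (bh b3) + bil b3.2 u (bh b1) + bil b1.2 u' (bh b3))) ^ 2)) ≤
      η + 2 * δ := by
  have hη0 := hS.facts.1
  obtain ⟨D, hD⟩ : ∃ D : Blk F p → Pt F p → ℝ,
      D = fun b3 x => c1 (k i) x (fun b1 => Three_X a a' u u' b1 b3) := ⟨_, rfl⟩
  have hD1 : ∀ b x, |D b x| ≤ 1 := fun b x => by
    rw [hD]; exact abs_c1_le (h.ker i) x fun _ => (abs_chi _).le
  have e1 : Ex (mP (k (!i))) (fun b3 => av (fun x =>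
      c1 (k i) x (fun b1 => Three_X a a' u u' b1 b3) ^ 2)) =
      Ex (mP (k (!i))) (fun b3 => Ex (mP (k i))
        (fun b1 => Three_X a a' u u' b1 b3 * D b3 b1.1.1)) := by
    refine Ex_congr fun b3 => ?_
    rw [Ex_mP]
    exact av_congr fun x => by
      rw [Three_c1_mul_pt x (fun b1 => Three_X a a' u u' b1 b3) (D b3), sq, hD]
  have htv := h.tv2 i (fun b1 b3 => Three_X a a' u u' b1 b3 * D b3 b1.1.1)
    (fun b b' => Three_abs_mul (abs_chi _).le (hD1 _ _))
  have hU := h.unif i (Three_E η D) (Three_av_E hp hS D hD1)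
  have htrue : Ex ρ (fun ω => av (fun s' => av (fun s =>
      Three_X a a' u u' (blk ω i s) (blk ω (!i) s') * D (blk ω (!i) s') (blk ω i s).1.1))) ≤
      η + δ := by
    refine (Ex_mono' h.prob.1 (g := fun ω => η + av (fun s' : F =>
      ind (Three_E η D (cv ω i) (blk ω (!i) s') (rr ω i)))) fun ω hω => ?_).trans ?_
    · refine (av_mono fun s' => Three_key hp hη0 a a' u u' D hD1 (hs.reg ω hω) i _).trans ?_
      rw [av_add, av_const]
    · rw [Ex_add, Ex_const h.prob]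
      exact add_le_add le_rfl hU
  refine le_trans (le_of_eq e1) ?_
  have h2 := (abs_le.1 htv).1
  have h3 := le_sub_comm.1 h2
  refine h3.trans ?_
  refine le_trans (sub_le_sub_right htrue _) ?_
  linarith

lemma Three_heavy_E (hp : p.Ok) (hS : Small F p e η δ β θ) {m : Fin p.S → F} (hm : m ≠ 0)
    (T T' : Finset (Fin (2 * p.k) → F)) (hT : (T.card : ℝ) ≤ 2 / η ^ 2)
    (hT' : (T'.card : ℝ) ≤ 2 / η ^ 2) :
    av (fun r : Mx F p × Gh F p => ind ((fun n => (∑ a, C (m a) * (r.1 a : F[X])).coeff (posP p n))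
      ∈ (T ×ˢ T').image fun t => t.1 - t.2)) ≤ θ := by
  have hSL : (((T ×ˢ T').image fun t => t.1 - t.2).card : ℝ) ≤ (2 / η ^ 2) ^ 2 := by
    have h1 : (((T ×ˢ T').image fun t => t.1 - t.2).card : ℝ) ≤ T.card * T'.card := by
      have := card_image_le (s := T ×ˢ T') (f := fun t => t.1 - t.2)
      rw [card_product] at this
      exact_mod_cast this
    refine h1.trans ?_
    rw [sq]
    exact mul_le_mul hT hT' (Nat.cast_nonneg _) (by positivity)
  rw [av_prod]
  have := av_posP hp hm (fun t => ind (t ∈ (T ×ˢ T').image fun t => t.1 - t.2))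
  refine le_trans (le_of_eq (av_congr fun ψ => ?_)) (this.le.trans (Three_av_mem _ hSL hS.hθ))
  exact av_const (X := Gh F p) (ind ((fun n => (∑ a, C (m a) * (ψ a : F[X])).coeff (posP p n))
    ∈ (T ×ˢ T').image fun t => t.1 - t.2))

/-- two different additive parts are not both predictable. -/
theorem heavy_pair (hp : p.Ok) (h : GP0 ρ k δ Tc θ) (hS : Small F p e η δ β θ) (i : Bool)
    {m m' : Fin p.S → F} (hm : m ≠ m') :
    av (fun x => al k i m x ^ 2) * av (fun x => al k i m' x ^ 2) ≤ η + 2 * δ := by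
  obtain ⟨hη0, hη1, hβ, hθ⟩ := hS.facts
  obtain ⟨φ, hφ⟩ : ∃ φ : (Fin p.S → F) → Blk F p → ℝ, φ = fun m b =>
    chi (b.2 none + ∑ a, m a * b.1.2.1 a) * al k i m b.1.1 := ⟨_, rfl⟩
  have hφ1 : ∀ m b, |φ m b| ≤ 1 := fun m b => by
    rw [hφ]; exact Three_abs_mul (abs_chi _).le (Three_abs_al h.ker _ _ _)
  have e1 : ∀ m, Ex (mP (k i)) (φ m) = av (fun x => al k i m x ^ 2) := fun m => by
    rw [Ex_mP, hφ]
    exact av_congr fun x => by
      rw [sq]
      exact Three_c1_mul_pt x (fun b : Blk F p => chi (b.2 none + ∑ a, m a * b.1.2.1 a))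
        (al k i m)
  have htv := h.tv2s i (φ m) (φ m') (hφ1 m) (hφ1 m')
  rw [e1, e1] at htv
  have hB : Big F p.J β := hS.big.mono (by omega)
  obtain ⟨TL, hTLd⟩ : ∃ TL : (Fin p.S → F) → Cv F p → Finset (Fin (2 * p.k) → F), TL = fun m l =>
    Three_TL p.J (2 * p.k) (posP p) η (fun s => al k i m (s, ptv l s)) := ⟨_, rfl⟩
  have hTL : ∀ m l, ((TL m l).card : ℝ) ≤ 2 / η ^ 2 := fun m l => by
    rw [hTLd]
    exact Three_card_TL hB hη0 hβ (posP p) (fun n => ⟨(posP_spec hp n).1, (posP_spec hp n).2.1⟩) _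
      (fun s => Three_abs_al h.ker _ _ _)
  have hU := h.unif i (fun l _ r => (fun n => (∑ a, C ((m - m') a) * (r.1 a : F[X])).coeff
    (posP p n)) ∈ ((TL m l) ×ˢ (TL m' l)).image fun t => t.1 - t.2)
    (fun l _ => Three_heavy_E hp hS (sub_ne_zero.2 hm) _ _ (hTL m l) (hTL m' l))
  simp only [av_const] at hU
  have hev : ∀ ω m s, φ m (blk ω i s) =
      chi ((PP ω i m).eval s) * al k i m (s, ptv (cv ω i) s) := fun ω m s => by
    rw [Three_eval_PP, hφ]; rfl
  have key : ∀ ω, av (fun s => φ m (blk ω i s)) * av (fun s => φ m' (blk ω i s)) ≤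
      η + ind ((fun n => (∑ a, C ((m - m') a) * ((rr ω i).1 a : F[X])).coeff
        (posP p n)) ∈ ((TL m (cv ω i)) ×ˢ (TL m' (cv ω i))).image fun t => t.1 - t.2) := by
    intro ω
    refine Three_le_of hη0.le (abs_av_le_const zero_le_one fun s => hφ1 _ _)
      (abs_av_le_const zero_le_one fun s => hφ1 _ _) fun h1 h2 => ?_
    rw [av_congr (hev ω m)] at h1
    rw [av_congr (hev ω m')] at h2
    refine mem_image.2 ⟨(fun n => (PP ω i m).coeff (posP p n),
      fun n => (PP ω i m').coeff (posP p n)), mem_product.2 ⟨?_, ?_⟩, ?_⟩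
    · rw [hTLd]; exact Three_mem_TL _ _ (Three_natDegree_PP ω i m) h1
    · rw [hTLd]; exact Three_mem_TL _ _ (Three_natDegree_PP ω i m') h2
    · funext n
      simp only [Pi.sub_apply]
      rw [← coeff_sub]
      congr 1
      simp only [PP, add_sub_add_left_eq_sub, ← sum_sub_distrib, map_sub, sub_mul]
      rfl
  have htrue : Ex ρ (fun ω => av (fun s => φ m (blk ω i s)) * av (fun s => φ m' (blk ω i s))) ≤
      η + δ := by
    refine (Ex_mono h.prob.1 key).trans ?_
    rw [Ex_add, Ex_const h.prob]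
    exact add_le_add le_rfl hU
  have h2 := (abs_le.1 htv).1
  have h3 := le_sub_comm.1 h2
  refine h3.trans ?_
  refine le_trans (sub_le_sub_right htrue _) ?_
  linarith

theorem flag_bal (hp : p.Ok) (h : GP0 ρ k δ Tc θ) (hS : Small F p e η δ β θ) (i : Bool)
    (m : Fin p.S → F) (hm : ∀ ω, ρ ω ≠ 0 → ¬ TrC (PP ω i m)) : |av (al k i m)| ≤ β + δ := by
  have _ := hp
  have htv := h.tv1 i (fun b : Blk F p => chi (b.2 none + ∑ a, m a * b.1.2.1 a))
    (fun b => (abs_chi _).le)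
  rw [Ex_mP] at htv
  have hB : Big F p.J β := hS.big.mono (by omega)
  have htrue : |Ex ρ (fun ω => av (fun s => chi ((PP ω i m).eval s)))| ≤ β := by
    refine (abs_Ex_le h.prob.1 _).trans ((Ex_mono' h.prob.1 (g := fun _ => β) fun ω hω =>
      bias_le hB (Three_natDegree_PP ω i m) (hm ω hω)).trans (Ex_const h.prob β).le)
  simp only [Three_eval_PP] at htrue
  change |Ex ρ (fun ω => av (fun s => chi ((blk ω i s).2 none +
    ∑ a, m a * (blk ω i s).1.2.1 a))) - av (al k i m)| ≤ δ at htv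
  rw [abs_le] at htv htrue ⊢
  constructor <;> linarith [htv.1, htv.2, htrue.1, htrue.2]

theorem flag_const (h : GP0 ρ k δ Tc θ) (i : Bool) (m : Fin p.S → F) (c : ZMod 2)
    (hm : ∀ ω, ρ ω ≠ 0 → ∀ s, tr ((PP ω i m).eval s) = c) :
    av (fun x => |al k i m x - sgn c|) ≤ δ := by
  have htv := h.tv1 i (fun b : Blk F p => sgn c * chi (b.2 none + ∑ a, m a * b.1.2.1 a))
    (fun b => Three_abs_mul (abs_sgn c).le (abs_chi _).le)
  rw [Ex_mP] at htv
  have e1 : ∀ x, |al k i m x - sgn c| = 1 - sgn c * al k i m x := fun x => by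
    have := abs_le.1 (Three_abs_al h.ker i m x)
    rcases zmod2_cases c with rfl | rfl
    · rw [sgn_zero, abs_of_nonpos (by linarith)]; ring
    · rw [sgn_one, abs_of_nonneg (by linarith)]; ring
  have e2 : Ex ρ (fun ω => av (fun s => sgn c * chi ((blk ω i s).2 none +
      ∑ a, m a * (blk ω i s).1.2.1 a))) = 1 := by
    have hle : ∀ ω, ρ ω ≠ 0 → av (fun s => sgn c * chi ((blk ω i s).2 none +
        ∑ a, m a * (blk ω i s).1.2.1 a)) = 1 := fun ω hω => by
      rw [av_congr (g := fun _ => 1) fun s => by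
        rw [← Three_eval_PP, chi, hm ω hω s, sgn_mul_self], av_const]
    exact le_antisymm ((Ex_mono' h.prob.1 fun ω hω => (hle ω hω).le).trans (Ex_const h.prob 1).le)
      ((Ex_const h.prob 1).ge.trans (Ex_mono' h.prob.1 fun ω hω => (hle ω hω).ge))
  change |Ex ρ (fun ω => av (fun s => sgn c * chi ((blk ω i s).2 none +
    ∑ a, m a * (blk ω i s).1.2.1 a))) - _| ≤ δ at htv
  rw [e2] at htv
  simp only [Three_c1_const_mul] at htv
  rw [av_congr e1, av_sub, av_const]
  exact (le_abs_self _).trans htv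

omit [Fintype F] [Algebra (ZMod 2) F] in
lemma Three_eval_GP (ω : Om F p) (u : Ix F p) (i : Bool) (s : F) (a : Fin p.S) :
    (GP ω u i a).eval s = gv (blk ω (!i) s).2 (u i) a := by
  simp [GP, gv, blk, mkB, raw, vals, eval_finset_sum]

omit [Fintype F] [Algebra (ZMod 2) F] in
lemma Three_PhiB_eq (u : Ix F p) (i : Bool) (b b' : Blk F p) :
    PhiB u i b b' = u (!i) none * b.2 none + u i none * b'.2 none +
      ∑ a, b.1.2.1 a * gv b'.2 (u i) a + ∑ a, b'.1.2.1 a * gv b.2 (u (!i)) a := by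
  unfold PhiB bh
  rw [bil_hat, bil_hat]; ring

theorem rel_close (h : GP0 ρ k δ Tc θ) (u : Ix F p) (Mm : Bool → Fin p.S → Oi p → F)
    (hM : ∀ ω, ρ ω ≠ 0 → ∀ i, Rel ω u i (Mm i)) :
    av (fun x => av (fun x' => |Ku k u false x x' - Kt k u Mm x x'|)) ≤ 4 * δ := by
  let V : Bool → Blk F p → Prop := fun i b =>
    gv b.2 (u i) ≠ fun a => ∑ o, Mm i a o * bh b o
  have hV : ∀ i, av (fun x => c1 (k (!i)) x (fun b => ind (V i b))) ≤ δ := by
    intro i
    have htv := h.tv1 (!i) (fun b => ind (V i b))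
      (fun b => by rw [abs_of_nonneg (ind_nonneg _)]; exact ind_le_one _)
    rw [Ex_mP] at htv
    have hle : ∀ ω, ρ ω ≠ 0 → av (fun s => ind (V i (blk ω (!i) s))) ≤ 0 := fun ω hω => by
      refine av_le_const le_rfl fun s => (ind_neg ?_).le
      refine not_not.2 (funext fun a => ?_)
      rw [← Three_eval_GP, hM ω hω i a, eval_finset_sum]
      exact sum_congr rfl fun o _ => by rw [eval_mul, eval_C, eval_ph]; rfl
    have h0 : Ex ρ (fun ω => av (fun s => ind (V i (blk ω (!i) s)))) ≤ 0 :=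
      (Ex_mono' h.prob.1 hle).trans (Ex_zero ρ).le
    have := (abs_le.1 htv).1
    change -δ ≤ Ex ρ (fun ω => av (fun s => ind (V i (blk ω (!i) s)))) - _ at this
    linarith
  have key : ∀ x x', |Ku k u false x x' - Kt k u Mm x x'| ≤
      2 * c1 (k false) x (fun b => ind (V true b)) +
        2 * c1 (k true) x' (fun b => ind (V false b)) := by
    intro x x'
    unfold Ku Kt
    simp only [Bool.not_false]
    rw [← Three_c1_sub]
    refine (Three_abs_c1_le (h.ker true) x' (ψ := fun b' =>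
      2 * c1 (k false) x (fun b => ind (V true b)) + 2 * ind (V false b')) fun b' => ?_).trans ?_
    · rw [← Three_c1_sub]
      refine (Three_abs_c1_le (h.ker false) x (ψ := fun b =>
        2 * ind (V true b) + 2 * ind (V false b')) fun b => ?_).trans ?_
      · have n1 := ind_nonneg (V true b)
        have n2 := ind_nonneg (V false b')
        have hb : ∀ y z : F, |chi y - chi z| ≤ 2 := fun y z =>
          (abs_sub _ _).trans (by rw [abs_chi, abs_chi]; norm_num)
        by_cases v1 : V true b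
        · rw [ind_pos v1]; linarith [hb (PhiB u false b b') (aB u Mm false b + aB u Mm true b' +
            ∑ a, ∑ c, b.1.2.1 a * (Mm false a (some c) + Mm true c (some a)) * b'.1.2.1 c)]
        by_cases v2 : V false b'
        · rw [ind_pos v2]; linarith [hb (PhiB u false b b') (aB u Mm false b + aB u Mm true b' +
            ∑ a, ∑ c, b.1.2.1 a * (Mm false a (some c) + Mm true c (some a)) * b'.1.2.1 c)]
        have w1 := not_not.1 v1
        have w2 := not_not.1 v2
        have : PhiB u false b b' = aB u Mm false b + aB u Mm true b' +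
            ∑ a, ∑ c, b.1.2.1 a * (Mm false a (some c) + Mm true c (some a)) * b'.1.2.1 c := by
          rw [Three_PhiB_eq]
          simp only [Bool.not_false, aB, Bool.not_true]
          rw [w1, w2]
          simp only [Fintype.sum_option, bh, hat_none, hat_some, mul_one, mul_add, add_mul,
            sum_add_distrib, mul_sum]
          rw [sum_comm (f := fun a c => b.1.2.1 a * Mm true c (some a) * b'.1.2.1 c)]
          have t1 : ∀ (y z : Fin p.S → F), ∑ a, y a * z a = ∑ a, z a * y a := fun y z =>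
            sum_congr rfl fun _ _ => mul_comm _ _
          rw [t1 b.1.2.1 (fun a => Mm false a none), t1 b'.1.2.1 (fun a => Mm true a none)]
          have t2 : ∑ a, ∑ c, b.1.2.1 a * (Mm false a (some c) * b'.1.2.1 c) =
              ∑ a, ∑ c, b.1.2.1 a * Mm false a (some c) * b'.1.2.1 c :=
            sum_congr rfl fun _ _ => sum_congr rfl fun _ _ => by ring
          have t3 : ∑ c, ∑ a, b'.1.2.1 c * (Mm true c (some a) * b.1.2.1 a) =
              ∑ c, ∑ a, b.1.2.1 a * Mm true c (some a) * b'.1.2.1 c :=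
            sum_congr rfl fun _ _ => sum_congr rfl fun _ _ => by ring
          rw [t2, t3]; ring
        rw [this, sub_self, abs_zero]; linarith
      · rw [Three_c1_add, Three_c1_const_mul, Three_c1_const (h.ker false)]
    · rw [Three_c1_add, Three_c1_const (h.ker true), Three_c1_const_mul]
  refine (av_mono fun x => av_mono (key x)).trans ?_
  simp only [av_add, av_const, av_const_mul]
  have h1 := hV true
  have h2 := hV false
  simp only [Bool.not_true, Bool.not_false] at h1 h2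
  linarith

end

end Vale.Agent.P060
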