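import Vale.Agent.P060.Cont

/-! P060: structure of the non-fresh characters at one vertex. -/

namespace Vale.Agent.P060

open Finset Polynomial Vale.Agent.P056.Sharp

noncomputable section

open scoped Classical

variable {F : Type} [Field F] {p : Par}

lemma Vert_cof_none {S : ℕ} (u v : Option (Fin S) → F) : cof none u v = u none * v none := by
  simp [cof, bil]

lemma Vert_cof_diag {S : ℕ} (u v : Option (Fin S) → F) (a : Fin S) :
    cof (some s(a, a)) u v = u (some a) * v (some a) := by
  unfold cof bil
  rw [sum_eq_single a, sum_eq_single a]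
  · simp
  · intro b _ hb
    have : s(a, b) ≠ s(a, a) := by
      intro h; rcases Sym2.eq_iff.1 h with h | h
      · exact hb h.2
      · exact hb h.2
    simp [this]
  · simp
  · intro c _ hc
    refine sum_eq_zero fun b _ => ?_
    have : s(c, b) ≠ s(a, a) := by
      intro h; rcases Sym2.eq_iff.1 h with h | h
      · exact hc h.1
      · exact hc h.1
    simp [this]
  · simp

lemma Vert_cof_off {S : ℕ} (u v : Option (Fin S) → F) {a b : Fin S} (hab : a ≠ b) :
    cof (some s(a, b)) u v = u (some a) * v (some b) + u (some b) * v (some a) := by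
  unfold cof bil
  have key : ∀ x y : Fin S, u (some x) * (Pi.single (some s(a, b)) (1 : F) :
      Option (Sym2 (Fin S)) → F) (some s(x, y)) * v (some y) =
      (if x = a then (if y = b then u (some a) * v (some b) else 0) else 0) +
      (if x = b then (if y = a then u (some b) * v (some a) else 0) else 0) := by
    intro x y
    by_cases h : s(x, y) = s(a, b)
    · rcases Sym2.eq_iff.1 h with ⟨rfl, rfl⟩ | ⟨rfl, rfl⟩
      · simp [hab]
      · simp [hab.symm, Sym2.eq_swap]
    · have h1 : ¬ (x = a ∧ y = b) := fun h' => h (by rw [h'.1, h'.2])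
      have h2 : ¬ (x = b ∧ y = a) := fun h' => h (by rw [h'.1, h'.2, Sym2.eq_swap])
      have e1 : (if x = a then (if y = b then u (some a) * v (some b) else 0) else 0) = 0 := by
        split_ifs with h3 h4
        · exact absurd ⟨h3, h4⟩ h1
        · rfl
        · rfl
      have e2 : (if x = b then (if y = a then u (some b) * v (some a) else 0) else 0) = 0 := by
        split_ifs with h3 h4
        · exact absurd ⟨h3, h4⟩ h2
        · rfl
        · rfl
      rw [e1, e2]; simp [h]
  simp only [key, sum_add_distrib]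
  simp

/-- the symmetric square has no zero divisors on a pair of independent vectors. -/
theorem cof_cancel {S : ℕ} {a b u v : Fin S → F}
    (hab : ∀ c c' : F, (∀ x, c * a x + c' * b x = 0) → c = 0 ∧ c' = 0) (u0 v0 : F)
    (h : ∀ e, cof (some e) (hat a) (fun o => o.elim u0 u) =
      cof (some e) (hat b) (fun o => o.elim v0 v)) :
    ∃ c : F, (∀ x, u x = c * b x) ∧ ∀ x, v x = c * a x := by
  have hd : ∀ x, a x * u x = b x * v x := fun x => by
    have := h s(x, x)
    rw [Vert_cof_diag, Vert_cof_diag] at this
    simpa using this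
  have ho : ∀ x y, a x * u y + a y * u x = b x * v y + b y * v x := fun x y => by
    by_cases hxy : x = y
    · subst hxy; rw [hd]
    · have := h s(x, y)
      rw [Vert_cof_off _ _ hxy, Vert_cof_off _ _ hxy] at this
      simpa using this
  obtain ⟨x0, x1, hD⟩ : ∃ x0 x1, a x0 * b x1 - a x1 * b x0 ≠ 0 := by
    by_contra hc
    push Not at hc
    have ha : ∀ x, a x = 0 := fun x0 => by
      have := (hab (b x0) (- a x0) (fun x => by linear_combination (-1 : F) * hc x0 x)).2
      exact neg_eq_zero.1 this
    exact one_ne_zero (hab 1 0 (fun x => by rw [ha x]; ring)).1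
  have hu : b x1 * u x0 - b x0 * u x1 = 0 := by
    refine (mul_eq_zero.1 ?_).resolve_left hD
    linear_combination (b x1) ^ 2 * hd x0 + (b x0) ^ 2 * hd x1 - b x0 * b x1 * ho x0 x1
  have hv : a x0 * v x1 - a x1 * v x0 = 0 := by
    refine (mul_eq_zero.1 ?_).resolve_left hD
    linear_combination (-1 : F) * (a x1) ^ 2 * hd x0 - (a x0) ^ 2 * hd x1 + a x0 * a x1 * ho x0 x1
  refine ⟨(b x1 * v x0 - b x0 * v x1) / (a x0 * b x1 - a x1 * b x0), fun y => ?_, fun y => ?_⟩
  · rw [div_mul_eq_mul_div, eq_div_iff hD]
    linear_combination b x1 * ho x0 y - b x0 * ho x1 y - a y * hu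
  · rw [div_mul_eq_mul_div, eq_div_iff hD]
    refine mul_left_cancel₀ hD ?_
    have e0 := ho x0 y
    have e1 := ho x1 y
    have e2 := ho x0 x1
    have e3 := hd x0
    have e4 := hd x1
    have hw : (a x0 * b x1 - a x1 * b x0) * (a x0 * u x1 - a x1 * u x0) =
        (a x0 * b x1 - a x1 * b x0) * (b x1 * v x0 - b x0 * v x1) := by
      linear_combination (-2 * a x1 * b x1) * e3 + (a x0 * b x1 + a x1 * b x0) * e2 -
        2 * a x0 * b x0 * e4
    linear_combination (a x0 * b x1 - a x1 * b x0) * (a x1 * e0 - a x0 * e1 - b y * hv) + a y * hw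

/-- the functionals that do not distinguish two curves. -/
def VertU (L L' : Cv F p) : Submodule F (F[X] →ₗ[F] F) where
  carrier := {A | InU L L' A}
  add_mem' := fun {A B} hA hB G => by
    simp only [LinearMap.add_apply]; rw [hA G, hB G]
  zero_mem' := fun G => rfl
  smul_mem' := fun c A hA G => by
    simp only [LinearMap.smul_apply]; rw [hA G]

lemma mem_VertU {L L' : Cv F p} {A : F[X] →ₗ[F] F} : A ∈ VertU L L' ↔ InU L L' A := Iff.rfl

/-- functionals that are two evaluations plus an element of `U` in small degree. -/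
def VertD (L L' : Cv F p) (t t' : F) : Submodule F (F[X] →ₗ[F] F) where
  carrier := {A | ∃ c c' : F, ∃ η, InU L L' η ∧
    ∀ f : F[X], f.natDegree ≤ p.J → A f = c * f.eval t + c' * f.eval t' + η f}
  add_mem' := by
    rintro A B ⟨c, c', η, hη, h⟩ ⟨d, d', ζ, hζ, h'⟩
    refine ⟨c + d, c' + d', η + ζ, (VertU L L').add_mem hη hζ, fun f hf => ?_⟩
    simp only [LinearMap.add_apply]; rw [h f hf, h' f hf]; ring
  zero_mem' := ⟨0, 0, 0, (VertU L L').zero_mem, fun f _ => by simp⟩
  smul_mem' := by
    rintro r A ⟨c, c', η, hη, h⟩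
    refine ⟨r * c, r * c', r • η, (VertU L L').smul_mem r hη, fun f hf => ?_⟩
    simp only [LinearMap.smul_apply, smul_eq_mul]; rw [h f hf]; ring

variable [Fintype F] [Algebra (ZMod 2) F]

theorem vertex_struct (hp : p.Ok) {ψ : Bool → Mx F p} {L : Bool → Cv F p} {τ : Bool × Bool → F}
    {ξ : Xi F} (hτ : Function.Injective τ) (i : Bool) (hψ : Typ (ψ i))
    (hok : okc (L false) (L true)) (hav : Avoid L τ) (h : Nn ψ L τ ξ) :
    ∃ η2 η1 : F[X] →ₗ[F] F, InU (L false) (L true) η2 ∧ InU (L false) (L true) η1 ∧
      ∃ l l' : Bool → Oi p → F, ∀ (k : Bool) (o : Oi p) (f : F[X]), f.natDegree ≤ p.J →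
        BxL (ξ (i, k)) (ph (ψ i) o) f = l k o * f.eval (τ (i, k)) + l' k o * f.eval (τ (!i, k)) +
          o.elim (η2 f) (fun a => mv (ψ i) (τ (i, !k)) a * η1 f) := by
  have := charP_two (F := F)
  choose c hc using h i
  set A : Bool → Ei p → F[X] →ₗ[F] F := fun k e => Afun (ψ i) (τ (i, k)) (ξ (i, k)) e with hA
  set B : Bool → Ei p → F[X] →ₗ[F] F := fun k e =>
    A k e - c e (i, k) • leval (τ (i, k)) - c e (!i, k) • leval (τ (!i, k)) with hB
  have hBG : ∀ e (G : GG F p), B false e (G.1 (L false)) + B true e (G.1 (L true)) = 0 := by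
    intro e G
    have h1 := hc e G
    unfold Th at h1
    rw [Fintype.sum_bool, Fintype.sum_prod_type, Fintype.sum_bool, Fintype.sum_bool,
      Fintype.sum_bool] at h1
    simp only [hB, hA, LinearMap.sub_apply, LinearMap.smul_apply, smul_eq_mul, leval_apply]
    cases i
    · simp only [Bool.not_false] at h1 ⊢; linear_combination h1
    · simp only [Bool.not_true] at h1 ⊢; linear_combination h1
  have hBf : ∀ e (f : F[X]), f.natDegree ≤ p.J → B true e f = B false e f := by
    intro e f hf
    have h1 := hBG e ⟨fun _ => f, const_mem hf⟩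
    simp only at h1
    have h2 := CharTwo.add_self_eq_zero (B false e f)
    linear_combination h1 - h2
  have hη : ∀ e, InU (L false) (L true) (B false e) := by
    intro e G
    have h1 := hBG e G
    rw [hBf e _ (GGs_natDegree G.2 _)] at h1
    have h2 := CharTwo.add_self_eq_zero (B false e (G.1 (L true)))
    linear_combination h1 - h2
  have hAe : ∀ k e (f : F[X]), f.natDegree ≤ p.J → A k e f =
      c e (i, k) * f.eval (τ (i, k)) + c e (!i, k) * f.eval (τ (!i, k)) + B false e f := by
    intro k e f hf
    have h1 : B k e f = B false e f := by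
      cases k
      · rfl
      · exact hBf e f hf
    rw [← h1]
    simp only [hB, LinearMap.sub_apply, LinearMap.smul_apply, smul_eq_mul, leval_apply]
    ring
  have hAD : ∀ k e, A k e ∈ VertD (L false) (L true) (τ (i, k)) (τ (!i, k)) :=
    fun k e => ⟨_, _, _, hη e, hAe k e⟩
  have hne : ∀ k, τ (i, k) ≠ τ (i, !k) := fun k h => by
    have := hτ h; simp at this
  have hne' : ∀ k, τ (i, k) ≠ τ (!i, k) := fun k h => by
    have := hτ h; simp at this
  have hp0 : ∀ k, ∃ a, mv (ψ i) (τ (i, k)) a ≠ 0 := fun k => by
    by_contra hcon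
    push Not at hcon
    exact one_ne_zero (hψ.two (c := 1) (c' := 0) (hne k) (fun a => by rw [hcon a]; ring)).1
  have hlam : ∀ k o, BxL (ξ (i, k)) (ph (ψ i) o) ∈
      VertD (L false) (L true) (τ (i, k)) (τ (!i, k)) := by
    intro k o
    obtain ⟨a0, ha0⟩ := hp0 k
    have hd : ∀ a, A k (some s(a, a)) =
        mv (ψ i) (τ (i, k)) a • BxL (ξ (i, k)) (ph (ψ i) (some a)) := fun a =>
      LinearMap.ext fun f => by
        simp only [hA, Afun_apply, Vert_cof_diag, hat_some, LinearMap.smul_apply, smul_eq_mul]
    have ho : ∀ a, a0 ≠ a → A k (some s(a0, a)) =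
        mv (ψ i) (τ (i, k)) a0 • BxL (ξ (i, k)) (ph (ψ i) (some a)) +
        mv (ψ i) (τ (i, k)) a • BxL (ξ (i, k)) (ph (ψ i) (some a0)) := fun a ha =>
      LinearMap.ext fun f => by
        simp only [hA, Afun_apply, Vert_cof_off _ _ ha, hat_some, LinearMap.smul_apply,
          LinearMap.add_apply, smul_eq_mul]
    have h0 : BxL (ξ (i, k)) (ph (ψ i) (some a0)) ∈
        VertD (L false) (L true) (τ (i, k)) (τ (!i, k)) := by
      have h1 := hAD k (some s(a0, a0))
      rw [hd] at h1
      exact (Submodule.smul_mem_iff _ ha0).1 h1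
    cases o with
    | none =>
      have h1 := hAD k none
      have h2 : A k none = BxL (ξ (i, k)) (ph (ψ i) none) := LinearMap.ext fun f => by
        simp only [hA, Afun_apply, Vert_cof_none, hat_none, one_mul]
      rwa [h2] at h1
    | some a =>
      by_cases ha : a0 = a
      · rw [← ha]; exact h0
      · have h1 := hAD k (some s(a0, a))
        rw [ho a ha] at h1
        have h2 := (Submodule.add_mem_iff_left _ (Submodule.smul_mem _ _ h0)).1 h1
        exact (Submodule.smul_mem_iff _ ha0).1 h2
  choose l l' η hηU hl using hlam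
  have hcof : ∀ k e (f : F[X]), f.natDegree ≤ p.J →
      cof e (hat (mv (ψ i) (τ (i, k)))) (fun o => η k o f) = B false e f := by
    intro k e
    set w : Oi p → F := fun o => cof e (hat (mv (ψ i) (τ (i, k)))) (Pi.single o 1) with hw
    have hC : ∀ v : Oi p → F, cof e (hat (mv (ψ i) (τ (i, k)))) v = ∑ o, w o * v o :=
      fun v => bil_eq_sum_right _ _ _
    have hU : InU (L false) (L true) (∑ o, w o • η k o - B false e) := by
      intro G
      simp only [LinearMap.sub_apply, LinearMap.sum_apply, LinearMap.smul_apply]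
      rw [hη e G]
      congr 1
      exact sum_congr rfl fun o _ => by rw [hηU k o G]
    have hE : ∀ f : F[X], f.natDegree ≤ p.J → (∑ o, w o • η k o - B false e) f =
        (c e (i, k) - ∑ o, w o * l k o) * f.eval (τ (i, k)) +
          (c e (!i, k) - ∑ o, w o * l' k o) * f.eval (τ (!i, k)) := by
      intro f hf
      have h1 := hAe k e f hf
      simp only [hA, Afun_apply, hC, hl k _ f hf, mul_add, sum_add_distrib] at h1
      simp only [LinearMap.sub_apply, LinearMap.sum_apply, LinearMap.smul_apply, smul_eq_mul,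
        sub_mul, sum_mul, mul_assoc]
      linear_combination h1
    obtain ⟨e1, e2⟩ := evals_indep hp hok hU (hne' k) (hav _) (hav _)
      (fun f hf => hE f (hf.trans (Nat.sub_le _ _)))
    intro f hf
    have h1 := hE f hf
    rw [e1, e2] at h1
    simp only [LinearMap.sub_apply, LinearMap.sum_apply, LinearMap.smul_apply, smul_eq_mul] at h1
    rw [hC]
    linear_combination h1
  obtain ⟨a1, ha1⟩ := hp0 true
  refine ⟨B false none, (mv (ψ i) (τ (i, true)) a1)⁻¹ • η false (some a1), hη none,
    (VertU _ _).smul_mem _ (hηU _ _), l, l', fun k o f hf => ?_⟩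
  rw [hl k o f hf]
  congr 1
  cases o with
  | none =>
    have h1 := hcof k none f hf
    rw [Vert_cof_none] at h1
    simpa using h1
  | some a =>
    have hx : ∀ k, (fun o => η k o f) =
        fun o : Oi p => o.elim (η k none f) (fun a => η k (some a) f) :=
      fun k => funext fun o => by cases o <;> rfl
    obtain ⟨d, hd1, hd2⟩ := cof_cancel (a := mv (ψ i) (τ (i, false))) (b := mv (ψ i) (τ (i, true)))
      (u := fun a => η false (some a) f) (v := fun a => η true (some a) f)
      (fun c c' h => hψ.two (hne false) h) (η false none f) (η true none f) (fun e => by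
        rw [← hx, ← hx, hcof false _ f hf, hcof true _ f hf])
    have hd : (mv (ψ i) (τ (i, true)) a1)⁻¹ * η false (some a1) f = d := by
      rw [hd1 a1]; field_simp
    simp only [Option.elim, LinearMap.smul_apply, smul_eq_mul, hd]
    cases k
    · rw [hd1 a]; simp [mul_comm]
    · rw [hd2 a]; simp [mul_comm]

end

end Vale.Agent.P060
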