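import Vale.Agent.P060.Base

/-! P060: the Weil bound for odd degree in characteristic two, by the method of Stepanov. -/

namespace Vale.Agent.P060

open Finset Polynomial Vale.Agent.P056.Sharp

noncomputable section

open scoped Classical

section Step

variable {K : Type} [Field K]

lemma weil_ker {ι : Type} [Fintype ι] {Q N : ℕ} (p : ι → ℕ → K[X])
    (hp : ∀ t i, (p t i).natDegree < N) (h : Q * N < Fintype.card ι) :
    ∃ c : ι → K, (∃ t, c t ≠ 0) ∧ ∀ i < Q, ∑ t, c t • p t i = 0 := by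
  have hn : ¬ LinearIndependent K fun (t : ι) (z : Fin Q × Fin N) => (p t z.1).coeff z.2 := by
    intro hl
    have := hl.fintype_card_le_finrank
    rw [Module.finrank_fintype_fun_eq_card, Fintype.card_prod, Fintype.card_fin,
      Fintype.card_fin] at this
    omega
  obtain ⟨c, h1, h2⟩ := Fintype.not_linearIndependent_iff.1 hn
  refine ⟨c, h2, fun i hi => ?_⟩
  ext k
  rw [finsetSum_coeff, coeff_zero]
  by_cases hk : k < N
  · have := congrFun h1 (⟨i, hi⟩, ⟨k, hk⟩)
    simpa [Finset.sum_apply] using this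
  · refine sum_eq_zero fun t _ => ?_
    rw [coeff_smul, coeff_eq_zero_of_natDegree_lt (lt_of_lt_of_le (hp t i) (by omega)), smul_zero]

lemma weil_ne {ι : Type} [Fintype ι] (r : ι → K[X]) (h0 : ∀ t, r t ≠ 0)
    (hinj : Function.Injective fun t => (r t).natDegree) {c : ι → K} (hc : ∃ t, c t ≠ 0) :
    ∑ t, c t • r t ≠ 0 := by
  obtain ⟨t, ht⟩ := hc
  intro h
  have h1 := degree_sum_eq_of_disjoint (fun t => c t • r t) univ fun s hs u hu hsu he => by
    have e1 : c s ≠ 0 := fun h => hs.2 (by rw [h, zero_smul])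
    have e2 : c u ≠ 0 := fun h => hu.2 (by rw [h, zero_smul])
    have e3 := natDegree_eq_natDegree he
    simp only [natDegree_smul _ e1, natDegree_smul _ e2] at e3
    exact hsu (hinj e3)
  rw [h, degree_zero] at h1
  have h2 := Finset.le_sup (f := fun t => (c t • r t).degree) (mem_univ t)
  rw [← h1, le_bot_iff, degree_eq_bot] at h2
  exact smul_ne_zero ht (h0 t) h2

lemma weil_roots (S : Finset K) (Q : ℕ) {R : K[X]} (hR : R ≠ 0)
    (h : ∀ x ∈ S, (X - C x) ^ Q ∣ R) : S.card * Q ≤ R.natDegree := by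
  have h1 : ∏ x ∈ S, (X - C x) ^ Q ∣ R := Finset.prod_dvd_of_coprime
    (fun x _ y _ hxy => (pairwise_coprime_X_sub_C (s := id) Function.injective_id hxy).pow) h
  have h2 := natDegree_le_of_dvd h1 hR
  rw [natDegree_prod_of_monic _ _ fun x _ => (monic_X_sub_C x).pow Q] at h2
  simpa [natDegree_pow] using h2

lemma weil_frob [CharP K 2] (a : ℕ) (x : K) (h : K[X]) :
    (X - C x) ^ 2 ^ a ∣ h ^ 2 ^ a - C (h.eval x ^ 2 ^ a) := by
  have : Fact (Nat.Prime 2) := ⟨Nat.prime_two⟩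
  rw [C_pow, ← sub_pow_char_pow]
  exact pow_dvd_pow_of_dvd X_sub_C_dvd_sub_C_eval _

lemma weil_step [CharP K 2] {b m : ℕ} (hm : m < 2 ^ b) (g : K[X])
    (hg : g.natDegree = (2 * m + 1) * 2 ^ b) (e : K) (S : Finset K)
    (h1 : ∀ x ∈ S, g.eval x ^ 2 ^ (b + 1) = g.eval x + e)
    (h2 : ∀ x ∈ S, (x ^ 2 ^ (b + 1)) ^ 2 ^ (b + 1) = x) :
    S.card ≤ 2 ^ (b + 1) * (2 ^ b + 2 * m + 4) := by
  have f1 := fun x => weil_frob (b + 1) x g
  have f2 := fun x : K => weil_frob (b + 1) x (X ^ 2 ^ (b + 1))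
  rw [pow_succ] at *
  generalize 2 ^ b = H at *
  have hH : 0 < H := by omega
  have hg0 : g ≠ 0 := by
    rintro rfl
    rw [natDegree_zero] at hg
    exact absurd hg (by positivity : 0 < (2 * m + 1) * H).ne
  obtain ⟨c, hc, hk⟩ := weil_ker (Q := H * 2) (N := 2 * H ^ 2 + (2 * m + 1) * H + (H + m + 3))
    (fun (t : Fin (H + m + 4) × Fin 2 × Fin (2 * H ^ 2)) i =>
      hasseDeriv i (X ^ (t.2.2 : ℕ)) * (g + C e) ^ (t.2.1 : ℕ) * X ^ (t.1 : ℕ))
    (fun ⟨l, β, j⟩ i => by
      have e1 := natDegree_hasseDeriv_le (X ^ (j : ℕ) : K[X]) i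
      have e2 : ((g + C e) ^ (β : ℕ)).natDegree ≤ (2 * m + 1) * H := by
        rw [natDegree_pow, natDegree_add_C, hg]
        exact (Nat.mul_le_mul_right _ (Nat.le_of_lt_succ β.2)).trans (one_mul _).le
      refine lt_of_le_of_lt (natDegree_mul_le.trans (Nat.add_le_add_right natDegree_mul_le _)) ?_
      rw [natDegree_X_pow] at e1 ⊢
      have := l.2
      have := j.2
      dsimp only
      omega)
    (by simp only [Fintype.card_prod, Fintype.card_fin]; nlinarith [Nat.mul_le_mul_left H hm])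
  have hd : ∀ t : Fin (H + m + 4) × Fin 2 × Fin (2 * H ^ 2),
      (X ^ (t.2.2 : ℕ) * (g ^ (H * 2)) ^ (t.2.1 : ℕ) * ((X ^ (H * 2)) ^ (H * 2)) ^ (t.1 : ℕ) :
        K[X]).natDegree = t.2.2 + 2 * H ^ 2 * (t.2.1 * (2 * m + 1) + 2 * t.1) := fun t => by
    rw [natDegree_mul (by simp [hg0]) (by simp), natDegree_mul (by simp) (by simp [hg0])]
    simp only [natDegree_pow, natDegree_X, hg]
    ring
  have hR := weil_ne (fun t : Fin (H + m + 4) × Fin 2 × Fin (2 * H ^ 2) =>
      (X ^ (t.2.2 : ℕ) * (g ^ (H * 2)) ^ (t.2.1 : ℕ) * ((X ^ (H * 2)) ^ (H * 2)) ^ (t.1 : ℕ) : K[X]))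
    (fun t => by simp [hg0]) (fun ⟨l, β, j⟩ ⟨l', β', j'⟩ h => by
      replace h := (hd (l, β, j)).symm.trans (h.trans (hd (l', β', j')))
      dsimp only at h
      have e1 : (j : ℕ) = j' := by
        have := congrArg (· % (2 * H ^ 2)) h
        simpa only [Nat.add_mul_mod_self_left, Nat.mod_eq_of_lt j.2, Nat.mod_eq_of_lt j'.2]
          using this
      rw [e1, add_left_cancel_iff] at h
      have e2 := Nat.eq_of_mul_eq_mul_left (by positivity) h
      have e3 : (β : ℕ) = β' ∧ (l : ℕ) = l' := by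
        have b1 : (β : ℕ) = 0 ∨ (β : ℕ) = 1 := by omega
        have b2 : (β' : ℕ) = 0 ∨ (β' : ℕ) = 1 := by omega
        rcases b1 with b1 | b1 <;> rcases b2 with b2 | b2 <;> rw [b1, b2] at e2 ⊢ <;> omega
      rw [Fin.ext e1, Fin.ext e3.1, Fin.ext e3.2]) hc
  have h3 := weil_roots S (H * 2) hR fun x hx => by
    have d1 := f1 x
    have d2 := f2 x
    rw [h1 x hx] at d1
    rw [eval_pow, eval_X, h2 x hx] at d2
    have d3 : (X - C x) ^ (H * 2) ∣ ∑ t : Fin (H + m + 4) × Fin 2 × Fin (2 * H ^ 2),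
        c t • (X ^ (t.2.2 : ℕ) * C (g.eval x + e) ^ (t.2.1 : ℕ) * C x ^ (t.1 : ℕ) : K[X]) := by
      rw [X_sub_C_pow_dvd_iff, X_pow_dvd_iff]
      intro i hi
      rw [← taylor_apply, taylor_coeff, ← eval_zero (x := x), ← hk i hi, map_sum, eval_finsetSum,
        eval_finsetSum]
      refine sum_congr rfl fun t _ => ?_
      rw [mul_assoc, ← C_pow, ← C_pow, ← C_mul, mul_comm, ← smul_eq_C_mul, map_smul, map_smul]
      simp only [eval_smul, eval_mul, eval_pow, eval_add, eval_C, eval_X, smul_eq_mul]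
      ring
    rw [← dvd_sub_left d3, ← sum_sub_distrib]
    refine dvd_sum fun t _ => ?_
    rw [← smul_sub, smul_eq_C_mul]
    refine Dvd.dvd.mul_left ?_ _
    have d4 := d1.trans (sub_dvd_pow_sub_pow _ _ t.2.1)
    have d5 := d2.trans (sub_dvd_pow_sub_pow _ _ t.1)
    have d6 := ((d4.mul_left (X ^ (t.2.2 : ℕ))).mul_right (C x ^ (t.1 : ℕ))).add
      (d5.mul_left (X ^ (t.2.2 : ℕ) * (g ^ (H * 2)) ^ (t.2.1 : ℕ)))
    refine d6.trans (dvd_of_eq ?_)
    ring
  refine Nat.le_of_mul_le_mul_right (h3.trans (natDegree_sum_le_of_forall_le _ _ fun t _ =>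
    (natDegree_smul_le _ _).trans ?_)) (by omega : 0 < H * 2)
  rw [hd]
  have e1 : (t.2.1 : ℕ) * (2 * m + 1) + 2 * t.1 ≤ 1 * (2 * m + 1) + 2 * (H + m + 3) :=
    Nat.add_le_add (Nat.mul_le_mul_right _ (Nat.le_of_lt_succ t.2.1.2))
      (Nat.mul_le_mul_left _ (Nat.le_of_lt_succ t.1.2))
  refine (Nat.add_le_add t.2.2.2.le (Nat.mul_le_mul_left _ e1)).trans (le_of_eq ?_)
  ring

lemma weil_deg (f : K[X]) (hf : 0 < f.natDegree) :
    ∀ b, (∑ i ∈ range (b + 1), f ^ 2 ^ i).natDegree = f.natDegree * 2 ^ b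
  | 0 => by simp
  | b + 1 => by
    rw [sum_range_succ, natDegree_add_eq_right_of_natDegree_lt, natDegree_pow, mul_comm]
    rw [weil_deg f hf b, natDegree_pow, mul_comm]
    exact Nat.mul_lt_mul_of_pos_right (Nat.pow_lt_pow_right (by omega) (by omega)) hf

end Step

variable {F : Type} [Field F] [Fintype F] [Algebra (ZMod 2) F]

theorem weil {a : ℕ} (hF : Fintype.card F = 2 ^ (2 * a)) (f : F[X]) (hodd : Odd f.natDegree)
    (hd : f.natDegree ≤ 2 ^ a) :
    |av (fun s : F => chi (f.eval s))| ≤ 2 * ((f.natDegree : ℝ) + 3) / 2 ^ a := by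
  rcases a with _ | b
  · refine (abs_av_le_const zero_le_one fun x => (abs_chi _).le).trans ?_
    have : (0 : ℝ) ≤ f.natDegree := Nat.cast_nonneg _
    rw [pow_zero, div_one]
    linarith
  have := charP_two (F := F)
  have : Fact (Nat.Prime 2) := ⟨Nat.prime_two⟩
  have hr : Module.finrank (ZMod 2) F = (b + 1) + (b + 1) := by
    have := card_eq_pow.symm.trans hF
    rw [Nat.pow_right_injective le_rfl this]; ring
  obtain ⟨m, hm⟩ := hodd
  have hS : ∀ z : ZMod 2, (univ.filter fun x => tr (f.eval x) = z).card ≤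
      2 ^ (b + 1) * (2 ^ b + 2 * m + 4) := fun z => by
    refine weil_step (by rw [pow_succ] at hd; omega) (∑ i ∈ range (b + 1), f ^ 2 ^ i)
      (by rw [weil_deg f (by omega), hm]) (algebraMap (ZMod 2) F z) _ (fun x hx => ?_)
      fun x _ => ?_
    · rw [← (mem_filter.1 hx).2, algebraMap_tr, hr, sum_range_add _ (b + 1), eval_finsetSum, ← add_assoc]
      simp only [eval_pow]
      rw [CharTwo.add_self_eq_zero, zero_add, sum_pow_char_pow]
      exact sum_congr rfl fun i _ => by rw [← pow_mul, ← pow_add, add_comm]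
    · rw [← pow_mul, ← pow_add, ← two_mul, ← hF]
      exact FiniteField.pow_card x
  have h0 := hS 0
  have h1 := hS 1
  have h2 := card_filter_add_card_filter_not (s := univ) fun x : F => tr (f.eval x) = 0
  have h3 : (univ.filter fun x : F => ¬ tr (f.eval x) = 0) =
      univ.filter fun x : F => tr (f.eval x) = 1 := filter_congr fun x _ => by
    rcases zmod2_cases (tr (f.eval x)) with h | h <;> simp [h]
  have h4 : ∑ x : F, chi (f.eval x) = ((univ.filter fun x : F => tr (f.eval x) = 0).card : ℝ) -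
      (univ.filter fun x : F => ¬ tr (f.eval x) = 0).card := by
    simp only [chi, sgn]
    rw [sum_ite]
    simp [sub_eq_add_neg]
  rw [h3] at h2 h4
  rw [card_univ, hF] at h2
  unfold av
  rw [h4, hF, hm]
  generalize (univ.filter fun x : F => tr (f.eval x) = 0).card = u at *
  generalize (univ.filter fun x : F => tr (f.eval x) = 1).card = v at *
  have g0 : (u : ℝ) ≤ 2 ^ (b + 1) * (2 ^ b + 2 * m + 4) := by exact_mod_cast h0
  have g1 : (v : ℝ) ≤ 2 ^ (b + 1) * (2 ^ b + 2 * m + 4) := by exact_mod_cast h1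
  have g2 : (u : ℝ) + v = 2 ^ (2 * (b + 1)) := by exact_mod_cast h2
  push_cast
  rw [two_mul (b + 1), pow_add] at g2 ⊢
  rw [abs_div, abs_of_pos (by positivity : (0 : ℝ) < 2 ^ (b + 1) * 2 ^ (b + 1)),
    div_le_iff₀ (by positivity), ← mul_assoc, div_mul_cancel₀ _ (by positivity), abs_le]
  rw [pow_succ] at *
  constructor <;> nlinarith

end

end Vale.Agent.P060
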