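import Vale.Agent.P060.Nb

/-! P060: lower bound for the model probability of the event Z. -/

namespace Vale.Agent.P060

open Finset Polynomial Vale.Agent.P056.Sharp

noncomputable section

open scoped Classical

variable {F : Type} [Field F] [Fintype F] [Algebra (ZMod 2) F] {p : Par}
  {ρ : Om F p → ℝ} {k : Bool → Pt F p × Vo F p → Cr F p → ℝ} {e η δ β θ Tc : ℝ}

omit [Fintype F] [Algebra (ZMod 2) F] in
lemma Zw_PhiB_add (u u' : Ix F p) (i : Bool) (b b' : Blk F p) :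
    PhiB (u + u') i b b' = PhiB u i b b' + PhiB u' i b b' := by
  unfold PhiB
  simp only [Pi.add_apply, bil_add_left]; ring

omit [Fintype F] in
lemma Zw_add_self (u : Ix F p) : u + u = 0 := by
  haveI := charP_two (F := F)
  funext i o; exact CharTwo.add_self_eq_zero (u i o)

/-- the indicator of `ZB` is the average of a character over the group `Mt`. -/
theorem ind_ZB (ω : Om F p) (b b' : Blk F p) :
    ind (ZB (Mt ω) b b') = (∑ u ∈ Mt ω, chi (PhiB u false b b')) / (Mt ω).card := by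
  have hc : (0 : ℝ) < (Mt ω).card := by exact_mod_cast card_pos.2 ⟨_, zero_mem_Mt ω⟩
  by_cases h : ZB (Mt ω) b b'
  · rw [ind_pos h, sum_congr rfl (g := fun _ => (1 : ℝ)) fun u hu => by
      rw [chi, h u hu, sgn_zero]]
    simp [hc.ne']
  · rw [ind_neg h]
    obtain ⟨u0, hu0, h0⟩ : ∃ u0 ∈ Mt ω, tr (PhiB u0 false b b') = 1 := by
      by_contra hn
      push Not at hn
      exact h fun u hu => (zmod2_cases _).resolve_right (hn u hu)
    have e1 : ∑ u ∈ Mt ω, chi (PhiB (u0 + u) false b b') = ∑ u ∈ Mt ω, chi (PhiB u false b b') :=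
      sum_nbij' (fun u => u0 + u) (fun u => u0 + u) (fun u hu => add_mem_Mt hu0 hu)
        (fun u hu => add_mem_Mt hu0 hu) (fun u _ => by rw [← add_assoc, Zw_add_self, zero_add])
        (fun u _ => by rw [← add_assoc, Zw_add_self, zero_add]) (fun _ _ => rfl)
    have e2 : ∀ u, chi (PhiB (u0 + u) false b b') = - chi (PhiB u false b b') := fun u => by
      rw [Zw_PhiB_add, chi_add, chi, h0, sgn_one]; ring
    simp only [e2, sum_neg_distrib] at e1
    rw [show ∑ u ∈ Mt ω, chi (PhiB u false b b') = 0 by linarith, zero_div]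

lemma Zw_zw_eq (ω : Om F p) (x y : Pt F p) :
    zw k (Mt ω) x y = (∑ u ∈ Mt ω, Ku k u false x y) / (Mt ω).card := by
  unfold zw Ku
  simp only [ind_ZB, div_eq_mul_inv, Three_c1_mul_const, Three_c1_sum, Bool.not_false]

/-- the cross part of a pair of relations vanishes. -/
def Zw_M0 (Mm : Bool → Fin p.S → Oi p → F) : Prop :=
  ∀ a c, Mm false a (some c) + Mm true c (some a) = 0

def Zw_Z (ω : Om F p) (u : Ix F p) : Prop :=
  ∃ Mm : Bool → Fin p.S → Oi p → F, (∀ i, Rel ω u i (Mm i)) ∧ Zw_M0 Mm ∧ u false none = 0 ∧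
    ∀ i a, Mm i a none = 0

def Zw_H (k : Bool → Pt F p × Vo F p → Cr F p → ℝ) (e : ℝ) (ω : Om F p) (u : Ix F p)
    (Mm : Bool → Fin p.S → Oi p → F) : Prop :=
  (∀ i, Rel ω u i (Mm i)) ∧ Zw_M0 Mm ∧ u false none = 1 ∧
    ∀ i, (e / 4) ^ 2 ≤ av (fun x => al k i (fun a => Mm i a none) x ^ 2)

lemma Zw_Kt_split (u : Ix F p) {Mm : Bool → Fin p.S → Oi p → F} (h0 : Zw_M0 Mm) (x y : Pt F p) :
    Kt k u Mm x y = c1 (k false) x (fun b => chi (aB u Mm false b)) *
      c1 (k true) y (fun b => chi (aB u Mm true b)) := by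
  unfold Kt
  simp only [h0 _ _, mul_zero, zero_mul, sum_const_zero, add_zero, chi_add, Three_c1_mul_const,
    Three_c1_const_mul]

lemma Zw_Kt_cross (hk : ∀ i, IsKer (k i)) (u : Ix F p) {Mm : Bool → Fin p.S → Oi p → F}
    (h0 : ¬ Zw_M0 Mm) (x y : Pt F p) : Kt k u Mm x y ^ 2 ≤ 1 / Fintype.card F := by
  have hM : (fun a c => Mm false a (some c) + Mm true c (some a)) ≠ 0 := fun hM =>
    h0 fun a c => congrFun (congrFun hM a) c
  have own : ∀ (i : Bool) (x : Pt F p) (φ : (Fin p.S → F) → ℝ),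
      Ex (cP (k i) x) (fun a => φ a.1.1) = av φ := fun i x φ => by
    rw [Ex_cP_own (hk i) x (fun v : Vo F p => φ v.1), av_prod]
    simp only [av_const]
  have := bilin (isProb_cP (hk false) x) (isProb_cP (hk true) y) (fun a => a.1.1) (fun a => a.1.1)
    (own false x) (own true y) (fun a c => Mm false a (some c) + Mm true c (some a))
    (fun a => chi (aB u Mm false ((x, a.1), a.2))) (fun a => chi (aB u Mm true ((y, a.1), a.2)))
    (fun _ => (abs_chi _).le) (fun _ => (abs_chi _).le)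
  refine le_trans (le_of_eq ?_) (this.trans (av_ker_le hM))
  unfold Kt c1
  simp only [chi_add]

lemma Zw_c1_lin (hk : ∀ i, IsKer (k i)) (i : Bool) {m : Fin p.S → F} (hm : m ≠ 0) (x : Pt F p) :
    c1 (k i) x (fun b => chi (∑ a, m a * b.1.2.1 a)) = 0 := by
  have h1 := Ex_cP_own (hk i) x (fun v : Vo F p => chi (∑ a, m a * v.1 a))
  rw [av_prod] at h1
  simp only [av_const] at h1
  refine Eq.trans h1 ?_
  let φ : (Fin p.S → F) →ₗ[F] F := ∑ a, m a • LinearMap.proj a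
  have hφ : ∀ v, φ v = ∑ a, m a * v a := fun v => by simp [φ, LinearMap.sum_apply]
  have h2 := av_chi_lin φ
  simp only [hφ] at h2
  rw [h2, ind_neg]
  intro h0
  apply hm
  funext a
  have := hφ (Pi.single a 1)
  rw [h0, sum_eq_single a (fun b _ hb => by simp [Pi.single_eq_of_ne hb]) (by simp)] at this
  simpa using this.symm

lemma Zw_av_abs_le {X : Type} [Fintype X] {f : X → ℝ} {c : ℝ} (hc : 0 ≤ c)
    (h : av (fun x => f x ^ 2) ≤ c ^ 2) : av (fun x => |f x|) ≤ c := by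
  have h1 := av_sq_le (fun x => |f x|)
  simp only [sq_abs] at h1
  exact (abs_le_of_sq_le_sq' (h1.trans h) hc).2

lemma Zw_av2_abs_le {X : Type} [Fintype X] {f : X → X → ℝ} {c : ℝ} (hc : 0 ≤ c)
    (h : av (fun x => av (fun y => f x y ^ 2)) ≤ c ^ 2) :
    av (fun x => av (fun y => |f x y|)) ≤ c := by
  have h1 := Zw_av_abs_le (f := fun z : X × X => f z.1 z.2) hc (by rwa [av_prod])
  rwa [av_prod] at h1

omit [Field F] [Algebra (ZMod 2) F] in
lemma Zw_num (hS : Small F p e η δ β θ) :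
    2 * η ≤ (e / 4) ^ 2 ∧ 1 / (Fintype.card F : ℝ) ≤ (e / 4) ^ 2 ∧ η + 2 * δ < ((e / 4) ^ 2) ^ 2 ∧
      6 * δ + e / 4 ≤ e ∧ β + δ ≤ e := by
  obtain ⟨hη0, hη1, -, -⟩ := hS.facts
  have h0 := hS.he0
  have h1 := hS.he
  have h2 : ((e / 4) ^ 2) ^ 2 = 2 * η := by rw [hS.hη]; ring
  have h3 : (e / 4) ^ 2 ≤ e / 4 := by nlinarith
  have h4 : 0 ≤ (e / 4) ^ 2 := by positivity
  have h5 : 2 * η ≤ (e / 4) ^ 2 := by nlinarith
  have h6 : η ^ 2 ≤ η := by nlinarith
  have hδ := hS.hδ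
  have hβ := hS.hβ
  refine ⟨h5, ?_, by linarith, by linarith, by linarith⟩
  have hq := hS.hq
  have hJ : (0 : ℝ) ≤ p.J := Nat.cast_nonneg _
  have hq0 : (0 : ℝ) < Fintype.card F := by
    by_contra hn
    have : η ^ 5 * (Fintype.card F : ℝ) ≤ 0 :=
      mul_nonpos_of_nonneg_of_nonpos (by positivity) (not_lt.1 hn)
    linarith
  have h7 : η ^ 5 ≤ η := by
    have : η ^ 4 ≤ 1 := pow_le_one₀ hη0.le (by linarith)
    nlinarith
  rw [div_le_iff₀ hq0]
  nlinarith

lemma Zw_Kt_small (h : GP0 ρ k δ Tc θ) (hS : Small F p e η δ β θ) {ω : Om F p} {u : Ix F p}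
    (hu : u ∈ Mt ω) {Mm : Bool → Fin p.S → Oi p → F} (hR : ∀ i, Rel ω u i (Mm i))
    (hZ : ¬ Zw_Z ω u) (hH : ¬ Zw_H k e ω u Mm) :
    av (fun x => av (fun y => |Kt k u Mm x y|)) ≤ e / 4 := by
  have he : 0 ≤ e / 4 := by linarith [hS.he0]
  by_cases h0 : Zw_M0 Mm
  swap
  · refine Zw_av2_abs_le he (av_le_of_forall fun x => av_le_of_forall fun y => ?_)
    exact (Zw_Kt_cross h.ker u h0 x y).trans (Zw_num hS).2.1
  simp only [Zw_Kt_split u h0]
  obtain ⟨h1, h2 | h2⟩ := Mt_none hu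
  · obtain ⟨i, a, ha⟩ : ∃ i a, Mm i a none ≠ 0 := by
      by_contra hn
      push Not at hn
      exact hZ ⟨Mm, hR, h0, h2, hn⟩
    have hm : (fun a => Mm i a none) ≠ 0 := fun hm => ha (congrFun hm a)
    have hz : ∀ x, c1 (k i) x (fun b => chi (aB u Mm i b)) = 0 := fun x => by
      have : u (!i) none = 0 := by cases i <;> simp [h1, h2]
      simp only [aB, this, zero_mul, zero_add]
      exact Zw_c1_lin h.ker i hm x
    refine av_le_of_forall fun x => av_le_of_forall fun y => ?_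
    cases i
    · rw [hz, zero_mul, abs_zero]; exact he
    · rw [hz, mul_zero, abs_zero]; exact he
  · have hal : ∀ i x, c1 (k i) x (fun b => chi (aB u Mm i b)) =
        al k i (fun a => Mm i a none) x := fun i x => by
      have : u (!i) none = 1 := by cases i <;> simp [h1, h2]
      simp only [aB, this, one_mul, al]
    obtain ⟨i, hi⟩ : ∃ i, av (fun x => al k i (fun a => Mm i a none) x ^ 2) ≤ (e / 4) ^ 2 := by
      by_contra hn
      push Not at hn
      exact hH ⟨hR, h0, h2, fun i => (hn i).le⟩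
    have h3 := Zw_av_abs_le he hi
    simp only [hal, abs_mul]
    rw [av_mul_av]
    have b1 : ∀ i, av (fun x => |al k i (fun a => Mm i a none) x|) ≤ 1 := fun i =>
      av_le_of_forall fun x => Three_abs_al h.ker _ _ _
    have b0 : ∀ i, 0 ≤ av (fun x => |al k i (fun a => Mm i a none) x|) := fun i =>
      av_nonneg fun x => abs_nonneg _
    cases i
    · nlinarith [b1 true, b0 true, b0 false]
    · nlinarith [b1 false, b0 true, b0 false]

/-- the predicted value of `Ku`. -/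
def Zw_K0 (k : Bool → Pt F p × Vo F p → Cr F p → ℝ) (e : ℝ) (ω : Om F p) (A : Pt F p → Pt F p → ℝ)
    (u : Ix F p) (x y : Pt F p) : ℝ :=
  if Zw_Z ω u then 1 else if ∃ Mm, Zw_H k e ω u Mm then A x y else 0

lemma Zw_close (hp : p.Ok) (h : GP0 ρ k δ Tc θ) (hs : Sup ρ) (hS : Small F p e η δ β θ)
    {ω₀ : Om F p} (h0 : ρ ω₀ ≠ 0) (A : Pt F p → Pt F p → ℝ) {u : Ix F p} (hu : u ∈ Mt ω₀)
    (hA : ∀ Mm, Zw_H k e ω₀ u Mm → ∀ x y, al k false (fun a => Mm false a none) x *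
      al k true (fun a => Mm true a none) y = A x y) :
    av (fun x => av (fun y => |Ku k u false x y - Zw_K0 k e ω₀ A u x y|)) ≤ 4 * δ + e / 4 := by
  have he : 0 ≤ e / 4 := by linarith [hS.he0]
  have hδ := hS.hδ0
  have hrel : ∀ Mm : Bool → Fin p.S → Oi p → F, (∀ i, Rel ω₀ u i (Mm i)) →
      av (fun x => av (fun y => |Ku k u false x y - Kt k u Mm x y|)) ≤ 4 * δ := fun Mm hR =>
    rel_close h u Mm fun ω hω i => Rel_of_W0 (hs.w0 _ _ h0 hω) hu (hR i)
  obtain ⟨h1, h2⟩ := Mt_none hu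
  by_cases hZ : Zw_Z ω₀ u
  · obtain ⟨Mm, hR, hM, hn, hm⟩ := id hZ
    have e1 : ∀ x y, Zw_K0 k e ω₀ A u x y = Kt k u Mm x y := fun x y => by
      rw [Zw_K0, if_pos hZ, Zw_Kt_split u hM]
      simp only [aB, Bool.not_false, Bool.not_true, h1, hn, hm, zero_mul, sum_const_zero, add_zero,
        chi_zero, Three_c1_const (h.ker _), mul_one]
    simp only [e1]
    linarith [hrel Mm hR]
  by_cases hH : ∃ Mm, Zw_H k e ω₀ u Mm
  · obtain ⟨Mm, hH'⟩ := id hH
    have e1 : ∀ x y, Zw_K0 k e ω₀ A u x y = Kt k u Mm x y := fun x y => by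
      rw [Zw_K0, if_neg hZ, if_pos hH, Zw_Kt_split u hH'.2.1, ← hA Mm hH']
      simp only [aB, Bool.not_false, Bool.not_true, h1, hH'.2.2.1, one_mul, al]
    simp only [e1]
    linarith [hrel Mm hH'.1]
  simp only [Zw_K0, if_neg hZ, if_neg hH, sub_zero]
  by_cases hR : ∀ i, ∃ M, Rel ω₀ u i M
  · choose Mm hR using hR
    have h3 := Zw_Kt_small h hS hu hR hZ fun hh => hH ⟨Mm, hh⟩
    refine le_trans (av_mono fun x => av_mono (g := fun y =>
      |Ku k u false x y - Kt k u Mm x y| + |Kt k u Mm x y|) fun y => ?_) ?_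
    · have := abs_add_le (Ku k u false x y - Kt k u Mm x y) (Kt k u Mm x y)
      rwa [sub_add_cancel] at this
    · simp only [av_add]
      linarith [hrel Mm hR]
  · push Not at hR
    obtain ⟨i, hi⟩ := hR
    have h3 := nb_small hp h hs hS u i fun ω hω ⟨M, hM⟩ =>
      hi M (Rel_of_W0 (hs.w0 _ _ hω h0) (by rwa [Mt_eq_of_W0 (hs.w0 _ _ hω h0)]) hM)
    have h4 : av (fun x => av (fun y => Ku k u false x y ^ 2)) ≤ (e / 4) ^ 2 := by
      refine le_trans ?_ (Zw_num hS).1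
      cases i
      · exact h3
      · rw [av_comm]
        simpa only [Ku_swap] using h3
    linarith [Zw_av2_abs_le he h4]

omit [Fintype F] [Algebra (ZMod 2) F] in
lemma Zw_Rel_add {ω : Om F p} {u u' : Ix F p} {i : Bool} {M M' : Fin p.S → Oi p → F}
    (h : Rel ω u i M) (h' : Rel ω u' i M') : Rel ω (u + u') i (M + M') := by
  intro a
  have e1 : GP ω (u + u') i a = GP ω u i a + GP ω u' i a := by
    simp only [GP, gv, Pi.add_apply, map_add, add_mul, sum_add_distrib]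
  rw [e1, h a, h' a]
  simp only [Pi.add_apply, map_add, add_mul, sum_add_distrib]

omit [Fintype F] [Algebra (ZMod 2) F] in
lemma Zw_Z_zero (ω : Om F p) : Zw_Z ω 0 :=
  ⟨0, fun i a => by simp [GP, gv], fun a c => by simp, rfl, fun _ _ => rfl⟩

lemma Zw_sum_ge {ω : Om F p} (A : Pt F p → Pt F p → ℝ) (x y : Pt F p) (hA : |A x y| ≤ 1)
    (hH : (∀ u ∈ Mt ω, ¬ ∃ Mm, Zw_H k e ω u Mm) → A x y = 0)
    (huniq : ∀ u ∈ Mt ω, ∀ u' ∈ Mt ω, ∀ Mm Mm', Zw_H k e ω u Mm → Zw_H k e ω u' Mm' →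
      ∀ i a, Mm i a none = Mm' i a none) :
    1 + A x y ≤ ∑ u ∈ Mt ω, Zw_K0 k e ω A u x y := by
  haveI := charP_two (F := F)
  set Z := (Mt ω).filter (fun u => Zw_Z ω u) with hZ
  set H := (Mt ω).filter (fun u => ¬ Zw_Z ω u ∧ ∃ Mm, Zw_H k e ω u Mm) with hHd
  have e1 : ∑ u ∈ Mt ω, Zw_K0 k e ω A u x y = Z.card + H.card * A x y := by
    rw [hZ, hHd, ← sum_ind_eq_card', ← sum_ind_eq_card', sum_mul, ← sum_add_distrib]
    refine sum_congr rfl fun u _ => ?_
    unfold Zw_K0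
    by_cases h1 : Zw_Z ω u
    · rw [if_pos h1, ind_pos h1, ind_neg fun hh => hh.1 h1]; ring
    · rw [if_neg h1, ind_neg h1]
      by_cases h2 : ∃ Mm, Zw_H k e ω u Mm
      · rw [if_pos h2, ind_pos ⟨h1, h2⟩]; ring
      · rw [if_neg h2, ind_neg fun hh => h2 hh.2]; ring
  have hZ1 : (1 : ℝ) ≤ Z.card := by
    exact_mod_cast card_pos.2 ⟨0, mem_filter.2 ⟨zero_mem_Mt ω, Zw_Z_zero ω⟩⟩
  rw [e1]
  by_cases hne : ∃ u0 ∈ Mt ω, ∃ Mm, Zw_H k e ω u0 Mm
  · obtain ⟨u0, hu0, M0, hM0⟩ := hne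
    have hnz : ¬ Zw_Z ω u0 := fun ⟨_, _, _, hn, _⟩ => by
      rw [hM0.2.2.1] at hn; exact one_ne_zero hn
    have hH1 : (1 : ℝ) ≤ H.card := by
      have : u0 ∈ H := mem_filter.2 ⟨hu0, hnz, M0, hM0⟩
      exact_mod_cast card_pos.2 ⟨u0, this⟩
    have hHZ : (H.card : ℝ) ≤ Z.card := by
      have : H.card ≤ Z.card := by
        refine card_le_card_of_injOn (fun u => u + u0) (fun u hu => ?_)
          (fun u _ u' _ huu => add_right_cancel huu)
        obtain ⟨hu1, -, M, hM⟩ := mem_filter.1 (mem_coe.1 hu)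
        refine mem_coe.2 (mem_filter.2 ⟨add_mem_Mt hu1 hu0, M + M0,
          fun i => Zw_Rel_add (hM.1 i) (hM0.1 i), fun a c => ?_, ?_, fun i a => ?_⟩)
        · simp only [Pi.add_apply]
          linear_combination hM.2.1 a c + hM0.2.1 a c
        · simp only [Pi.add_apply, hM.2.2.1, hM0.2.2.1]
          exact CharTwo.add_self_eq_zero 1
        · simp only [Pi.add_apply, huniq u hu1 u0 hu0 M M0 hM hM0 i a]
          exact CharTwo.add_self_eq_zero _
      exact_mod_cast this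
    nlinarith [(abs_le.1 hA).1]
  · push Not at hne
    rw [hH fun u hu ⟨Mm, hM⟩ => hne u hu Mm hM]
    linarith

lemma Zw_uniq (hp : p.Ok) (h : GP0 ρ k δ Tc θ) (hS : Small F p e η δ β θ) {ω : Om F p}
    {u u' : Ix F p} {Mm Mm' : Bool → Fin p.S → Oi p → F} (h1 : Zw_H k e ω u Mm)
    (h2 : Zw_H k e ω u' Mm') (i : Bool) : (fun a => Mm i a none) = fun a => Mm' i a none := by
  by_contra hne
  have h3 := heavy_pair hp h hS i hne
  have h4 := mul_le_mul (h1.2.2.2 i) (h2.2.2.2 i) (by positivity)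
    (av_nonneg fun _ => sq_nonneg _)
  have h5 := (Zw_num hS).2.2.1
  nlinarith

lemma Zw_main (hp : p.Ok) (h : GP0 ρ k δ Tc θ) (hs : Sup ρ) (hS : Small F p e η δ β θ)
    {ω₀ : Om F p} (h0 : ρ ω₀ ≠ 0) (A : Pt F p → Pt F p → ℝ) (hA1 : ∀ x y, |A x y| ≤ 1)
    (hA : ∀ u ∈ Mt ω₀, ∀ Mm, Zw_H k e ω₀ u Mm → ∀ x y, al k false (fun a => Mm false a none) x *
      al k true (fun a => Mm true a none) y = A x y)
    (hH : (∀ u ∈ Mt ω₀, ¬ ∃ Mm, Zw_H k e ω₀ u Mm) → ∀ x y, A x y = 0)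
    (B c : Pt F p → Pt F p → ℝ) (hc0 : ∀ x y, 0 ≤ c x y) (hc : ∀ x y, B x y - A x y ≤ c x y)
    (hc2 : av (fun x => av (fun y => c x y)) ≤ 2 * δ) :
    av (fun x => av (fun y => max ((1 / 2 ^ p.r) * (1 + B x y) - zw k (Mt ω₀) x y) 0)) ≤ e := by
  have hM0 : (0 : ℝ) < (Mt ω₀).card := by exact_mod_cast card_pos.2 ⟨_, zero_mem_Mt ω₀⟩
  have hM1 : ((Mt ω₀).card : ℝ) ≤ 2 ^ p.r := by
    exact_mod_cast card_Mt_le hp (hs.reg _ h0).ok
  have h2r : (1 : ℝ) ≤ 2 ^ p.r := one_le_pow₀ (by norm_num)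
  have key : ∀ x y, max ((1 / 2 ^ p.r) * (1 + B x y) - zw k (Mt ω₀) x y) 0 ≤
      (∑ u ∈ Mt ω₀, |Ku k u false x y - Zw_K0 k e ω₀ A u x y|) / (Mt ω₀).card + c x y := by
    intro x y
    have n1 : 0 ≤ (∑ u ∈ Mt ω₀, |Ku k u false x y - Zw_K0 k e ω₀ A u x y|) / (Mt ω₀).card :=
      div_nonneg (sum_nonneg fun _ _ => abs_nonneg _) hM0.le
    refine max_le ?_ (by linarith [hc0 x y])
    have s1 := Zw_sum_ge (k := k) (e := e) (ω := ω₀) A x y (hA1 x y) (fun hh => hH hh x y)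
      (fun u _ u' _ Mm Mm' h1 h2 i a => congrFun (Zw_uniq hp h hS h1 h2 i) a)
    have s2 : ∑ u ∈ Mt ω₀, Zw_K0 k e ω₀ A u x y ≤ ∑ u ∈ Mt ω₀, Ku k u false x y +
        ∑ u ∈ Mt ω₀, |Ku k u false x y - Zw_K0 k e ω₀ A u x y| := by
      rw [← sum_add_distrib]
      exact sum_le_sum fun u _ => by
        linarith [neg_abs_le (Ku k u false x y - Zw_K0 k e ω₀ A u x y)]
    have s3 : 0 ≤ 1 + A x y := by linarith [(abs_le.1 (hA1 x y)).1]
    have s4 : (1 / 2 ^ p.r) * (1 + A x y) ≤ (1 + A x y) / (Mt ω₀).card := by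
      rw [one_div_mul_eq_div]
      exact div_le_div_of_nonneg_left s3 hM0 hM1
    have s5 := div_le_div_of_nonneg_right (s1.trans s2) hM0.le
    rw [add_div (∑ u ∈ Mt ω₀, Ku k u false x y), ← Zw_zw_eq] at s5
    have s6 : (1 / 2 ^ p.r : ℝ) * (B x y - A x y) ≤ c x y := by
      have t1 : (1 / 2 ^ p.r : ℝ) ≤ 1 := by rw [div_le_one (by positivity)]; exact h2r
      have t2 : (0 : ℝ) ≤ 1 / 2 ^ p.r := by positivity
      nlinarith [hc x y, hc0 x y, mul_le_mul_of_nonneg_left (hc x y) t2]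
    linarith
  refine (av_mono fun x => av_mono (key x)).trans ?_
  simp only [av_add, av_div_const, av_sum]
  have s7 : ∑ u ∈ Mt ω₀, av (fun x => av (fun y => |Ku k u false x y - Zw_K0 k e ω₀ A u x y|)) ≤
      (Mt ω₀).card * (4 * δ + e / 4) := by
    rw [← nsmul_eq_mul]
    exact sum_le_card_nsmul _ _ _ fun u hu => Zw_close hp h hs hS h0 A hu (hA u hu)
  have s8 := (div_le_iff₀' hM0).2 s7
  linarith [(Zw_num hS).2.2.2.1]

omit [Fintype F] [Algebra (ZMod 2) F] in
lemma Zw_PhiB_rel {ω : Om F p} {u : Ix F p} {Mm : Bool → Fin p.S → Oi p → F}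
    (hR : ∀ i, Rel ω u i (Mm i)) (hM : Zw_M0 Mm) (h1 : ∀ i, u i none = 1) (s s' : F) :
    PhiB u false (blk ω false s) (blk ω true s') =
      (PP ω false (fun a => Mm false a none)).eval s +
        (PP ω true (fun a => Mm true a none)).eval s' := by
  have w : ∀ i s a, gv (blk ω (!i) s).2 (u i) a =
      Mm i a none + ∑ c, Mm i a (some c) * (blk ω (!i) s).1.2.1 c := fun i s a => by
    rw [← Three_eval_GP, hR i a, eval_finsetSum, Fintype.sum_option]
    simp only [eval_mul, eval_C, eval_ph, hat_none, hat_some, mul_one]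
    rfl
  have w1 := w true s
  have w2 := w false s'
  simp only [Bool.not_true, Bool.not_false] at w1 w2
  rw [Three_PhiB_eq, Three_eval_PP, Three_eval_PP]
  simp only [Bool.not_false, h1, one_mul, w1, w2, mul_add, sum_add_distrib, mul_sum]
  generalize (blk ω false s).1.2.1 = y
  generalize (blk ω true s').1.2.1 = z
  have t : ∑ a, ∑ c, y a * (Mm false a (some c) * z c) +
      ∑ c, ∑ a, z c * (Mm true c (some a) * y a) = 0 := by
    rw [sum_comm (f := fun c a => z c * (Mm true c (some a) * y a)), ← sum_add_distrib]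
    refine sum_eq_zero fun a _ => ?_
    rw [← sum_add_distrib]
    exact sum_eq_zero fun c _ => by linear_combination y a * z c * hM a c
  have t1 : ∑ a, y a * Mm false a none = ∑ a, Mm false a none * y a :=
    sum_congr rfl fun _ _ => mul_comm _ _
  have t2 : ∑ a, z a * Mm true a none = ∑ a, Mm true a none * z a :=
    sum_congr rfl fun _ _ => mul_comm _ _
  linear_combination t + t1 + t2

lemma Zw_signs {ω : Om F p} (hω : Reg ω) {u : Ix F p} (hu : u ∈ Mt ω)
    {Mm : Bool → Fin p.S → Oi p → F} (hH : Zw_H k e ω u Mm) {c c' : ZMod 2}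
    (hc : ∀ s, tr ((PP ω false (fun a => Mm false a none)).eval s) = c)
    (hc' : ∀ s, tr ((PP ω true (fun a => Mm true a none)).eval s) = c') : sgn c * sgn c' = 1 := by
  haveI := charP_two (F := F)
  rw [← sgn_add, sgn_eq_one]
  refine (zmod2_cases _).resolve_right fun h1 => hω.nadj ?_
  have hn : ∀ i, u i none = 1 := fun i => by
    cases i
    · exact hH.2.2.1
    · rw [(Mt_none hu).1]; exact hH.2.2.1
  obtain ⟨I, hI, hI'⟩ := (mem_filter.1 hu).2
  refine ⟨I, ?_, hI, fun s s' => ?_⟩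
  · have h2 : (I.card : F) = 1 := by
      have := hn false
      rw [hI'] at this
      simpa [uA, ph, eI_apply] using this
    by_contra hodd
    have := (CharP.cast_eq_zero_iff F 2 I.card).2 (even_iff_two_dvd.1 (Nat.not_odd_iff_even.1 hodd))
    rw [h2] at this
    exact one_ne_zero this
  · have := Phi_eq_PhiB ω (eI I) false s s'
    rw [← hI'] at this
    simp only [Bool.not_false] at this
    rw [this, Zw_PhiB_rel hH.1 hH.2.1 hn, tr_add, hc, hc', h1]

theorem zlemma (hp : p.Ok) (h : GP0 ρ k δ Tc θ) (hs : Sup ρ) (hS : Small F p e η δ β θ)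
    {ω₀ : Om F p} (h0 : ρ ω₀ ≠ 0) :
    ∃ α β' : Pt F p → ℝ, (∀ x, |α x| ≤ 1) ∧ (∀ x, |β' x| ≤ 1) ∧
      ((|av α| ≤ e ∧ |av β'| ≤ e) ∨ (|av α| ≤ e ∧ β' = fun _ => 1) ∨
        (α = (fun _ => 1) ∧ |av β'| ≤ e)) ∧
      av (fun x => av (fun y =>
        max ((1 / 2 ^ p.r) * (1 + α x * β' y) - zw k (Mt ω₀) x y) 0)) ≤ e := by
  have hδ := hS.hδ0
  have hz : |av (fun _ : Pt F p => (0 : ℝ))| ≤ e := by rw [av_zero, abs_zero]; exact hS.he0.le
  by_cases hne : ∃ u ∈ Mt ω₀, ∃ Mm, Zw_H k e ω₀ u Mm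
  swap
  · refine ⟨fun _ => 0, fun _ => 0, fun _ => by simp, fun _ => by simp, Or.inl ⟨hz, hz⟩, ?_⟩
    refine Zw_main hp h hs hS h0 (fun _ _ => 0) (fun _ _ => by simp)
      (fun u hu Mm hM => absurd ⟨u, hu, Mm, hM⟩ hne) (fun _ _ _ => rfl) (fun _ _ => 0 * 0)
      (fun _ _ => 0) (fun _ _ => le_rfl) (fun _ _ => by simp) ?_
    simp only [av_zero]; linarith
  obtain ⟨u, hu, Mm, hM⟩ := hne
  obtain ⟨a, ha⟩ : ∃ a : Bool → Pt F p → ℝ, a = fun i => al k i (fun a => Mm i a none) := ⟨_, rfl⟩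
  have ha1 : ∀ i x, |a i x| ≤ 1 := fun i x => by rw [ha]; exact Three_abs_al h.ker _ _ _
  have main := Zw_main hp h hs hS h0 (fun x y => a false x * a true y)
    (fun x y => Three_abs_mul (ha1 _ _) (ha1 _ _))
    (fun u' _ Mm' hM' x y => by
      rw [ha, Zw_uniq hp h hS hM' hM false, Zw_uniq hp h hS hM' hM true])
    (fun hh => absurd ⟨Mm, hM⟩ (hh u hu))
  have bal : ∀ i, ¬ TrC (PP ω₀ i (fun a => Mm i a none)) → |av (a i)| ≤ e := fun i hi => by
    rw [ha]
    refine (flag_bal hp h hS i _ fun ω hω ⟨c, hc⟩ => hi ⟨c, ?_⟩).trans (Zw_num hS).2.2.2.2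
    exact flag_of_W0 (hs.w0 _ _ hω h0) (by rwa [Mt_eq_of_W0 (hs.w0 _ _ hω h0)])
      (Rel_of_W0 (hs.w0 _ _ h0 hω) hu (hM.1 i)) hc
  have cst : ∀ i c, (∀ s, tr ((PP ω₀ i (fun a => Mm i a none)).eval s) = c) →
      av (fun x => |a i x - sgn c|) ≤ δ := fun i c hc => by
    rw [ha]
    exact flag_const h i _ c fun ω hω => flag_of_W0 (hs.w0 _ _ h0 hω) hu (hM.1 i) hc
  have habs : ∀ (c : ZMod 2) (f : Pt F p → ℝ), |av (fun x => sgn c * f x)| = |av f| := fun c f => by
    rw [av_const_mul, abs_mul, abs_sgn, one_mul]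
  by_cases hf : TrC (PP ω₀ false (fun a => Mm false a none))
  · obtain ⟨c, hc⟩ := hf
    have h1 := cst false c hc
    by_cases ht : TrC (PP ω₀ true (fun a => Mm true a none))
    · obtain ⟨c', hc'⟩ := ht
      have h2 := cst true c' hc'
      have h3 := Zw_signs (hs.reg _ h0) hu hM hc hc'
      refine ⟨fun _ => 0, fun _ => 0, fun _ => by simp, fun _ => by simp, Or.inl ⟨hz, hz⟩, ?_⟩
      refine main (fun _ _ => 0 * 0) (fun x y => |a false x - sgn c| + |a true y - sgn c'|)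
        (fun _ _ => by positivity) (fun x y => ?_) ?_
      · have t1 := MTools_abs_mul (le_refl |a false x - sgn c|) (ha1 true y)
        have t2 := MTools_mul_abs (abs_sgn c).le (le_refl |a true y - sgn c'|)
        nlinarith [neg_abs_le ((a false x - sgn c) * a true y),
          neg_abs_le (sgn c * (a true y - sgn c'))]
      · simp only [av_add, av_const]; linarith
    · refine ⟨fun _ => 1, fun y => sgn c * a true y, fun _ => by simp,
        fun y => Three_abs_mul (abs_sgn c).le (ha1 _ _),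
        Or.inr (Or.inr ⟨rfl, by rw [habs]; exact bal true ht⟩), ?_⟩
      refine main (fun _ y => 1 * (sgn c * a true y)) (fun x _ => |a false x - sgn c|)
        (fun _ _ => abs_nonneg _) (fun x y => ?_) ?_
      · have t1 := MTools_abs_mul (le_refl |a false x - sgn c|) (ha1 true y)
        nlinarith [neg_abs_le ((a false x - sgn c) * a true y)]
      · simp only [av_const]; linarith
  · by_cases ht : TrC (PP ω₀ true (fun a => Mm true a none))
    · obtain ⟨c, hc⟩ := ht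
      have h1 := cst true c hc
      refine ⟨fun x => sgn c * a false x, fun _ => 1,
        fun y => Three_abs_mul (abs_sgn c).le (ha1 _ _), fun _ => by simp,
        Or.inr (Or.inl ⟨by rw [habs]; exact bal false hf, rfl⟩), ?_⟩
      refine main (fun x _ => sgn c * a false x * 1) (fun _ y => |a true y - sgn c|)
        (fun _ _ => abs_nonneg _) (fun x y => ?_) ?_
      · have t1 := MTools_mul_abs (ha1 false x) (le_refl |a true y - sgn c|)
        nlinarith [neg_abs_le (a false x * (a true y - sgn c))]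
      · simp only [av_const]; linarith
    · refine ⟨a false, a true, ha1 _, ha1 _, Or.inl ⟨bal false hf, bal true ht⟩, ?_⟩
      refine main (fun x y => a false x * a true y) (fun _ _ => 0) (fun _ _ => le_rfl)
        (fun _ _ => by simp) ?_
      simp only [av_zero]; linarith

end

end Vale.Agent.P060
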